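import Vale.Agent.Lib.P368.Select

/-! The core theorem: no advantage for a family of states with local flips, one gate layer and a
six-term observable. -/

namespace Vale.Agent.Lib.P368

open Matrix Finset
open scoped Matrix.Norms.L2Operator InnerProductSpace

set_option linter.unusedSectionVars false
set_option linter.unusedSimpArgs false
set_option linter.unusedVariables false

variable {Q I G : Type} [Fintype Q] [DecidableEq Q] [DecidableEq I] [DecidableEq G]

/-- The reflection `1 - 2 p`. -/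
noncomputable def refl (p : Op Q) : Op Q := 1 - (2 : ℂ) • p

lemma refl_star {p : Op Q} (hp : IsStarProjection p) : star (refl p) = refl p := by
  unfold refl
  simp [hp.isSelfAdjoint.star_eq]

lemma refl_sq {p : Op Q} (hp : IsStarProjection p) : refl p * refl p = 1 := by
  have h : p * p = p := hp.isIdempotentElem.eq
  unfold refl
  have h2 : ((2 : ℂ) • p) = p + p := two_smul ℂ p
  rw [h2]
  have h3 : (1 - (p + p)) * (1 - (p + p)) = 1 - (p + p) - (p + p) + (p * p + p * p + p * p + p * p) := by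
    noncomm_ring
  rw [h3, h]
  abel

lemma refl_mem {p : Op Q} {S : Finset Q} (hp : p ∈ Alg S) : refl p ∈ Alg S :=
  (Alg S).sub_mem (Alg S).one_mem ((Alg S).smul_mem hp 2)

/-- The gate attached to a family of projectors. -/
noncomputable def gateOf (π : Q → M2) : Op Q := refl (tp π)

lemma gate_reduce {π : Q → M2} (hπ : ∀ q, IsStarProjection (π q)) (A C : Finset Q)
    (hAC : Disjoint A C) :
    gateOf π * (1 - Rr π A * (1 - Rr π C)) = refl (Rr π Cᶜ) * (1 - Rr π A * (1 - Rr π C)) := by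
  set a := Rr π A with ha
  set c := Rr π C with hc
  set d := Rr π Cᶜ with hd
  have hdc : d * c = tp π := by
    have hu : Cᶜ ∪ C = Finset.univ := by
      ext q
      simp [em']
    rw [hd, hc, Rr_mul hπ, hu, Rr_univ]
  have hda : d * a = d := by
    rw [hd, ha, Rr_mul hπ]
    congr 1
    exact Finset.union_eq_left.mpr (Finset.subset_compl_iff_disjoint_right.mpr hAC)
  have hac : Commute a c := Rr_comm hπ _ _
  set e := 1 - c with he
  have hee : e * e = e := (Rr_proj hπ C).one_sub.isIdempotentElem.eq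
  have hae : Commute a e := (Commute.one_right _).sub_right hac
  have ht : gateOf π - refl d = (2 : ℂ) • (d * e) := by
    unfold gateOf refl
    rw [← hdc, he, mul_sub, mul_one, smul_sub]
    abel
  have hzero : (gateOf π - refl d) * (1 - a * e) = 0 := by
    rw [ht, smul_mul_assoc]
    have : d * e * (1 - a * e) = 0 := by
      rw [mul_sub, mul_one]
      have h1 : d * e * (a * e) = d * e := by
        calc d * e * (a * e) = d * (e * a) * e := by simp only [mul_assoc]
          _ = d * (a * e) * e := by rw [hae.symm.eq]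
          _ = (d * a) * (e * e) := by simp only [mul_assoc]
          _ = d * e := by rw [hda, hee]
      rw [h1, sub_self]
    rw [this, smul_zero]
  exact sub_eq_zero.mp (by rw [← sub_mul]; exact hzero)

namespace FlipSys

variable (P : FlipSys Q I)

lemma union_J {π : Q → M2} (hπ : ∀ q, IsStarProjection (π q)) (J : Finset I) (v : Vec (Q → Bool)) :
    ‖act (1 - Rr π (P.BU J)) v‖ ^ 2 ≤ ∑ j ∈ J, ‖act (1 - Rr π (P.B j)) v‖ ^ 2 := by
  induction J using Finset.induction_on with
  | empty =>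
    rw [P.BU_empty, Rr_empty, sub_self]
    simp [act]
  | insert j J hj ih =>
    rw [Finset.sum_insert hj]
    have hE : IsStarProjection (1 - Rr π (P.B j)) := (Rr_proj hπ _).one_sub
    have hc : Commute (1 - Rr π (P.B j)) (Rr π (P.BU J)) :=
      (Commute.one_left _).sub_left (Rr_comm hπ _ _)
    have h := union_two hE (Rr_proj hπ (P.BU J)) hc v
    have h2 : 1 - (1 - (1 - Rr π (P.B j))) * Rr π (P.BU J) = 1 - Rr π (P.BU (insert j J)) := by
      rw [P.BU_insert, ← Rr_mul hπ]
      simp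
    rw [h2] at h
    linarith

end FlipSys

/-- Six-term bound. -/
lemma six_bound {I G : Type} (W : I → Op Q) (B : I → Finset Q) (S : G → Finset Q) (t : G → Op Q)
    (is : List I) (gs : List G)
    (h1 : is.Nodup)
    (h2 : ∀ i ∈ is, star (W i) = W i ∧ W i * W i = 1 ∧ W i ∈ Alg (B i))
    (h3 : is.Pairwise (fun i j => Disjoint (B i) (B j)))
    (h4 : ∀ l ∈ gs, star (t l) = t l ∧ t l * t l = 1 ∧ t l ∈ Alg (S l))
    (h5 : gs.Pairwise (fun a b => Disjoint (S a) (S b)))
    (h6 : ∀ l ∈ gs, ∀ i ∈ is, ∀ j ∈ is, ¬ Disjoint (S l) (B i) → ¬ Disjoint (S l) (B j) → i = j)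
    (E1 E2 E3 E4 E5 E6 : Q → M2)
    (hE1 : ∀ q, IsStarProjection (E1 q)) (hE2 : ∀ q, IsStarProjection (E2 q))
    (hE3 : ∀ q, IsStarProjection (E3 q)) (hE4 : ∀ q, IsStarProjection (E4 q))
    (hE5 : ∀ q, IsStarProjection (E5 q)) (hE6 : ∀ q, IsStarProjection (E6 q)) :
    ‖DD W is (lprod t gs * (tp E1 - tp E2 + tp E3 - tp E4 - tp E5 + tp E6) * lprod t gs)‖
      ≤ 6 * (1 / 2 : ℝ) ^ is.length := by
  set T := lprod t gs with hT
  have key : ∀ E : Q → M2, (∀ q, IsStarProjection (E q)) →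
      ‖DD W is (T * tp E * T)‖ ≤ (1 / 2 : ℝ) ^ is.length :=
    fun E hE => lemmaT W B S t is gs E h1 h2 h3 h4 h5 h6 hE
  have hexp : T * (tp E1 - tp E2 + tp E3 - tp E4 - tp E5 + tp E6) * T
      = T * tp E1 * T - T * tp E2 * T + T * tp E3 * T - T * tp E4 * T - T * tp E5 * T
        + T * tp E6 * T := by
    simp only [mul_add, mul_sub, add_mul, sub_mul]
  rw [hexp]
  simp only [DD_add, DD_sub]
  have k1 := key E1 hE1
  have k2 := key E2 hE2
  have k3 := key E3 hE3
  have k4 := key E4 hE4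
  have k5 := key E5 hE5
  have k6 := key E6 hE6
  calc _ ≤ ‖DD W is (T * tp E1 * T)‖ + ‖DD W is (T * tp E2 * T)‖ + ‖DD W is (T * tp E3 * T)‖
        + ‖DD W is (T * tp E4 * T)‖ + ‖DD W is (T * tp E5 * T)‖ + ‖DD W is (T * tp E6 * T)‖ := by
        refine (norm_add_le _ _).trans (add_le_add_left ?_ _)
        refine (norm_sub_le _ _).trans (add_le_add_left ?_ _)
        refine (norm_sub_le _ _).trans (add_le_add_left ?_ _)
        refine (norm_add_le _ _).trans (add_le_add_left ?_ _)
        exact norm_sub_le _ _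
    _ ≤ _ := by linarith

namespace FlipSys

variable (P : FlipSys Q I)

/-- The core theorem. -/
theorem core [Fintype I] (π : G → Q → M2) (hπ : ∀ l q, IsStarProjection (π l q))
    (supp : G → Finset Q) (hoff : ∀ l q, q ∉ supp l → π l q = 1) (gs : List G) (hnd : gs.Nodup)
    (hdisj : gs.Pairwise fun a b => Disjoint (supp a) (supp b))
    (w τ : ℝ) (hτ : 0 < τ) (N0 : ℕ) (hN0 : w ≤ N0 * τ)
    (hw : ∀ o, ((gs.toFinset.filter fun l => ¬ Disjoint (P.B o) (supp l)).card : ℝ) ≤ w)
    (m : ℕ) (hm : m * (1 + N0) ≤ Fintype.card I)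
    (N : Op Q) (hNstar : star N = N) (hNnorm : ‖N‖ ≤ 1)
    (E1 E2 E3 E4 E5 E6 : Q → M2)
    (hE1 : ∀ q, IsStarProjection (E1 q)) (hE2 : ∀ q, IsStarProjection (E2 q))
    (hE3 : ∀ q, IsStarProjection (E3 q)) (hE4 : ∀ q, IsStarProjection (E4 q))
    (hE5 : ∀ q, IsStarProjection (E5 q)) (hE6 : ∀ q, IsStarProjection (E6 q))
    (hN : N = tp E1 - tp E2 + tp E3 - tp E4 - tp E5 + tp E6)
    (sgn : (I → Bool) → ℝ) (hsgn : ∀ i z, sgn (flip i z) = - sgn z) (hsgn1 : ∀ z, |sgn z| = 1)
    (κ : ℝ)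
    (hκ : ∀ z, κ ≤ sgn z * ev N (act (lprod (fun l => gateOf (π l)) gs) (P.φ z))) :
    κ - 4 * m * Real.sqrt τ ≤ 6 * (1 / 2 : ℝ) ^ m := by
  obtain ⟨I', y', J, Fg, -, hI'card, -, hJ, hFg, hadj, herr⟩ :=
    P.select π hπ supp hoff gs.toFinset w hw τ hτ N0 hN0 m Finset.univ (fun _ => false) gs.toFinset
      (Finset.Subset.refl _) (by simpa using hm)
  set t : G → Op Q := fun l => gateOf (π l) with ht
  set S : G → Finset Q := fun l => supp l \ P.BU (J l) with hS
  set t' : G → Op Q := fun l => refl (Rr (π l) (P.BU (J l))ᶜ) with ht'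
  set Pj : G → Op Q := fun l => Rr (π l) (P.BU (Fg l)) * (1 - Rr (π l) (P.BU (J l))) with hPj
  have hdisjFJ : ∀ l, Disjoint (P.BU (Fg l)) (P.BU (J l)) := by
    intro l
    refine P.disjoint_BU_BU ?_
    rw [Finset.disjoint_left]
    intro a ha ha'
    exact (Finset.mem_sdiff.mp (hFg l ha)).2 (hJ l ha')
  -- gates: membership and algebra
  have htmem : ∀ l, t l ∈ Alg (supp l) := fun l =>
    refl_mem (tp_mem_Alg (hoff l))
  have ht'mem0 : ∀ l, t' l ∈ Alg (S l) := by
    intro l
    refine refl_mem ?_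
    have h1 := Rr_mem_inter (hoff l) (P.BU (J l))ᶜ
    have h2 : (P.BU (J l))ᶜ ∩ supp l ⊆ S l := by
      intro a ha
      rw [Finset.mem_inter, Finset.mem_compl] at ha
      exact Finset.mem_sdiff.mpr ⟨ha.2, ha.1⟩
    exact Alg_mem_mono h2 h1
  have hSsub : ∀ l, S l ⊆ supp l := fun l => Finset.sdiff_subset
  have ht'mem : ∀ l, t' l ∈ Alg (supp l) := fun l => Alg_mem_mono (hSsub l) (ht'mem0 l)
  have hPjmem : ∀ l, Pj l ∈ Alg (supp l) := fun l =>
    (Alg (supp l)).mul_mem (Rr_mem_supp (hoff l) _)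
      ((Alg (supp l)).sub_mem (Alg (supp l)).one_mem (Rr_mem_supp (hoff l) _))
  have hPjproj : ∀ l, IsStarProjection (Pj l) := fun l =>
    (Rr_proj (hπ l) _).mul (Rr_proj (hπ l) _).one_sub
      ((Commute.one_right _).sub_right (Rr_comm (hπ l) _ _))
  have htstar : ∀ l, star (t l) = t l := fun l => refl_star (tp_proj (hπ l))
  have htsq : ∀ l, t l * t l = 1 := fun l => refl_sq (tp_proj (hπ l))
  have ht'star : ∀ l, star (t' l) = t' l := fun l => refl_star (Rr_proj (hπ l) _)
  have ht'sq : ∀ l, t' l * t' l = 1 := fun l => refl_sq (Rr_proj (hπ l) _)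
  have hreduce : ∀ l, t l * (1 - Pj l) = t' l * (1 - Pj l) := fun l =>
    gate_reduce (hπ l) _ _ (hdisjFJ l)
  have hpc : ∀ (f g : G → Op Q), (∀ l, f l ∈ Alg (supp l)) → (∀ l, g l ∈ Alg (supp l)) →
      gs.Pairwise fun a b => Commute (f a) (g b) := fun f g hf hg =>
    hdisj.imp fun {a b} h => Alg_commute h (hf a) (hg b)
  have hTinv := lprod_invol t gs (hpc t t htmem htmem) (fun l _ => htstar l) (fun l _ => htsq l)
  have hT'inv := lprod_invol t' gs (hpc t' t' ht'mem ht'mem) (fun l _ => ht'star l)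
    (fun l _ => ht'sq l)
  set T := lprod t gs with hT
  set T' := lprod t' gs with hT'
  have hTiso : star T * T = 1 := by rw [hTinv.1, hTinv.2]
  have hT'iso : star T' * T' = 1 := by rw [hT'inv.1, hT'inv.2]
  -- the error of the replacement
  have hnear : ∀ x, (∀ i, i ∉ I' → x i = y' i) →
      ‖act T (P.φ x) - act T' (P.φ x)‖ ≤ 2 * m * Real.sqrt τ := by
    intro x hx
    have h1 := error_lemma t t' Pj gs (fun l _ => hPjproj l) (hpc Pj Pj hPjmem hPjmem)
      (hpc Pj t hPjmem htmem) (hpc Pj t' hPjmem ht'mem) (fun l _ => hreduce l) hTiso hT'iso (P.φ x)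
    have h2 : (gs.map fun l => ‖act (Pj l) (P.φ x)‖ ^ 2).sum
        = ∑ l ∈ gs.toFinset, ‖act (Pj l) (P.φ x)‖ ^ 2 :=
      (List.sum_toFinset _ hnd).symm
    have h3 : ∀ l ∈ gs.toFinset, ‖act (Pj l) (P.φ x)‖ ^ 2
        ≤ ∑ j ∈ J l, P.loss (π l) j (Fg l) x := by
      intro l _
      have hcomm : Commute (Rr (π l) (P.BU (Fg l))) (1 - Rr (π l) (P.BU (J l))) :=
        (Commute.one_right _).sub_right (Rr_comm (hπ l) _ _)
      have : act (Pj l) (P.φ x)
          = act (1 - Rr (π l) (P.BU (J l))) (act (Rr (π l) (P.BU (Fg l))) (P.φ x)) := by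
        rw [← act_mul, hPj]
        simp only
        rw [hcomm.eq]
      rw [this]
      exact P.union_J (hπ l) (J l) _
    have h4 := herr x hx
    have h5 : ‖act T (P.φ x) - act T' (P.φ x)‖ ^ 2 ≤ (2 * m * Real.sqrt τ) ^ 2 := by
      have h6 : (2 * m * Real.sqrt τ) ^ 2 = 4 * ((m : ℝ) ^ 2 * τ) := by
        rw [mul_pow, mul_pow, Real.sq_sqrt hτ.le]
        ring
      rw [h6]
      refine h1.trans ?_
      rw [h2]
      have := Finset.sum_le_sum h3
      linarith
    exact (sq_le_sq₀ (norm_nonneg _) (by positivity)).mp h5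
  -- the perturbed inequality
  have hpert : ∀ x, (∀ i, i ∉ I' → x i = y' i) →
      κ - 4 * m * Real.sqrt τ ≤ sgn x * ev (T' * N * T') (P.φ x) := by
    intro x hx
    have h1 := hκ x
    have h2 := hnear x hx
    have hu : ‖act T (P.φ x)‖ = 1 := by rw [norm_act_of_star_mul _ hTiso, P.φ_unit]
    have hv : ‖act T' (P.φ x)‖ = 1 := by rw [norm_act_of_star_mul _ hT'iso, P.φ_unit]
    have h3 := abs_ev_sub_le hNstar hNnorm hu hv
    have h4 : ev (T' * N * T') (P.φ x) = ev N (act T' (P.φ x)) := by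
      rw [← ev_conj, hT'inv.1]
    rw [h4]
    have h5 : sgn x * (ev N (act T (P.φ x)) - ev N (act T' (P.φ x)))
        ≤ |sgn x * (ev N (act T (P.φ x)) - ev N (act T' (P.φ x)))| := le_abs_self _
    rw [abs_mul, hsgn1, one_mul] at h5
    have h6 : sgn x * ev N (act T (P.φ x)) = sgn x * ev N (act T' (P.φ x))
        + sgn x * (ev N (act T (P.φ x)) - ev N (act T' (P.φ x))) := by ring
    change κ ≤ sgn x * ev N (act T (P.φ x)) at h1
    linarith
  -- sign induction and product bound
  set is := I'.toList with his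
  have hlen : is.length = m := by rw [his, Finset.length_toList, hI'card]
  have hfinal := sign_induction P.φ P.W sgn P.flip_eq P.W_star hsgn (κ - 4 * m * Real.sqrt τ)
    (T' * N * T') is y' (fun x hx => hpert x fun i hi => hx i (by simpa [his] using hi))
  have hbound : ‖DD P.W is (T' * N * T')‖ ≤ 6 * (1 / 2 : ℝ) ^ is.length := by
    rw [hN]
    refine six_bound P.W P.B S t' is gs (Finset.nodup_toList _)
      (fun i _ => ⟨P.W_star i, P.W_sq i, P.W_mem i⟩)
      ((Finset.nodup_toList _).imp fun {a b} h => P.B_disj a b h)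
      (fun l _ => ⟨ht'star l, ht'sq l, ht'mem0 l⟩)
      (hdisj.imp fun {a b} h =>
        Finset.disjoint_of_subset_left (hSsub a) (Finset.disjoint_of_subset_right (hSsub b) h))
      ?_ E1 E2 E3 E4 E5 E6 hE1 hE2 hE3 hE4 hE5 hE6
    intro l hl i hi j hj hdi hdj
    have hmemI : ∀ a, a ∈ is → a ∈ I' := fun a ha => by simpa [his] using ha
    have hnotJ : ∀ a, ¬ Disjoint (S l) (P.B a) → a ∉ J l ∧ ¬ Disjoint (P.B a) (supp l) := by
      intro a ha
      constructor
      · intro haJ
        apply ha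
        rw [Finset.disjoint_left]
        intro q hq hq'
        exact (Finset.mem_sdiff.mp hq).2 (P.subset_BU haJ hq')
      · intro hcon
        apply ha
        exact (Finset.disjoint_of_subset_left (hSsub l) hcon.symm)
    exact hadj l (List.mem_toFinset.mpr hl) i (hmemI i hi) j (hmemI j hj) (hnotJ i hdi).1
      (hnotJ j hdj).1 (hnotJ i hdi).2 (hnotJ j hdj).2
  rw [hlen] at hbound
  have h7 := abs_ev_le (DD P.W is (T' * N * T')) (P.φ y')
  rw [P.φ_unit, one_pow, mul_one] at h7
  have h8 : sgn y' * ev (DD P.W is (T' * N * T')) (P.φ y')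
      ≤ |sgn y' * ev (DD P.W is (T' * N * T')) (P.φ y')| := le_abs_self _
  rw [abs_mul, hsgn1, one_mul] at h8
  linarith

end FlipSys

end Vale.Agent.Lib.P368
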