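import Vale.Agent.Lib.P368.Defs

/-! The parity correlation of a circuit started on `|x⟩ ⊗ ψ` for an arbitrary ancilla state `ψ`. -/

namespace Vale.Agent.Lib.P368

open Finset

/-- The amplitudes of the state `|x⟩ ⊗ ψ`: the amplitude of a basis string `s` is `ψ` of its ancilla
part when its input part equals `x`, and `0` otherwise. -/
def inputAmp {n : ℕ} {A : Type} (ψ : (A → Bool) → ℂ) (x : Fin n → Bool) :
    (Fin n ⊕ A → Bool) → ℂ :=
  fun s => if ∀ i, s (Sum.inl i) = x i then ψ fun a => s (Sum.inr a) else 0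

/-- The probability that measuring qubit `q` in the computational basis gives `b`, when the circuit
runs on `|x⟩ ⊗ ψ`. -/
noncomputable def Circuit3.probOn {n : ℕ} {A : Type} [Fintype A] [DecidableEq A]
    (C : Circuit3 (Fin n ⊕ A)) (ψ : (A → Bool) → ℂ) (q : Fin n ⊕ A) (x : Fin n → Bool) (b : Bool) :
    ℝ :=
  ∑ s ∈ Finset.univ.filter (fun s : Fin n ⊕ A → Bool => s q = b),
    ‖(C.unitary.mulVec (inputAmp ψ x)) s‖ ^ 2

/-- The parity correlation: the average over uniform `x` of `Pr[correct] - Pr[wrong]`. -/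
noncomputable def Circuit3.correlationOn {n : ℕ} {A : Type} [Fintype A] [DecidableEq A]
    (C : Circuit3 (Fin n ⊕ A)) (ψ : (A → Bool) → ℂ) (q : Fin n ⊕ A) : ℝ :=
  (∑ x : Fin n → Bool, (C.probOn ψ q x (parityOf x) - C.probOn ψ q x (!parityOf x))) / 2 ^ n

end Vale.Agent.Lib.P368
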