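import Mathlib

/-! The pool of free input bits. -/

namespace Vale.Agent.Lib.P368

open Finset

theorem pool_exists {α G : Type} [Fintype α] [DecidableEq α] [DecidableEq G] (Gs : Finset G)
    (inp : G → Finset α) (hdisj : ∀ g ∈ Gs, ∀ h ∈ Gs, g ≠ h → Disjoint (inp g) (inp h))
    (sz : G → ℕ) (t w : ℕ) (ht : 1 ≤ t) :
    ∃ P : Finset α,
      Fintype.card α ≤ 4 * t * P.card + 2 * t *
        (Gs.filter fun g => (inp g).card < 2 * t ∧ w < sz g ∧ (inp g).Nonempty).card ∧
      (∀ i ∈ P, ∀ g ∈ Gs, i ∈ inp g → 2 * t ≤ (inp g).card ∨ sz g ≤ w) ∧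
      (∀ g ∈ Gs, (inp g).card < 2 * t → ∀ i ∈ P, ∀ j ∈ P, i ∈ inp g → j ∈ inp g → i = j) ∧
      (∀ g ∈ Gs, 2 * t ≤ (inp g).card → t ≤ (inp g \ P).card) := by
  classical
  have hpk : ∀ g, ∃ pk : Finset α, pk ⊆ inp g ∧
      (inp g).card ≤ 4 * t * pk.card + 2 * t *
        (if (inp g).card < 2 * t ∧ w < sz g ∧ (inp g).Nonempty then 1 else 0) ∧
      (pk.Nonempty → 2 * t ≤ (inp g).card ∨ sz g ≤ w) ∧
      ((inp g).card < 2 * t → pk.card ≤ 1) ∧
      (2 * t ≤ (inp g).card → t ≤ (inp g \ pk).card) := by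
    intro g
    by_cases h1 : 2 * t ≤ (inp g).card
    · obtain ⟨pk, hsub, hcard⟩ := Finset.exists_subset_card_eq (s := inp g)
        (n := (inp g).card - t) (Nat.sub_le _ _)
      refine ⟨pk, hsub, ?_, fun _ => Or.inl h1, fun h => absurd h1 (by omega), fun _ => ?_⟩
      · have h2 : (inp g).card ≤ 2 * pk.card := by omega
        have h3 : 2 * pk.card ≤ 4 * t * pk.card := by nlinarith
        have h4 : 0 ≤ 2 * t * (if (inp g).card < 2 * t ∧ w < sz g ∧ (inp g).Nonempty then 1 else 0) :=
          Nat.zero_le _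
        omega
      · rw [Finset.card_sdiff_of_subset hsub, hcard]
        omega
    · by_cases h2 : w < sz g ∧ (inp g).Nonempty
      · refine ⟨∅, Finset.empty_subset _, ?_, by simp, by simp, fun h => absurd h h1⟩
        have : (inp g).card < 2 * t ∧ w < sz g ∧ (inp g).Nonempty := ⟨by omega, h2⟩
        rw [if_pos this]
        simp only [Finset.card_empty, mul_zero, zero_add, mul_one]
        omega
      · by_cases h3 : (inp g).Nonempty
        · obtain ⟨a, ha⟩ := h3
          have h4 : sz g ≤ w := by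
            by_contra hcon
            exact h2 ⟨by omega, ⟨a, ha⟩⟩
          refine ⟨{a}, by simpa using ha, ?_, fun _ => Or.inr h4, by simp, fun h => absurd h h1⟩
          have h5 : 0 ≤ 2 * t * (if (inp g).card < 2 * t ∧ w < sz g ∧ (inp g).Nonempty then 1 else 0) :=
            Nat.zero_le _
          simp only [Finset.card_singleton, mul_one]
          omega
        · have h4 : inp g = ∅ := Finset.not_nonempty_iff_eq_empty.mp h3
          refine ⟨∅, by simp [h4], by simp [h4], by simp, by simp, fun h => absurd h h1⟩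
  choose pk hpk1 hpk2 hpk3 hpk4 hpk5 using hpk
  set free : Finset α := Finset.univ \ Gs.biUnion inp with hfree
  set P : Finset α := free ∪ Gs.biUnion pk with hP
  have hmemP : ∀ i ∈ P, ∀ g ∈ Gs, i ∈ inp g → i ∈ pk g := by
    intro i hi g hg hig
    rcases Finset.mem_union.mp hi with h | h
    · exact absurd (Finset.mem_biUnion.mpr ⟨g, hg, hig⟩) (Finset.mem_sdiff.mp h).2
    · obtain ⟨g', hg', hig'⟩ := Finset.mem_biUnion.mp h
      by_cases hgg : g = g'
      · rw [hgg]; exact hig'
      · exact absurd (hpk1 g' hig') (Finset.disjoint_left.mp (hdisj g hg g' hg' hgg) hig)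
  refine ⟨P, ?_, ?_, ?_, ?_⟩
  · -- the count
    have h1 : free.card + (Gs.biUnion inp).card = Fintype.card α := by
      rw [hfree, Finset.card_sdiff_add_card_eq_card (Finset.subset_univ _), Finset.card_univ]
    have h2 : (Gs.biUnion inp).card = ∑ g ∈ Gs, (inp g).card :=
      Finset.card_biUnion fun g hg h hh hgh => hdisj g hg h hh hgh
    have h3 : (Gs.biUnion pk).card = ∑ g ∈ Gs, (pk g).card :=
      Finset.card_biUnion fun g hg h hh hgh =>
        Finset.disjoint_of_subset_left (hpk1 g) (Finset.disjoint_of_subset_right (hpk1 h)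
          (hdisj g hg h hh hgh))
    have h4 : Disjoint free (Gs.biUnion pk) := by
      rw [Finset.disjoint_left]
      intro a ha hb
      obtain ⟨g, hg, hag⟩ := Finset.mem_biUnion.mp hb
      exact (Finset.mem_sdiff.mp ha).2 (Finset.mem_biUnion.mpr ⟨g, hg, hpk1 g hag⟩)
    have h5 : P.card = free.card + ∑ g ∈ Gs, (pk g).card := by
      rw [hP, Finset.card_union_of_disjoint h4, h3]
    have h6 : (Gs.filter fun g => (inp g).card < 2 * t ∧ w < sz g ∧ (inp g).Nonempty).card
        = ∑ g ∈ Gs, (if (inp g).card < 2 * t ∧ w < sz g ∧ (inp g).Nonempty then 1 else 0) :=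
      Finset.card_filter _ _
    have h7 : ∑ g ∈ Gs, (inp g).card ≤ 4 * t * ∑ g ∈ Gs, (pk g).card + 2 * t *
        ∑ g ∈ Gs, (if (inp g).card < 2 * t ∧ w < sz g ∧ (inp g).Nonempty then 1 else 0) := by
      rw [Finset.mul_sum, Finset.mul_sum, ← Finset.sum_add_distrib]
      exact Finset.sum_le_sum fun g _ => hpk2 g
    rw [h6, h5, ← h1, h2]
    have h8 : free.card ≤ 4 * t * free.card := by nlinarith
    rw [mul_add]
    omega
  · intro i hi g hg hig
    exact hpk3 g ⟨i, hmemP i hi g hg hig⟩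
  · intro g hg hlt i hi j hj hig hjg
    exact Finset.card_le_one.mp (hpk4 g hlt) i (hmemP i hi g hg hig) j (hmemP j hj g hg hjg)
  · intro g hg hle
    refine (hpk5 g hle).trans (Finset.card_le_card ?_)
    intro a ha
    have ha1 := (Finset.mem_sdiff.mp ha).1
    have ha2 := (Finset.mem_sdiff.mp ha).2
    exact Finset.mem_sdiff.mpr ⟨ha1, fun h => ha2 (hmemP a h g hg ha1)⟩

end Vale.Agent.Lib.P368
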