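import Vale.Agent.Lib.P368.Observable
import Vale.Agent.Lib.P368.Pool

/-! The first layer: removing the gates with many inputs and building the flips. -/

namespace Vale.Agent.Lib.P368

open Matrix Finset
open scoped Matrix.Norms.L2Operator InnerProductSpace

set_option linter.unusedSectionVars false
set_option linter.unusedSimpArgs false
set_option linter.unusedVariables false

variable {Q : Type} [Fintype Q] [DecidableEq Q]

/-! ### Removing gates -/

lemma refl_mul_one_sub {p : Op Q} (hp : IsStarProjection p) : refl p * (1 - p) = 1 - p := by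
  unfold refl
  have h : p * (1 - p) = 0 := hp.mul_one_sub_self
  rw [sub_mul, one_mul, smul_mul_assoc, h, smul_zero, sub_zero]

lemma lprod_filter_ite {G : Type} (b : G → Bool) (f : G → Op Q) (l : List G) :
    lprod (fun g => if b g then 1 else f g) l = lprod f (l.filter fun g => !b g) := by
  induction l with
  | nil => rfl
  | cons a l ih =>
    by_cases hb : b a = true
    · simp only [lprod_cons, hb, if_true, one_mul, ih, List.filter_cons, Bool.not_true,
        Bool.false_eq_true, if_false]
    · simp only [lprod_cons, hb, if_false, ih, List.filter_cons, Bool.false_eq_true, Bool.not_false,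
        if_true, Bool.not_eq_true]

lemma sum_filter_ite {G : Type} (b : G → Bool) (F : G → ℝ) (l : List G) :
    (l.map fun g => if b g then F g else 0).sum = ((l.filter b).map F).sum := by
  induction l with
  | nil => rfl
  | cons a l ih =>
    by_cases hb : b a = true
    · simp [hb, ih, List.filter_cons]
    · simp [hb, ih, List.filter_cons]

/-- Removing gates from a layer changes a vector by at most the norms of the gate projectors. -/
theorem removal (gs : List (Toffoli Q)) (hd : gs.Pairwise fun g h => Disjoint g.supp h.supp)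
    (b : Toffoli Q → Bool) (u : Vec (Q → Bool)) :
    ‖act (gateLayer gs) u - act (gateLayer (gs.filter fun g => !b g)) u‖ ^ 2
      ≤ 4 * ((gs.filter b).map fun g => ‖act (tp g.pi) u‖ ^ 2).sum := by
  set t : Toffoli Q → Op Q := fun g => gateOf g.pi with ht
  set t' : Toffoli Q → Op Q := fun g => if b g then 1 else gateOf g.pi with ht'
  set P : Toffoli Q → Op Q := fun g => if b g then tp g.pi else 0 with hP
  have hPp : ∀ g, IsStarProjection (P g) := by
    intro g
    by_cases hb : b g = true
    · simpa [hP, hb] using tp_proj g.pi_proj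
    · simpa [hP, hb] using IsStarProjection.zero _
  have hPm : ∀ g, P g ∈ Alg g.supp := by
    intro g
    by_cases hb : b g = true
    · simpa [hP, hb] using tp_mem_Alg g.pi_off
    · simpa [hP, hb] using (Alg g.supp).zero_mem
  have htm : ∀ g, t g ∈ Alg g.supp := fun g => g.mat_mem
  have ht'm : ∀ g, t' g ∈ Alg g.supp := by
    intro g
    by_cases hb : b g = true
    · simpa [ht', hb] using (Alg g.supp).one_mem
    · simpa [ht', hb] using g.mat_mem
  have hpc : ∀ (f f' : Toffoli Q → Op Q), (∀ l, f l ∈ Alg l.supp) → (∀ l, f' l ∈ Alg l.supp) →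
      gs.Pairwise fun a b => Commute (f a) (f' b) := fun f f' hf hf' =>
    hd.imp fun {a b} h => Alg_commute h (hf a) (hf' b)
  have ht's : ∀ g, star (t' g) = t' g := by
    intro g
    by_cases hb : b g = true
    · simp [ht', hb]
    · simpa [ht', hb] using g.mat_star
  have ht'q : ∀ g, t' g * t' g = 1 := by
    intro g
    by_cases hb : b g = true
    · simp [ht', hb]
    · simpa [ht', hb] using g.mat_sq
  have hT := lprod_invol t gs (hpc t t htm htm) (fun l _ => l.mat_star) (fun l _ => l.mat_sq)
  have hT' := lprod_invol t' gs (hpc t' t' ht'm ht'm) (fun l _ => ht's l) (fun l _ => ht'q l)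
  have h := error_lemma t t' P gs (fun l _ => hPp l) (hpc P P hPm hPm) (hpc P t hPm htm)
    (hpc P t' hPm ht'm) (by
      intro g _
      by_cases hb : b g = true
      · simp only [hP, ht', ht, hb, if_true, one_mul]
        exact refl_mul_one_sub (tp_proj g.pi_proj)
      · simp [hP, ht', ht, hb]) (by rw [hT.1, hT.2]) (by rw [hT'.1, hT'.2]) u
  have h1 : lprod t gs = gateLayer gs := (gateLayer_eq gs).symm
  have h2 : lprod t' gs = gateLayer (gs.filter fun g => !b g) := by
    rw [gateLayer_eq]
    exact lprod_filter_ite b _ gs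
  have h3 : (gs.map fun g => ‖act (P g) u‖ ^ 2).sum
      = ((gs.filter b).map fun g => ‖act (tp g.pi) u‖ ^ 2).sum := by
    rw [← sum_filter_ite]
    congr 1
    refine List.map_congr_left fun g _ => ?_
    by_cases hb : b g = true
    · simp only [hP, hb, if_true]
    · simp only [hP, hb, if_false, Bool.false_eq_true]
      simp [act]
  rw [h1, h2, h3] at h
  exact h

/-! ### Norms of tensor products on basis vectors -/

lemma norm_tp_e_sq (E : Q → M2) (s : Q → Bool) :
    ‖act (tp E) (e s)‖ ^ 2 = ∏ q, ∑ a, ‖E q a (s q)‖ ^ 2 := by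
  rw [norm_act_e_sq, Finset.prod_univ_sum, Fintype.piFinset_univ]
  refine Finset.sum_congr rfl fun u _ => ?_
  simp only [tp, Matrix.of_apply, norm_prod, Finset.prod_pow]

lemma column_le_one {p U : M2} (hp : IsStarProjection p) (hU : U ∈ Matrix.unitaryGroup Bool ℂ)
    (b : Bool) : ∑ a, ‖(p * U) a b‖ ^ 2 ≤ 1 := by
  rw [← norm_act_e_sq, act_mul]
  have h1 := norm_act_proj_le hp (act U (e b))
  have h2 : ‖act U (e b)‖ = 1 := by
    rw [norm_act_of_star_mul _ (Matrix.mem_unitaryGroup_iff'.mp hU), norm_e]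
  rw [h2] at h1
  simpa using h1

/-- The sum of the squared entries of a matrix is the trace of `star X * X`. -/
lemma sum_sq_eq_trace (X : M2) :
    ((∑ b, ∑ a, ‖X a b‖ ^ 2 : ℝ) : ℂ) = Matrix.trace (star X * X) := by
  simp only [Matrix.trace, Matrix.diag, Matrix.mul_apply, Matrix.star_apply]
  push_cast
  refine Finset.sum_congr rfl fun b _ => Finset.sum_congr rfl fun a _ => ?_
  rw [Complex.star_def, Complex.conj_mul']

lemma trace_P1 : Matrix.trace P1 = 1 := by
  simp [Matrix.trace, P1]

lemma trace_Pm : Matrix.trace Pm = 1 := by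
  simp [Matrix.trace, Pm]

lemma Toffoli.trace_pi (g : Toffoli Q) {q : Q} (hq : q ∈ g.supp) : Matrix.trace (g.pi q) = 1 := by
  unfold Toffoli.pi
  by_cases h1 : q = g.target
  · simp [h1, trace_Pm]
  · have h2 : q ∈ g.controls := by
      rcases Finset.mem_insert.mp hq with h | h
      · exact absurd h h1
      · exact h
    simp [h1, h2, trace_P1]

lemma exists_good_bit (g : Toffoli Q) {q : Q} (hq : q ∈ g.supp) {U : M2}
    (hU : U ∈ Matrix.unitaryGroup Bool ℂ) :
    ∃ b, ∑ a, ‖(g.pi q * U) a b‖ ^ 2 ≤ 1 / 2 := by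
  have hp := g.pi_proj q
  have h1 : ((∑ b, ∑ a, ‖(g.pi q * U) a b‖ ^ 2 : ℝ) : ℂ) = 1 := by
    rw [sum_sq_eq_trace, star_mul, hp.isSelfAdjoint.star_eq]
    have h2 : star U * g.pi q * (g.pi q * U) = star U * (g.pi q * g.pi q) * U := by
      simp only [mul_assoc]
    rw [h2, hp.isIdempotentElem.eq, Matrix.trace_mul_comm, ← mul_assoc,
      Matrix.mem_unitaryGroup_iff.mp hU, one_mul, g.trace_pi hq]
  have h2 : ∑ b, ∑ a, ‖(g.pi q * U) a b‖ ^ 2 = 1 := by exact_mod_cast h1
  by_contra hcon
  push Not at hcon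
  have h3 := hcon true
  have h4 := hcon false
  rw [Fintype.sum_bool] at h2
  linarith

theorem big_bound {π U : Q → M2} (hπ : ∀ q, IsStarProjection (π q))
    (hU : ∀ q, U q ∈ Matrix.unitaryGroup Bool ℂ) (s : Q → Bool) (S : Finset Q)
    (hS : ∀ q ∈ S, ∑ a, ‖(π q * U q) a (s q)‖ ^ 2 ≤ 1 / 2) :
    ‖act (tp π) (act (tp U) (e s))‖ ^ 2 ≤ (1 / 2 : ℝ) ^ S.card := by
  rw [← act_mul, tp_mul, norm_tp_e_sq]
  have h1 : ∏ q, ∑ a, ‖(π q * U q) a (s q)‖ ^ 2
      ≤ ∏ q, (if q ∈ S then (1 / 2 : ℝ) else 1) := by
    refine Finset.prod_le_prod (fun q _ => Finset.sum_nonneg fun _ _ => by positivity) ?_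
    intro q _
    by_cases hq : q ∈ S
    · simpa [hq] using hS q hq
    · simpa [hq] using column_le_one (hπ q) (hU q) (s q)
  refine h1.trans (le_of_eq ?_)
  rw [Finset.prod_ite_mem, Finset.univ_inter, Finset.prod_const]

/-! ### Bit flips -/

/-- The NOT operator on one qubit. -/
def X2 : M2 := Matrix.of fun a b => if a = !b then 1 else 0

/-- The NOT operator on a qubit of the register. -/
noncomputable def Xq (q : Q) : Op Q := tp (Function.update (fun _ => 1) q X2)

lemma X2_star : star X2 = X2 := by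
  ext a b
  cases a <;> cases b <;> simp [X2, Matrix.star_apply]

lemma X2_sq : X2 * X2 = 1 := by
  ext a b
  cases a <;> cases b <;> simp [X2, Matrix.mul_apply]

lemma Xq_mem (q : Q) : Xq q ∈ Alg {q} := by
  refine tp_mem_Alg fun p hp => ?_
  have : p ≠ q := by simpa using hp
  rw [Function.update_of_ne this]

lemma Xq_star (q : Q) : star (Xq q) = Xq q := by
  unfold Xq
  rw [tp_star]
  congr 1
  funext p
  by_cases hp : p = q
  · subst hp; simp [X2_star]
  · simp [Function.update_of_ne hp]

lemma Xq_sq (q : Q) : Xq q * Xq q = 1 := by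
  unfold Xq
  rw [tp_mul]
  have : (fun p => Function.update (fun _ => (1 : M2)) q X2 p * Function.update (fun _ => (1 : M2)) q X2 p)
      = fun _ => (1 : M2) := by
    funext p
    by_cases hp : p = q
    · subst hp; simp [X2_sq]
    · simp [Function.update_of_ne hp]
  rw [this]
  exact tp_one

lemma Xq_apply (q : Q) (s t : Q → Bool) : Xq q s t = if s = flip q t then 1 else 0 := by
  unfold Xq tp
  simp only [Matrix.of_apply]
  rw [← Finset.mul_prod_erase _ _ (Finset.mem_univ q)]
  have h1 : ∏ p ∈ univ.erase q, Function.update (fun _ => (1 : M2)) q X2 p (s p) (t p)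
      = if (∀ p, p ≠ q → s p = t p) then 1 else 0 := by
    split_ifs with h
    · refine Finset.prod_eq_one fun p hp => ?_
      have hpq := Finset.ne_of_mem_erase hp
      rw [Function.update_of_ne hpq, h p hpq]
      simp
    · push Not at h
      obtain ⟨p, hpq, hsp⟩ := h
      refine Finset.prod_eq_zero (Finset.mem_erase.mpr ⟨hpq, Finset.mem_univ p⟩) ?_
      rw [Function.update_of_ne hpq]
      simp [Matrix.one_apply, hsp]
  rw [h1, Function.update_self]
  by_cases hst : s = flip q t
  · subst hst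
    have h2 : ∀ p, p ≠ q → flip q t p = t p := fun p hp => by
      simp [flip, Function.update_of_ne hp]
    rw [if_pos h2, if_pos rfl, mul_one]
    simp [X2, flip]
  · rw [if_neg hst]
    by_cases h : ∀ p, p ≠ q → s p = t p
    · have hq : s q ≠ !t q := by
        intro hq
        apply hst
        funext p
        by_cases hp : p = q
        · rw [hp, hq]; simp [flip]
        · rw [h p hp]; simp [flip, Function.update_of_ne hp]
      simp [X2, hq]
    · simp [h]

lemma act_Xq_e (q : Q) (t : Q → Bool) : act (Xq q) (e t) = e (flip q t) := by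
  ext s
  rw [act_e_apply, Xq_apply]
  simp only [e]
  by_cases h : s = flip q t
  · subst h; simp
  · rw [if_neg h]
    simp [PiLp.single_apply, h]

/-! ### The support of a flip -/

/-- The support of a one-qubit operator after a gate layer. -/
noncomputable def Bset (gs : List (Toffoli Q)) (q : Q) : Finset Q :=
  open Classical in
  if h : ∃ g ∈ gs, q ∈ g.supp then (Classical.choose h).supp else {q}

lemma Bset_of_mem {gs : List (Toffoli Q)} (hd : gs.Pairwise fun g h => Disjoint g.supp h.supp)
    {g : Toffoli Q} (hg : g ∈ gs) {q : Q} (hq : q ∈ g.supp) : Bset gs q = g.supp := by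
  have h : ∃ g ∈ gs, q ∈ g.supp := ⟨g, hg, hq⟩
  unfold Bset
  rw [dif_pos h]
  have h1 := (Classical.choose_spec h).1
  have h2 := (Classical.choose_spec h).2
  have : Std.Symm (fun g h : Toffoli Q => Disjoint g.supp h.supp) := ⟨fun a b h => h.symm⟩
  by_cases hne : Classical.choose h = g
  · rw [hne]
  · exact absurd hq (Finset.disjoint_left.mp (hd.forall h1 hg hne) h2)

lemma Bset_of_not {gs : List (Toffoli Q)} {q : Q} (h : ¬ ∃ g ∈ gs, q ∈ g.supp) :
    Bset gs q = {q} := by
  unfold Bset
  rw [dif_neg h]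

lemma conj_mem_Bset {gs : List (Toffoli Q)} (hd : gs.Pairwise fun g h => Disjoint g.supp h.supp)
    (q : Q) {A : Op Q} (hA : A ∈ Alg {q}) :
    gateLayer gs * A * gateLayer gs ∈ Alg (Bset gs q) := by
  rcases layer_conj hd q hA with ⟨h1, h2⟩ | ⟨g, hg, hq, h2⟩
  · rw [h2, Bset_of_not]
    · exact hA
    · rintro ⟨g, hg, hq⟩
      exact h1 g hg hq
  · rw [h2, Bset_of_mem hd hg hq]
    have h3 : A ∈ Alg g.supp := Alg_mem_mono (by simpa using hq) hA
    exact (Alg g.supp).mul_mem ((Alg g.supp).mul_mem g.mat_mem h3) g.mat_mem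

/-- The unitary of the first layers with a modified gate layer. -/
noncomputable def headOf (L1 L0 : Q → M2) (T : List (Toffoli Q)) : Op Q :=
  tp L1 * gateLayer T * tp L0

lemma headOf_unitary {L1 L0 : Q → M2} (h1 : ∀ q, L1 q ∈ Matrix.unitaryGroup Bool ℂ)
    (h0 : ∀ q, L0 q ∈ Matrix.unitaryGroup Bool ℂ) {T : List (Toffoli Q)}
    (hd : T.Pairwise fun g h => Disjoint g.supp h.supp) :
    star (headOf L1 L0 T) * headOf L1 L0 T = 1 ∧ headOf L1 L0 T * star (headOf L1 L0 T) = 1 := by
  obtain ⟨a1, a2⟩ := tp_unitary h1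
  obtain ⟨b1, b2⟩ := tp_unitary h0
  obtain ⟨c1, c2⟩ := layer_invol hd
  unfold headOf
  set A := tp L1
  set B := tp L0
  set TT := gateLayer T
  constructor
  · simp only [star_mul, c1]
    calc star B * (TT * star A) * (A * TT * B) = star B * TT * (star A * A) * TT * B := by
          simp only [mul_assoc]
      _ = star B * (TT * TT) * B := by rw [a1, mul_one]; simp only [mul_assoc]
      _ = 1 := by rw [c2, mul_one, b1]
  · simp only [star_mul, c1]
    calc A * TT * B * (star B * (TT * star A)) = A * TT * (B * star B) * TT * star A := by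
          simp only [mul_assoc]
      _ = A * (TT * TT) * star A := by rw [b2, mul_one]; simp only [mul_assoc]
      _ = 1 := by rw [c2, mul_one, a2]

/-- The flip obtained by conjugating a NOT. -/
noncomputable def flipOp (L1 L0 : Q → M2) (T : List (Toffoli Q)) (q : Q) : Op Q :=
  headOf L1 L0 T * Xq q * star (headOf L1 L0 T)

lemma flipOp_star {L1 L0 : Q → M2} {T : List (Toffoli Q)} (q : Q) :
    star (flipOp L1 L0 T q) = flipOp L1 L0 T q := by
  unfold flipOp
  simp [star_mul, Xq_star, mul_assoc]

lemma flipOp_sq {L1 L0 : Q → M2} (h1 : ∀ q, L1 q ∈ Matrix.unitaryGroup Bool ℂ)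
    (h0 : ∀ q, L0 q ∈ Matrix.unitaryGroup Bool ℂ) {T : List (Toffoli Q)}
    (hd : T.Pairwise fun g h => Disjoint g.supp h.supp) (q : Q) :
    flipOp L1 L0 T q * flipOp L1 L0 T q = 1 := by
  obtain ⟨a, b⟩ := headOf_unitary h1 h0 hd
  unfold flipOp
  set V := headOf L1 L0 T
  calc V * Xq q * star V * (V * Xq q * star V) = V * Xq q * (star V * V) * Xq q * star V := by
        simp only [mul_assoc]
    _ = V * (Xq q * Xq q) * star V := by rw [a, mul_one]; simp only [mul_assoc]
    _ = 1 := by rw [Xq_sq, mul_one, b]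

lemma flipOp_mem {L1 L0 : Q → M2} (h1 : ∀ q, L1 q ∈ Matrix.unitaryGroup Bool ℂ)
    (h0 : ∀ q, L0 q ∈ Matrix.unitaryGroup Bool ℂ) {T : List (Toffoli Q)}
    (hd : T.Pairwise fun g h => Disjoint g.supp h.supp) (q : Q) :
    flipOp L1 L0 T q ∈ Alg (Bset T q) := by
  have hL : ∀ (U : Q → M2), (∀ q, U q ∈ Matrix.unitaryGroup Bool ℂ) → ∀ {S : Finset Q} {A : Op Q},
      A ∈ Alg S → tp U * A * star (tp U) ∈ Alg S := by
    intro U hU S A hA
    rw [tp_star]
    exact Alg_conj U (fun q => star (U q)) (fun q => Matrix.mem_unitaryGroup_iff.mp (hU q))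
      (fun q => Matrix.mem_unitaryGroup_iff'.mp (hU q)) hA
  have h2 := hL L0 h0 (Xq_mem q)
  have h3 := conj_mem_Bset hd q h2
  have h4 := hL L1 h1 h3
  obtain ⟨c1, _⟩ := layer_invol hd
  have h5 : flipOp L1 L0 T q = tp L1 * (gateLayer T * (tp L0 * Xq q * star (tp L0)) * gateLayer T)
      * star (tp L1) := by
    unfold flipOp headOf
    simp only [star_mul, c1, mul_assoc]
  rw [h5]
  exact h4

/-- The flip acts on the image of a basis vector as a NOT on the basis vector. -/
lemma flipOp_act {L1 L0 : Q → M2} (h1 : ∀ q, L1 q ∈ Matrix.unitaryGroup Bool ℂ)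
    (h0 : ∀ q, L0 q ∈ Matrix.unitaryGroup Bool ℂ) {T : List (Toffoli Q)}
    (hd : T.Pairwise fun g h => Disjoint g.supp h.supp) (q : Q) (s : Q → Bool) :
    act (flipOp L1 L0 T q) (act (headOf L1 L0 T) (e s)) = act (headOf L1 L0 T) (e (flip q s)) := by
  obtain ⟨a, b⟩ := headOf_unitary h1 h0 hd
  unfold flipOp
  rw [← act_mul, mul_assoc, mul_assoc, a, mul_one, act_mul, act_Xq_e]

/-- Adjacency count. -/
lemma adj_card_le {G : Type} [DecidableEq G] (L : Finset G) (supp : G → Finset Q) (B : Finset Q)
    (hL : ∀ a ∈ L, ∀ b ∈ L, a ≠ b → Disjoint (supp a) (supp b)) :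
    (L.filter fun l => ¬ Disjoint B (supp l)).card ≤ B.card := by
  set L' := L.filter fun l => ¬ Disjoint B (supp l) with hL'
  have h1 : (L'.biUnion fun l => B ∩ supp l).card = ∑ l ∈ L', (B ∩ supp l).card := by
    refine Finset.card_biUnion fun a ha b hb hab => ?_
    have h2 := hL a (Finset.mem_filter.mp ha).1 b (Finset.mem_filter.mp hb).1 hab
    exact Finset.disjoint_of_subset_left Finset.inter_subset_right
      (Finset.disjoint_of_subset_right Finset.inter_subset_right h2)
  have h2 : (L'.biUnion fun l => B ∩ supp l).card ≤ B.card := by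
    refine Finset.card_le_card ?_
    intro a ha
    obtain ⟨l, _, hl⟩ := Finset.mem_biUnion.mp ha
    exact (Finset.mem_inter.mp hl).1
  have h3 : L'.card ≤ ∑ l ∈ L', (B ∩ supp l).card := by
    rw [Finset.card_eq_sum_ones]
    refine Finset.sum_le_sum fun l hl => ?_
    have h4 := (Finset.mem_filter.mp hl).2
    rw [Finset.not_disjoint_iff] at h4
    obtain ⟨q, hq1, hq2⟩ := h4
    exact Finset.card_pos.mpr ⟨q, Finset.mem_inter.mpr ⟨hq1, hq2⟩⟩
  omega

end Vale.Agent.Lib.P368
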