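import Vale.Agent.Lib.P368.TwoLayer
import Vale.Agent.Lib.P368.FirstLayer
import Vale.Agent.Lib.P368.CorrDefs

/-! Exponentially small parity correlation when the inputs enter after the first gate layer. -/

namespace Vale.Agent.Lib.P368

open Matrix Finset
open scoped Matrix.Norms.L2Operator InnerProductSpace

set_option linter.unusedSectionVars false
set_option linter.unusedSimpArgs false
set_option linter.unusedVariables false

variable {n : ℕ} {A : Type} [Fintype A] [DecidableEq A]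

/-- The state `|x⟩ ⊗ ψ` as a vector. -/
noncomputable def stateVec (ψ : (A → Bool) → ℂ) (x : Fin n → Bool) : Vec (Fin n ⊕ A → Bool) :=
  WithLp.toLp 2 (inputAmp ψ x)

lemma stateVec_apply (ψ : (A → Bool) → ℂ) (x : Fin n → Bool) (s : Fin n ⊕ A → Bool) :
    (stateVec ψ x) s = inputAmp ψ x s := rfl

lemma norm_stateVec (ψ : (A → Bool) → ℂ) (hψ : ∑ a, ‖ψ a‖ ^ 2 = 1) (x : Fin n → Bool) :
    ‖stateVec ψ x‖ = 1 := by
  have h1 : ‖stateVec ψ x‖ ^ 2 = 1 := by
    rw [norm_sq_eq_sum, ← hψ]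
    simp only [stateVec_apply]
    rw [← Equiv.sum_comp (Equiv.sumArrowEquivProdArrow (Fin n) A Bool).symm,
      Fintype.sum_prod_type, Finset.sum_eq_single x]
    · refine Finset.sum_congr rfl fun a _ => ?_
      simp [inputAmp, Equiv.sumArrowEquivProdArrow]
    · intro u _ hu
      refine Finset.sum_eq_zero fun a _ => ?_
      have : ¬ ∀ i, u i = x i := fun h => hu (funext h)
      simp [inputAmp, Equiv.sumArrowEquivProdArrow, this]
    · simp
  have h2 : ‖stateVec ψ x‖ ≥ 0 := norm_nonneg _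
  nlinarith

lemma flip_flip {I : Type} [DecidableEq I] (i : I) (z : I → Bool) : flip i (flip i z) = z := by
  funext j
  unfold flip
  by_cases hj : j = i
  · subst hj; simp
  · simp [Function.update_of_ne hj]

lemma act_Xq_apply {Q : Type} [Fintype Q] [DecidableEq Q] (q : Q) (v : Vec (Q → Bool))
    (s : Q → Bool) : (act (Xq q) v) s = v (flip q s) := by
  rw [act_apply, Finset.sum_eq_single (flip q s)]
  · rw [Xq_apply, flip_flip]
    simp
  · intro u _ hu
    rw [Xq_apply]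
    have : s ≠ flip q u := fun h => hu (by rw [h, flip_flip])
    simp [this]
  · simp

lemma inputAmp_flip (ψ : (A → Bool) → ℂ) (i : Fin n) (x : Fin n → Bool) (s : Fin n ⊕ A → Bool) :
    inputAmp ψ x (flip (Sum.inl i) s) = inputAmp ψ (flip i x) s := by
  unfold inputAmp
  have h1 : (fun a => flip (Sum.inl i : Fin n ⊕ A) s (Sum.inr a)) = fun a => s (Sum.inr a) := by
    funext a
    unfold flip
    rw [Function.update_of_ne (by simp)]
  have h2 : (∀ j, flip (Sum.inl i : Fin n ⊕ A) s (Sum.inl j) = x j)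
      ↔ ∀ j, s (Sum.inl j) = flip i x j := by
    constructor
    · intro h j
      have h3 := h j
      unfold flip at h3 ⊢
      by_cases hj : j = i
      · subst hj
        simp only [Function.update_self] at h3 ⊢
        rw [← h3]; simp
      · rw [Function.update_of_ne hj]
        rw [Function.update_of_ne (fun hh => hj (Sum.inl_injective hh))] at h3
        exact h3
    · intro h j
      have h3 := h j
      unfold flip at h3 ⊢
      by_cases hj : j = i
      · subst hj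
        simp only [Function.update_self] at h3 ⊢
        rw [h3]; simp
      · rw [Function.update_of_ne hj] at h3
        rw [Function.update_of_ne (fun hh => hj (Sum.inl_injective hh))]
        exact h3
  rw [h1]
  simp only [h2]

lemma stateVec_flip (ψ : (A → Bool) → ℂ) (i : Fin n) (x : Fin n → Bool) :
    stateVec ψ (flip i x) = act (Xq (Sum.inl i)) (stateVec ψ x) := by
  ext s
  rw [act_Xq_apply, stateVec_apply, stateVec_apply, inputAmp_flip]

/-- The output bias on `|x⟩ ⊗ ψ` as an expectation value. -/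
lemma Circuit3.probOn_sub (C : Circuit3 (Fin n ⊕ A)) (ψ : (A → Bool) → ℂ) (q : Fin n ⊕ A)
    (x : Fin n → Bool) :
    C.probOn ψ q x false - C.probOn ψ q x true = ev (Zq q) (act C.unitary (stateVec ψ x)) := by
  have hvec : ∀ s, (C.unitary.mulVec (inputAmp ψ x)) s = (act C.unitary (stateVec ψ x)) s := by
    intro s
    rw [act_apply]
    rfl
  rw [ev_Zq]
  unfold Circuit3.probOn
  simp only [hvec]
  rw [Finset.sum_filter, Finset.sum_filter, ← Finset.sum_sub_distrib]
  refine Finset.sum_congr rfl fun s _ => ?_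
  cases hs : s q <;> simp

lemma Circuit3.ev_unitary (C : Circuit3 (Fin n ⊕ A)) (q : Fin n ⊕ A) (v : Vec (Fin n ⊕ A → Bool)) :
    ev (Zq q) (act C.unitary v)
      = ev (gateLayer C.T2 * C.obs q * gateLayer C.T2) (act C.head v) := by
  rw [C.unitary_eq, act_mul, act_mul]
  have h1 : ev (Zq q) (act C.tail (act (gateLayer C.T2) (act C.head v)))
      = ev (C.obs q) (act (gateLayer C.T2) (act C.head v)) := (ev_conj _ _ _).symm
  rw [h1]
  have h2 := ev_conj (gateLayer C.T2) (C.obs q) (act C.head v)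
  rw [(layer_invol C.T2_disjoint).1] at h2
  exact h2.symm

/-- The signed sum. -/
noncomputable def sigSum (φ : (Fin n → Bool) → Vec (Fin n ⊕ A → Bool))
    (M : Op (Fin n ⊕ A)) : ℝ :=
  ∑ x, sgnOf (parityOf x) * ev M (φ x)

lemma sigSum_D (φ : (Fin n → Bool) → Vec (Fin n ⊕ A → Bool)) (i : Fin n) {W : Op (Fin n ⊕ A)}
    (hW : star W = W) (hφ : ∀ x, φ (flip i x) = act W (φ x)) (M : Op (Fin n ⊕ A)) :
    sigSum φ (D W M) = sigSum φ M := by
  unfold sigSum
  have hinv : Function.Involutive (flip i : (Fin n → Bool) → (Fin n → Bool)) := flip_flip i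
  have h1 : ∑ x, sgnOf (parityOf x) * ev M (act W (φ x))
      = - ∑ x, sgnOf (parityOf x) * ev M (φ x) := by
    rw [← Equiv.sum_comp (Function.Involutive.toPerm (flip i) hinv), ← Finset.sum_neg_distrib]
    refine Finset.sum_congr rfl fun x _ => ?_
    have hx : (Function.Involutive.toPerm (flip i) hinv) x = flip i x := rfl
    rw [hx, parityOf_flip, sgnOf_not, ← hφ, flip_flip]
    ring
  have h2 : ∀ x, sgnOf (parityOf x) * ev (D W M) (φ x)
      = (1 / 2) * (sgnOf (parityOf x) * ev M (φ x))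
        - (1 / 2) * (sgnOf (parityOf x) * ev M (act W (φ x))) := by
    intro x
    rw [ev_D _ _ hW]
    ring
  simp only [h2]
  rw [Finset.sum_sub_distrib, ← Finset.mul_sum, ← Finset.mul_sum, h1]
  ring

lemma sigSum_DD (φ : (Fin n → Bool) → Vec (Fin n ⊕ A → Bool)) (W : Fin n → Op (Fin n ⊕ A))
    (hW : ∀ i, star (W i) = W i) (hφ : ∀ i x, φ (flip i x) = act (W i) (φ x))
    (is : List (Fin n)) (M : Op (Fin n ⊕ A)) : sigSum φ (DD W is M) = sigSum φ M := by
  induction is with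
  | nil => rfl
  | cons i is ih =>
    simp only [DD]
    rw [sigSum_D φ i (hW i) (hφ i), ih]

lemma abs_sigSum_le (φ : (Fin n → Bool) → Vec (Fin n ⊕ A → Bool)) (hφ : ∀ x, ‖φ x‖ = 1)
    (M : Op (Fin n ⊕ A)) : |sigSum φ M| ≤ 2 ^ n * ‖M‖ := by
  unfold sigSum
  calc |∑ x, sgnOf (parityOf x) * ev M (φ x)| ≤ ∑ x, |sgnOf (parityOf x) * ev M (φ x)| :=
        Finset.abs_sum_le_sum_abs _ _
    _ ≤ ∑ _x : Fin n → Bool, ‖M‖ := by
        refine Finset.sum_le_sum fun x _ => ?_
        rw [abs_mul, abs_sgnOf, one_mul]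
        have := abs_ev_le M (φ x)
        rwa [hφ, one_pow, mul_one] at this
    _ = 2 ^ n * ‖M‖ := by
        simp [Finset.card_univ]

/-- The sum of six terms. -/
lemma six_sum {ι : Type} [Fintype ι] [DecidableEq ι] {I : Type} (W : I → Matrix ι ι ℂ)
    (is : List I) (T F1 F2 F3 F4 F5 F6 : Matrix ι ι ℂ) (ρ : ℝ)
    (h1 : ‖DD W is (T * F1 * T)‖ ≤ ρ) (h2 : ‖DD W is (T * F2 * T)‖ ≤ ρ)
    (h3 : ‖DD W is (T * F3 * T)‖ ≤ ρ) (h4 : ‖DD W is (T * F4 * T)‖ ≤ ρ)
    (h5 : ‖DD W is (T * F5 * T)‖ ≤ ρ) (h6 : ‖DD W is (T * F6 * T)‖ ≤ ρ) :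
    ‖DD W is (T * (F1 - F2 + F3 - F4 - F5 + F6) * T)‖ ≤ 6 * ρ := by
  have hexp : T * (F1 - F2 + F3 - F4 - F5 + F6) * T
      = T * F1 * T - T * F2 * T + T * F3 * T - T * F4 * T - T * F5 * T + T * F6 * T := by
    simp only [mul_add, mul_sub, add_mul, sub_mul]
  rw [hexp]
  simp only [DD_add, DD_sub]
  calc _ ≤ ‖DD W is (T * F1 * T)‖ + ‖DD W is (T * F2 * T)‖ + ‖DD W is (T * F3 * T)‖
        + ‖DD W is (T * F4 * T)‖ + ‖DD W is (T * F5 * T)‖ + ‖DD W is (T * F6 * T)‖ := by
        refine (norm_add_le _ _).trans (add_le_add_left ?_ _)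
        refine (norm_sub_le _ _).trans (add_le_add_left ?_ _)
        refine (norm_sub_le _ _).trans (add_le_add_left ?_ _)
        refine (norm_add_le _ _).trans (add_le_add_left ?_ _)
        exact norm_sub_le _ _
    _ ≤ _ := by linarith

/-- From the tenth power to the real power. -/
lemma le_rpow_of_pow_le {x : ℝ} (hx : 0 ≤ x) (k : ℕ) (h : x ^ 10 ≤ (1 / 2 : ℝ) ^ k) :
    x ≤ (1 / 2 : ℝ) ^ ((k : ℝ) / 10) := by
  have hρ : (0 : ℝ) ≤ (1 / 2 : ℝ) ^ ((k : ℝ) / 10) := by positivity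
  have h1 : ((1 / 2 : ℝ) ^ ((k : ℝ) / 10)) ^ 10 = (1 / 2 : ℝ) ^ k := by
    rw [← Real.rpow_natCast, ← Real.rpow_mul (by norm_num), ← Real.rpow_natCast]
    congr 1
    push_cast
    ring
  rw [← h1] at h
  exact (pow_le_pow_iff_left₀ hx hρ (by norm_num)).mp h

lemma Circuit3.flip_head (C : Circuit3 (Fin n ⊕ A)) (ψ : (A → Bool) → ℂ) (i : Fin n)
    (x : Fin n → Bool) :
    act C.head (stateVec ψ (flip i x))
      = act (flipOp C.L1 C.L0 C.T1 (Sum.inl i)) (act C.head (stateVec ψ x)) := by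
  have hhead : C.head = headOf C.L1 C.L0 C.T1 := rfl
  obtain ⟨a, _⟩ := headOf_unitary C.L1_unitary C.L0_unitary C.T1_disjoint
  rw [hhead, stateVec_flip]
  unfold flipOp
  rw [← act_mul _ (headOf C.L1 C.L0 C.T1), mul_assoc, mul_assoc, a, mul_one, act_mul]

/-- **Exponentially small correlation.** -/
theorem correlation_bound (C : Circuit3 (Fin n ⊕ A)) (ψ : (A → Bool) → ℂ)
    (hψ : ∑ a, ‖ψ a‖ ^ 2 = 1) (q : Fin n ⊕ A)
    (hC : ∀ g ∈ C.T1, ∀ i : Fin n, (Sum.inl i : Fin n ⊕ A) ∉ g.supp) :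
    |C.correlationOn ψ q| ≤ 6 * (1 / 2 : ℝ) ^ ((n : ℝ) / 10) := by
  set φ : (Fin n → Bool) → Vec (Fin n ⊕ A → Bool) := fun x => act C.head (stateVec ψ x) with hφ
  set W : Fin n → Op (Fin n ⊕ A) := fun i => flipOp C.L1 C.L0 C.T1 (Sum.inl i) with hW
  have hhead : C.head = headOf C.L1 C.L0 C.T1 := rfl
  have hφ1 : ∀ x, ‖φ x‖ = 1 := by
    intro x
    simp only [hφ]
    rw [norm_act_of_star_mul _ C.head_unitary, norm_stateVec ψ hψ]
  have hW1 : ∀ i, star (W i) = W i := fun i => flipOp_star _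
  have hW2 : ∀ i, W i * W i = 1 := fun i => flipOp_sq C.L1_unitary C.L0_unitary C.T1_disjoint _
  have hW3 : ∀ i, W i ∈ Alg {(Sum.inl i : Fin n ⊕ A)} := by
    intro i
    have h1 := flipOp_mem C.L1_unitary C.L0_unitary C.T1_disjoint (Sum.inl i : Fin n ⊕ A)
    rwa [Bset_of_not (by
      rintro ⟨g, hg, hig⟩
      exact hC g hg i hig)] at h1
  have hflip : ∀ i x, φ (flip i x) = act (W i) (φ x) := fun i x => C.flip_head ψ i x
  -- the correlation as a signed sum
  set M := gateLayer C.T2 * C.obs q * gateLayer C.T2 with hM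
  have hcorr : C.correlationOn ψ q = sigSum φ M / 2 ^ n := by
    unfold Circuit3.correlationOn sigSum
    congr 1
    refine Finset.sum_congr rfl fun x _ => ?_
    have h1 := C.probOn_sub ψ q x
    rw [C.ev_unitary] at h1
    rw [← hM] at h1
    simp only [hφ]
    rw [← h1]
    cases hp : parityOf x <;> simp [sgnOf]
  -- the operator bound
  set is := List.finRange n with his
  have hlen : is.length = n := List.length_finRange
  have hnd : (is.map (Sum.inl : Fin n → Fin n ⊕ A)).Nodup :=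
    (List.nodup_finRange n).map Sum.inl_injective
  have hWall : ∀ i ∈ is, star (W i) = W i ∧ W i * W i = 1
      ∧ W i ∈ Alg {(Sum.inl i : Fin n ⊕ A)} := fun i _ => ⟨hW1 i, hW2 i, hW3 i⟩
  have key : ∀ E : Fin n ⊕ A → M2, ProjFam E →
      ‖DD W is (gateLayer C.T2 * tp E * gateLayer C.T2)‖ ≤ (1 / 2 : ℝ) ^ ((n : ℝ) / 10) := by
    intro E hE
    have h1 := two_layer_bound W Sum.inl C.T2 is E C.T2_disjoint hnd hWall hE
    rw [hlen] at h1
    exact le_rpow_of_pow_le (norm_nonneg _) n h1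
  obtain ⟨E1, E2, E3, E4, E5, E6, hE1, hE2, hE3, hE4, hE5, hE6, hN⟩ := C.obs_six q
  have hbound : ‖DD W is M‖ ≤ 6 * (1 / 2 : ℝ) ^ ((n : ℝ) / 10) := by
    rw [hM, hN]
    exact six_sum W is _ _ _ _ _ _ _ _ (key E1 hE1) (key E2 hE2) (key E3 hE3) (key E4 hE4)
      (key E5 hE5) (key E6 hE6)
  have h2 : sigSum φ M = sigSum φ (DD W is M) := (sigSum_DD φ W hW1 hflip is M).symm
  have h3 := abs_sigSum_le φ hφ1 (DD W is M)
  rw [hcorr, abs_div, h2]
  have hpos : (0 : ℝ) < 2 ^ n := by positivity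
  rw [abs_of_pos hpos, div_le_iff₀ hpos]
  calc |sigSum φ (DD W is M)| ≤ 2 ^ n * ‖DD W is M‖ := h3
    _ ≤ 2 ^ n * (6 * (1 / 2 : ℝ) ^ ((n : ℝ) / 10)) := by gcongr
    _ = _ := by ring

end Vale.Agent.Lib.P368
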