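import Vale.Agent.Lib.P368.Params

/-! The final statements. -/

namespace Vale.Agent.Lib.P368

open Matrix Finset

set_option linter.unusedSectionVars false
set_option linter.unusedSimpArgs false
set_option linter.unusedVariables false

/-- Polynomials of `log n` are eventually below `n`. -/
lemma log_sq_le (K1 : ℕ) : ∃ n1 : ℕ, ∀ n ≥ n1, K1 * (Nat.log 2 n) ^ 2 ≤ n := by
  have h := tendsto_pow_const_div_const_pow_of_one_lt 2 (r := 2) (by norm_num)
  have hpos : (0 : ℝ) < 1 / ((K1 : ℝ) + 1) := by positivity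
  have h2 := (h.eventually (gt_mem_nhds hpos))
  obtain ⟨L0, hL0⟩ := Filter.eventually_atTop.mp h2
  refine ⟨2 ^ L0, fun n hn => ?_⟩
  have hn0 : n ≠ 0 := by
    have : 0 < 2 ^ L0 := by positivity
    omega
  set L := Nat.log 2 n with hL
  have hL1 : L0 ≤ L := Nat.le_log_of_pow_le (by norm_num) hn
  have hL2 : 2 ^ L ≤ n := Nat.pow_log_le_self 2 hn0
  have h3 := hL0 L hL1
  have h4 : (0 : ℝ) < 2 ^ L := by positivity
  have h5 : (K1 : ℝ) * (L : ℝ) ^ 2 ≤ 2 ^ L := by
    rw [div_lt_div_iff₀ h4 (by positivity)] at h3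
    have hLsq : (0 : ℝ) ≤ (L : ℝ) ^ 2 := by positivity
    nlinarith
  have h6 : K1 * L ^ 2 ≤ 2 ^ L := by exact_mod_cast h5
  exact h6.trans hL2

lemma length_filter_mono {G : Type} (L : List G) (p p' : G → Bool)
    (h : ∀ g, p g = true → p' g = true) : (L.filter p).length ≤ (L.filter p').length := by
  induction L with
  | nil => simp
  | cons a L ih =>
    by_cases hp : p a = true
    · have hp' := h a hp
      simp [List.filter_cons, hp, hp', ih]
    · by_cases hp' : p' a = true
      · simp only [List.filter_cons, hp, hp', if_true, if_false, Bool.false_eq_true, List.length_cons]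
        omega
      · simp only [List.filter_cons, hp, hp', if_false, Bool.false_eq_true]
        exact ih

/-- The number of first-layer gates touching an input and having more than `w` qubits. -/
def wideCount {n : ℕ} {A : Type} [Fintype A] [DecidableEq A] (C : Circuit3 (Fin n ⊕ A)) (w : ℕ) : ℕ :=
  (C.T1.filter fun g => decide ((inpOf g).Nonempty ∧ w < g.supp.card)).length

/-- The general statement: for fixed advantage, the width threshold `w` and the number of wider
first-layer gates touching inputs can both be as large as `n / (K log n)`. -/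
theorem general_bound (ε : ℝ) (hε : 0 < ε) :
    ∃ K n0 : ℕ, ∀ n ≥ n0, ∀ (A : Type) [Fintype A] [DecidableEq A]
      (C : Circuit3 (Fin n ⊕ A)) (q : Fin n ⊕ A) (w : ℕ), 1 ≤ w →
      K * w * Nat.log 2 n ≤ n → K * Nat.log 2 n * wideCount C w ≤ n →
      ¬ C.ComputesParity q ε := by
  obtain ⟨m0, hm0⟩ := exists_pow_lt_of_lt_one (show 0 < ε / 12 by positivity)
    (show (1 / 2 : ℝ) < 1 by norm_num)
  set m := m0 + 1 with hm
  have hm1 : (1 / 2 : ℝ) ^ m < ε / 12 := by
    refine lt_of_le_of_lt ?_ hm0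
    exact pow_le_pow_of_le_one (by norm_num) (by norm_num) (by omega)
  have hmpos : (0 : ℝ) < m := by
    rw [hm]; positivity
  obtain ⟨c, hc⟩ := exists_nat_ge (1 / (ε / (48 * m)) ^ 2)
  have hc1 : (1 : ℝ) ≤ c * (ε / (48 * m)) ^ 2 := by
    have hτ : (0 : ℝ) < (ε / (48 * m)) ^ 2 := by positivity
    rw [div_le_iff₀ hτ] at hc
    exact hc
  obtain ⟨t0, ht0⟩ := exists_pow_lt_of_lt_one (show 0 < ε ^ 2 / 8 by positivity)
    (show (1 / 2 : ℝ) < 1 by norm_num)
  refine ⟨16 * m * (1 + c) + 16, 2 ^ (t0 + 2), ?_⟩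
  intro n hn A _ _ C q w hw hK1 hK2
  have hn0 : n ≠ 0 := by
    have : 0 < 2 ^ (t0 + 2) := by positivity
    omega
  set L := Nat.log 2 n with hL
  have hL1 : t0 + 2 ≤ L := Nat.le_log_of_pow_le (by norm_num) hn
  set t := L + 1 + t0 with ht
  have ht2L : t ≤ 2 * L := by omega
  have ht2 : 8 * (n : ℝ) * (1 / 2 : ℝ) ^ t ≤ ε ^ 2 := by
    have h1 : n < 2 ^ (L + 1) := Nat.lt_pow_succ_log_self (by norm_num) n
    have h2 : (n : ℝ) < 2 ^ (L + 1) := by exact_mod_cast h1
    have h3 : (n : ℝ) * (1 / 2 : ℝ) ^ (L + 1) ≤ 1 := by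
      have h4 : (0 : ℝ) < (1 / 2 : ℝ) ^ (L + 1) := by positivity
      have h5 : (2 : ℝ) ^ (L + 1) * (1 / 2 : ℝ) ^ (L + 1) = 1 := by
        rw [← mul_pow]; norm_num
      nlinarith
    have h6 : (1 / 2 : ℝ) ^ t = (1 / 2 : ℝ) ^ (L + 1) * (1 / 2 : ℝ) ^ t0 := by
      rw [ht, pow_add]
    rw [h6]
    have h7 : (0 : ℝ) < (1 / 2 : ℝ) ^ t0 := by positivity
    calc 8 * (n : ℝ) * ((1 / 2 : ℝ) ^ (L + 1) * (1 / 2 : ℝ) ^ t0)
        = 8 * ((n : ℝ) * (1 / 2 : ℝ) ^ (L + 1)) * (1 / 2 : ℝ) ^ t0 := by ring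
      _ ≤ 8 * 1 * (1 / 2 : ℝ) ^ t0 := by gcongr
      _ ≤ ε ^ 2 := by linarith
  refine no_advantage_of_params C q hε t w m c (wideCount C w) (by omega) hw (by omega) hm1 ht2 hc1
    ?_ ?_
  · exact length_filter_mono _ _ _ fun g hg => by
      simp only [decide_eq_true_eq] at hg ⊢
      exact ⟨hg.2.2, hg.2.1⟩
  · set W0 := wideCount C w with hW0
    have h1 : 1 + c * w ≤ (1 + c) * w := by nlinarith
    have h2 : 2 * (4 * t * (m * (1 + c * w))) ≤ (16 * m * (1 + c) + 16) * w * L := by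
      calc 2 * (4 * t * (m * (1 + c * w))) ≤ 2 * (4 * (2 * L) * (m * ((1 + c) * w))) := by gcongr
        _ = 16 * m * (1 + c) * w * L := by ring
        _ ≤ (16 * m * (1 + c) + 16) * w * L := by gcongr; omega
    have h3 : 2 * (4 * t * W0) ≤ (16 * m * (1 + c) + 16) * L * W0 := by
      calc 2 * (4 * t * W0) ≤ 2 * (4 * (2 * L) * W0) := by gcongr
        _ = 16 * L * W0 := by ring
        _ ≤ (16 * m * (1 + c) + 16) * L * W0 := by gcongr; omega
    have h4 : 4 * t * (m * (1 + c * w) + W0) = 4 * t * (m * (1 + c * w)) + 4 * t * W0 := by ring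
    omega

/-- **Theorem A.** For fixed advantage, no circuit of entangling depth three with at most
`n ^ 2 / (K (log n) ^ 2)` ancillas computes parity. -/
theorem depth3_ancillas (ε : ℝ) (hε : 0 < ε) :
    ∃ K n0 : ℕ, ∀ n ≥ n0, ∀ a : ℕ, K * a * (Nat.log 2 n) ^ 2 ≤ n ^ 2 →
      ∀ (C : Circuit3 (Fin n ⊕ Fin a)) (q : Fin n ⊕ Fin a), ¬ C.ComputesParity q ε := by
  obtain ⟨K, n0, hK⟩ := general_bound ε hε
  obtain ⟨n1, hn1⟩ := log_sq_le (6 * K ^ 2 + 1)
  refine ⟨6 * K ^ 2, max (max n0 n1) 1, ?_⟩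
  intro n hn a ha C q
  have hn0 : n0 ≤ n := le_trans (le_trans (le_max_left _ _) (le_max_left _ _)) hn
  have hn1' : n1 ≤ n := le_trans (le_trans (le_max_right _ _) (le_max_left _ _)) hn
  have hnpos : 1 ≤ n := le_trans (le_max_right _ _) hn
  set L := Nat.log 2 n with hL
  have h1 := hn1 n hn1'
  set f := 2 * K * L * (n + a) / n with hf
  set w := f + 1 with hw
  have hfn : f * n ≤ 2 * K * L * (n + a) := Nat.div_mul_le_self _ _
  have hfn2 : 2 * K * L * (n + a) < n * w := Nat.lt_mul_div_succ _ (by omega)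
  have h6K : 6 * (K * K * (L * L)) ≤ n := by
    have : 6 * (K * K * (L * L)) = 6 * K ^ 2 * L ^ 2 := by ring
    rw [this]
    refine le_trans ?_ h1
    gcongr
    omega
  have hKL : 3 * (K * L) ≤ n := by
    by_cases hK0 : K = 0
    · simp [hK0]
    by_cases hL0 : L = 0
    · simp [hL0]
    have h2 : K * L ≤ K * K * (L * L) := by
      have hKpos : 1 ≤ K := Nat.pos_of_ne_zero hK0
      have hLpos : 1 ≤ L := Nat.pos_of_ne_zero hL0
      nlinarith [Nat.mul_le_mul hKpos hLpos, Nat.mul_le_mul hKpos hKpos, Nat.mul_le_mul hLpos hLpos]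
    omega
  have hwn : K * w * L ≤ n := by
    have h2 : n * (K * w * L) ≤ n * n := by
      have h3 : 3 * (n * (K * w * L)) ≤ 3 * (n * n) := by
        have h4 : n * (K * w * L) = K * L * (f * n) + K * L * n := by
          rw [hw]; ring
        have h5 : K * L * (f * n) ≤ K * L * (2 * K * L * (n + a)) := by gcongr
        have h6 : 3 * (K * L * (2 * K * L * (n + a)))
            = 6 * (K * K * (L * L)) * n + 6 * K ^ 2 * a * L ^ 2 := by ring
        have h7 : 6 * (K * K * (L * L)) * n ≤ n * n := by gcongr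
        have h8 : 6 * K ^ 2 * a * L ^ 2 ≤ n * n := by
          have : n * n = n ^ 2 := by ring
          omega
        have h9 : 3 * (K * L * n) ≤ n * n := by
          calc 3 * (K * L * n) = (3 * (K * L)) * n := by ring
            _ ≤ n * n := by gcongr
        omega
      omega
    exact Nat.le_of_mul_le_mul_left h2 (by omega)
  have hW : wideCount C w * (w + 1) ≤ n + Fintype.card (Fin a) := by
    refine wide_count C w _ ?_
    intro g hg
    exact (of_decide_eq_true hg).2
  have hcardA : Fintype.card (Fin a) = a := Fintype.card_fin a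
  rw [hcardA] at hW
  have hWn : K * L * wideCount C w ≤ n := by
    set W0 := wideCount C w with hW0
    have hwpos : 0 < w := by rw [hw]; exact Nat.succ_pos f
    have h2 : W0 * w ≤ n + a := (Nat.mul_le_mul_left _ (Nat.le_succ w)).trans hW
    have h3 : 2 * K * L * (W0 * w) ≤ 2 * K * L * (n + a) := by gcongr
    have h4 : (2 * K * L * W0) * w < n * w := by
      calc (2 * K * L * W0) * w = 2 * K * L * (W0 * w) := by ring
        _ ≤ 2 * K * L * (n + a) := h3
        _ < n * w := hfn2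
    have h5 : 2 * K * L * W0 < n := Nat.lt_of_mul_lt_mul_right h4
    have h6 : 2 * K * L * W0 = 2 * (K * L * W0) := by ring
    omega
  exact hK n hn0 (Fin a) C q w (by rw [hw]; exact Nat.succ_pos f) hwn hWn

/-- **Theorem B.** For fixed advantage and an arbitrary number of ancillas, no circuit of entangling
depth three whose first-layer gates touching inputs act on at most `n / (K log n)` qubits computes
parity. -/
theorem depth3_width (ε : ℝ) (hε : 0 < ε) :
    ∃ K n0 : ℕ, ∀ n ≥ n0, ∀ (A : Type) [Fintype A] [DecidableEq A] (w : ℕ),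
      K * w * Nat.log 2 n ≤ n →
      ∀ (C : Circuit3 (Fin n ⊕ A)) (q : Fin n ⊕ A),
        (∀ g ∈ C.T1, ∀ i : Fin n, (Sum.inl i : Fin n ⊕ A) ∈ g.supp → g.supp.card ≤ w) →
        ¬ C.ComputesParity q ε := by
  obtain ⟨K, n0, hK⟩ := general_bound ε hε
  obtain ⟨n1, hn1⟩ := log_sq_le (K + 1)
  refine ⟨K, max n0 n1, ?_⟩
  intro n hn A _ _ w hw C q hC
  have hn0 : n0 ≤ n := le_trans (le_max_left _ _) hn
  have hn1' : n1 ≤ n := le_trans (le_max_right _ _) hn
  set L := Nat.log 2 n with hL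
  have h1 := hn1 n hn1'
  have hW : ∀ w', w ≤ w' → wideCount C w' = 0 := by
    intro w' hw'
    unfold wideCount
    rw [List.length_eq_zero_iff, List.filter_eq_nil_iff]
    intro g hg hdec
    obtain ⟨⟨i, hi⟩, hlt⟩ := of_decide_eq_true hdec
    have h2 := hC g hg i (Finset.mem_filter.mp hi).2
    omega
  refine hK n hn0 A C q (max w 1) (le_max_right _ _) ?_ ?_
  · rcases le_total w 1 with hw1 | hw1
    · rw [max_eq_right hw1]
      have hL2 : L ≤ L ^ 2 := by nlinarith [Nat.zero_le L, Nat.le_self_pow (n := 2) (by norm_num) L]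
      calc K * 1 * L = K * L := by ring
        _ ≤ K * L ^ 2 := by gcongr
        _ ≤ (K + 1) * L ^ 2 := by gcongr; omega
        _ ≤ n := h1
    · rw [max_eq_left hw1]
      exact hw
  · rw [hW _ (le_max_left _ _)]
    simp

end Vale.Agent.Lib.P368
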