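import Mathlib

/-!
# Circuits of entangling depth three (definitions for problem P368)

Qubits are indexed by a finite type `Q`.  Operators on the `2 ^ |Q|`-dimensional state space are
matrices indexed by computational-basis strings `Q → Bool`.

A circuit of entangling depth at most three is written in the normal form
`L3 · T3 · L2 · T2 · L1 · T1 · L0`, where each `Li` is a layer of one-qubit unitaries (one for each
qubit) and each `Ti` is a layer of generalized Toffoli gates with pairwise disjoint supports.
One-qubit gates standing in the same layer as a Toffoli gate commute with it and can be merged into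
an adjacent one-qubit layer, and consecutive one-qubit layers merge, so this form is general.
-/

namespace Vale.Agent.Lib.P368

open Finset

/-- Operators on the qubits `Q`, as matrices indexed by computational-basis strings. -/
abbrev Op (Q : Type) := Matrix (Q → Bool) (Q → Bool) ℂ

/-- One-qubit operators. -/
abbrev M2 := Matrix Bool Bool ℂ

/-- The tensor product over all qubits of one-qubit operators `E q`:
its `(s, t)` entry is the product over `q` of the `(s q, t q)` entries of `E q`. -/
def tp {Q : Type} [Fintype Q] (E : Q → M2) : Op Q :=
  Matrix.of fun s t => ∏ q, E q (s q) (t q)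

/-- A generalized Toffoli gate: a set of control qubits and a target qubit outside it. -/
structure Toffoli (Q : Type) where
  /-- The control qubits (at least one control is not required: no controls gives a NOT gate). -/
  controls : Finset Q
  /-- The target qubit. -/
  target : Q
  /-- The target is not a control. -/
  target_not_mem : target ∉ controls

/-- The qubits on which a gate acts. -/
def Toffoli.supp {Q : Type} [DecidableEq Q] (g : Toffoli Q) : Finset Q :=
  insert g.target g.controls

/-- The action of a Toffoli gate on basis strings: the target bit is flipped exactly when all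
control bits are `true`. -/
def Toffoli.act {Q : Type} [DecidableEq Q] (g : Toffoli Q) (t : Q → Bool) : Q → Bool :=
  Function.update t g.target (xor (t g.target) (decide (∀ c ∈ g.controls, t c = true)))

/-- The permutation matrix of a Toffoli gate. -/
def Toffoli.mat {Q : Type} [Fintype Q] [DecidableEq Q] (g : Toffoli Q) : Op Q :=
  Matrix.of fun s t => if s = g.act t then 1 else 0

/-- The operator of a layer of Toffoli gates. -/
def gateLayer {Q : Type} [Fintype Q] [DecidableEq Q] (gs : List (Toffoli Q)) : Op Q :=
  (gs.map Toffoli.mat).prod

/-- A circuit of entangling depth (at most) three on the qubits `Q`: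
one-qubit layers `L0, L1, L2, L3` of unitaries and Toffoli layers `T1, T2, T3` whose gates have
pairwise disjoint supports. -/
structure Circuit3 (Q : Type) [DecidableEq Q] where
  /-- First one-qubit layer. -/
  L0 : Q → M2
  /-- Second one-qubit layer. -/
  L1 : Q → M2
  /-- Third one-qubit layer. -/
  L2 : Q → M2
  /-- Last one-qubit layer. -/
  L3 : Q → M2
  L0_unitary : ∀ q, L0 q ∈ Matrix.unitaryGroup Bool ℂ
  L1_unitary : ∀ q, L1 q ∈ Matrix.unitaryGroup Bool ℂ
  L2_unitary : ∀ q, L2 q ∈ Matrix.unitaryGroup Bool ℂ
  L3_unitary : ∀ q, L3 q ∈ Matrix.unitaryGroup Bool ℂ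
  /-- First Toffoli layer. -/
  T1 : List (Toffoli Q)
  /-- Second Toffoli layer. -/
  T2 : List (Toffoli Q)
  /-- Third Toffoli layer. -/
  T3 : List (Toffoli Q)
  T1_disjoint : T1.Pairwise fun g h => Disjoint g.supp h.supp
  T2_disjoint : T2.Pairwise fun g h => Disjoint g.supp h.supp
  T3_disjoint : T3.Pairwise fun g h => Disjoint g.supp h.supp

/-- The unitary computed by the circuit. -/
def Circuit3.unitary {Q : Type} [Fintype Q] [DecidableEq Q] (C : Circuit3 Q) : Op Q :=
  tp C.L3 * gateLayer C.T3 * tp C.L2 * gateLayer C.T2 * tp C.L1 * gateLayer C.T1 * tp C.L0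

/-- The basis string `|x⟩ ⊗ |0⟩` on `n` input qubits and the ancilla qubits `A`. -/
def inputString {n : ℕ} {A : Type} (x : Fin n → Bool) : Fin n ⊕ A → Bool :=
  Sum.elim x fun _ => false

/-- The probability that measuring qubit `q` in the computational basis gives `b`, when the circuit
runs on `|x⟩ ⊗ |0⟩`. -/
noncomputable def Circuit3.outProb {n : ℕ} {A : Type} [Fintype A] [DecidableEq A]
    (C : Circuit3 (Fin n ⊕ A)) (q : Fin n ⊕ A) (x : Fin n → Bool) (b : Bool) : ℝ :=
  ∑ s ∈ Finset.univ.filter (fun s : Fin n ⊕ A → Bool => s q = b),
    ‖C.unitary s (inputString x)‖ ^ 2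

/-- The parity of a bit string. -/
def parityOf {n : ℕ} (x : Fin n → Bool) : Bool :=
  decide (Odd (Finset.univ.filter fun i => x i = true).card)

/-- The circuit computes parity with worst-case advantage `ε` with output qubit `q`:
on every input the output bit equals the parity with probability at least `1/2 + ε`. -/
def Circuit3.ComputesParity {n : ℕ} {A : Type} [Fintype A] [DecidableEq A]
    (C : Circuit3 (Fin n ⊕ A)) (q : Fin n ⊕ A) (ε : ℝ) : Prop :=
  ∀ x : Fin n → Bool, 1 / 2 + ε ≤ C.outProb q x (parityOf x)

end Vale.Agent.Lib.P368
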