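import Vale.Agent.Lib.P368.Tensor

/-! Vectors, the action of matrices on them, projections, union bounds. -/

namespace Vale.Agent.Lib.P368

open Matrix
open scoped Matrix.Norms.L2Operator InnerProductSpace

set_option linter.unusedSectionVars false
set_option linter.unusedSimpArgs false

variable {ι : Type} [Fintype ι] [DecidableEq ι]

/-- State vectors. -/
abbrev Vec (ι : Type) := EuclideanSpace ℂ ι

/-- The action of a matrix on a state vector. -/
noncomputable def act (A : Matrix ι ι ℂ) (v : Vec ι) : Vec ι :=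
  Matrix.toEuclideanCLM (n := ι) (𝕜 := ℂ) A v

lemma act_mul (A B : Matrix ι ι ℂ) (v : Vec ι) : act (A * B) v = act A (act B v) := by
  simp [act, map_mul]

lemma act_one (v : Vec ι) : act (1 : Matrix ι ι ℂ) v = v := by
  simp [act, map_one]

lemma act_add (A B : Matrix ι ι ℂ) (v : Vec ι) : act (A + B) v = act A v + act B v := by
  simp [act, map_add]

lemma act_sub (A B : Matrix ι ι ℂ) (v : Vec ι) : act (A - B) v = act A v - act B v := by
  simp [act, map_sub]

lemma act_smul (c : ℂ) (A : Matrix ι ι ℂ) (v : Vec ι) : act (c • A) v = c • act A v := by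
  simp [act, map_smul]

lemma act_vadd (A : Matrix ι ι ℂ) (u v : Vec ι) : act A (u + v) = act A u + act A v := by
  simp [act]

lemma act_vsub (A : Matrix ι ι ℂ) (u v : Vec ι) : act A (u - v) = act A u - act A v := by
  simp [act]

lemma inner_act (A : Matrix ι ι ℂ) (u v : Vec ι) :
    ⟪u, act A v⟫_ℂ = ⟪act (star A) u, v⟫_ℂ := by
  simp only [act, map_star, ContinuousLinearMap.star_eq_adjoint,
    ContinuousLinearMap.adjoint_inner_left]

lemma norm_act_le (A : Matrix ι ι ℂ) (v : Vec ι) : ‖act A v‖ ≤ ‖A‖ * ‖v‖ := by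
  simpa [act, Matrix.cstar_norm_def] using
    (Matrix.toEuclideanCLM (n := ι) (𝕜 := ℂ) A).le_opNorm v

lemma norm_act_sq (A : Matrix ι ι ℂ) (v : Vec ι) :
    (‖act A v‖ : ℝ) ^ 2 = (⟪v, act (star A * A) v⟫_ℂ).re := by
  rw [act_mul, inner_act, star_star]
  exact (inner_self_eq_norm_sq (𝕜 := ℂ) _).symm

/-- Isometries. -/
lemma norm_act_of_star_mul (U : Matrix ι ι ℂ) (h : star U * U = 1) (v : Vec ι) :
    ‖act U v‖ = ‖v‖ := by
  have h1 : (‖act U v‖ : ℝ) ^ 2 = ‖v‖ ^ 2 := by
    rw [norm_act_sq, h, act_one]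
    exact inner_self_eq_norm_sq (𝕜 := ℂ) _
  exact (sq_eq_sq₀ (norm_nonneg _) (norm_nonneg _)).mp h1

/-- Pythagoras for a projection. -/
lemma pythagoras {P : Matrix ι ι ℂ} (hP : IsStarProjection P) (v : Vec ι) :
    ‖act P v‖ ^ 2 + ‖act (1 - P) v‖ ^ 2 = ‖v‖ ^ 2 := by
  have hv : v = act P v + act (1 - P) v := by simp [act_sub, act_one]
  have h0 : ⟪act P v, act (1 - P) v⟫_ℂ = 0 := by
    rw [inner_act, ← act_mul]
    have : star (1 - P) * P = 0 := by
      rw [hP.one_sub.isSelfAdjoint.star_eq]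
      exact hP.one_sub_mul_self
    rw [this]
    simp [act]
  have h1 := norm_add_sq (𝕜 := ℂ) (act P v) (act (1 - P) v)
  rw [← hv, h0] at h1
  simp at h1
  linarith

lemma norm_act_proj_le {P : Matrix ι ι ℂ} (hP : IsStarProjection P) (v : Vec ι) :
    ‖act P v‖ ^ 2 ≤ ‖v‖ ^ 2 := by
  have := pythagoras hP v
  have h2 : 0 ≤ ‖act (1 - P) v‖ ^ 2 := by positivity
  linarith

/-! ### Norm bounds in the C*-ring of matrices -/

lemma norm_proj_le {P : Matrix ι ι ℂ} (hP : IsStarProjection P) : ‖P‖ ≤ 1 := by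
  have h1 : ‖P‖ * ‖P‖ = ‖P‖ := by
    have := CStarRing.norm_star_mul_self (x := P)
    rw [hP.isSelfAdjoint.star_eq, hP.isIdempotentElem.eq] at this
    exact this.symm
  by_contra h
  push Not at h
  nlinarith

lemma norm_one_le : ‖(1 : Matrix ι ι ℂ)‖ ≤ 1 := norm_proj_le (IsStarProjection.one _)

lemma norm_invol_le {S : Matrix ι ι ℂ} (h1 : star S = S) (h2 : S * S = 1) : ‖S‖ ≤ 1 := by
  have h3 : ‖S‖ * ‖S‖ = ‖(1 : Matrix ι ι ℂ)‖ := by
    have := CStarRing.norm_star_mul_self (x := S)
    rw [h1, h2] at this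
    exact this.symm
  have h4 := norm_one_le (ι := ι)
  by_contra h
  push Not at h
  nlinarith

/-! ### Expectation values -/

/-- The expectation value of an operator in a vector (real part). -/
noncomputable def ev (A : Matrix ι ι ℂ) (v : Vec ι) : ℝ := (⟪v, act A v⟫_ℂ).re

lemma ev_add (A B : Matrix ι ι ℂ) (v : Vec ι) : ev (A + B) v = ev A v + ev B v := by
  simp [ev, act_add, inner_add_right]

lemma ev_sub (A B : Matrix ι ι ℂ) (v : Vec ι) : ev (A - B) v = ev A v - ev B v := by
  simp [ev, act_sub, inner_sub_right]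

lemma ev_smul_real (c : ℝ) (A : Matrix ι ι ℂ) (v : Vec ι) :
    ev ((c : ℂ) • A) v = c * ev A v := by
  unfold ev
  rw [act_smul, inner_smul_right]
  simp

lemma abs_ev_le (A : Matrix ι ι ℂ) (v : Vec ι) : |ev A v| ≤ ‖A‖ * ‖v‖ ^ 2 := by
  unfold ev
  calc |(⟪v, act A v⟫_ℂ).re| ≤ ‖⟪v, act A v⟫_ℂ‖ := Complex.abs_re_le_norm _
    _ ≤ ‖v‖ * ‖act A v‖ := norm_inner_le_norm _ _
    _ ≤ ‖v‖ * (‖A‖ * ‖v‖) := by gcongr; exact norm_act_le _ _
    _ = ‖A‖ * ‖v‖ ^ 2 := by ring

/-- Conjugation. -/
lemma ev_conj (W B : Matrix ι ι ℂ) (v : Vec ι) : ev (star W * B * W) v = ev B (act W v) := by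
  unfold ev
  rw [mul_assoc, act_mul, act_mul, inner_act, star_star]

/-- Perturbation of an expectation value of a contraction. -/
lemma abs_ev_sub_le {N : Matrix ι ι ℂ} (hN : star N = N) (hN1 : ‖N‖ ≤ 1) {u v : Vec ι}
    (hu : ‖u‖ = 1) (hv : ‖v‖ = 1) : |ev N u - ev N v| ≤ 2 * ‖u - v‖ := by
  have h1 : ev N u - ev N v = (⟪u - v, act N u⟫_ℂ).re + (⟪v, act N (u - v)⟫_ℂ).re := by
    simp only [ev, inner_sub_left, act_vsub, inner_sub_right, Complex.sub_re]
    ring
  rw [h1]
  have h2 : ‖⟪u - v, act N u⟫_ℂ‖ ≤ ‖u - v‖ := by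
    calc _ ≤ ‖u - v‖ * ‖act N u‖ := norm_inner_le_norm _ _
      _ ≤ ‖u - v‖ * (‖N‖ * ‖u‖) := by gcongr; exact norm_act_le _ _
      _ ≤ ‖u - v‖ * (1 * 1) := by rw [hu]; gcongr
      _ = ‖u - v‖ := by ring
  have h3 : ‖⟪v, act N (u - v)⟫_ℂ‖ ≤ ‖u - v‖ := by
    calc _ ≤ ‖v‖ * ‖act N (u - v)‖ := norm_inner_le_norm _ _
      _ ≤ ‖v‖ * (‖N‖ * ‖u - v‖) := by gcongr; exact norm_act_le _ _
      _ ≤ 1 * (1 * ‖u - v‖) := by rw [hv]; gcongr
      _ = ‖u - v‖ := by ring
  have h4 := Complex.abs_re_le_norm (⟪u - v, act N u⟫_ℂ)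
  have h5 := Complex.abs_re_le_norm (⟪v, act N (u - v)⟫_ℂ)
  have h6 := abs_add_le (⟪u - v, act N u⟫_ℂ).re (⟪v, act N (u - v)⟫_ℂ).re
  linarith

/-! ### Products over lists of gates -/

section ListProd

variable {G : Type}

/-- The ordered product of a family of matrices along a list. -/
def lprod (f : G → Matrix ι ι ℂ) (gs : List G) : Matrix ι ι ℂ := (gs.map f).prod

@[simp] lemma lprod_nil (f : G → Matrix ι ι ℂ) : lprod f [] = 1 := rfl

@[simp] lemma lprod_cons (f : G → Matrix ι ι ℂ) (a : G) (gs : List G) :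
    lprod f (a :: gs) = f a * lprod f gs := by simp [lprod]

lemma lprod_commute (f : G → Matrix ι ι ℂ) (gs : List G) (A : Matrix ι ι ℂ)
    (h : ∀ l ∈ gs, Commute A (f l)) : Commute A (lprod f gs) := by
  induction gs with
  | nil => simp
  | cons a gs ih =>
    rw [lprod_cons]
    exact (h a (by simp)).mul_right (ih fun l hl => h l (by simp [hl]))

lemma lprod_mem {S : Subalgebra ℂ (Matrix ι ι ℂ)} (f : G → Matrix ι ι ℂ) (gs : List G)
    (h : ∀ l ∈ gs, f l ∈ S) : lprod f gs ∈ S := by
  induction gs with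
  | nil => simpa using S.one_mem
  | cons a gs ih =>
    rw [lprod_cons]
    exact mul_mem (h a (by simp)) (ih fun l hl => h l (by simp [hl]))

/-- A product of pairwise commuting self-adjoint involutions is a self-adjoint involution. -/
lemma lprod_invol (f : G → Matrix ι ι ℂ) (gs : List G)
    (hc : gs.Pairwise fun a b => Commute (f a) (f b))
    (h1 : ∀ l ∈ gs, star (f l) = f l) (h2 : ∀ l ∈ gs, f l * f l = 1) :
    star (lprod f gs) = lprod f gs ∧ lprod f gs * lprod f gs = 1 := by
  induction gs with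
  | nil => simp
  | cons a gs ih =>
    rw [List.pairwise_cons] at hc
    obtain ⟨ih1, ih2⟩ := ih hc.2 (fun l hl => h1 l (by simp [hl])) (fun l hl => h2 l (by simp [hl]))
    have hcomm : Commute (f a) (lprod f gs) := lprod_commute f gs _ hc.1
    have ha1 := h1 a (by simp)
    have ha2 := h2 a (by simp)
    rw [lprod_cons]
    constructor
    · rw [star_mul, ih1, ha1]; exact hcomm.symm.eq
    · calc f a * lprod f gs * (f a * lprod f gs)
          = f a * (lprod f gs * f a) * lprod f gs := by simp only [mul_assoc]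
        _ = f a * (f a * lprod f gs) * lprod f gs := by rw [hcomm.symm.eq]
        _ = (f a * f a) * (lprod f gs * lprod f gs) := by simp only [mul_assoc]
        _ = 1 := by rw [ha2, ih2, one_mul]

/-- Split a commuting product along a predicate. -/
lemma lprod_filter (f : G → Matrix ι ι ℂ) (gs : List G)
    (hc : gs.Pairwise fun a b => Commute (f a) (f b)) (p : G → Bool) :
    lprod f gs = lprod f (gs.filter p) * lprod f (gs.filter fun l => !p l) := by
  induction gs with
  | nil => simp
  | cons a gs ih =>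
    rw [List.pairwise_cons] at hc
    rw [lprod_cons, ih hc.2]
    by_cases hp : p a = true
    · simp [List.filter_cons, hp, mul_assoc]
    · have : Commute (f a) (lprod f (gs.filter p)) :=
        lprod_commute f _ _ fun l hl => hc.1 l (List.mem_of_mem_filter hl)
      simp only [List.filter_cons, hp, Bool.false_eq_true, if_false, Bool.not_false, if_true,
        lprod_cons, Bool.not_eq_true, hp]
      simp only [← mul_assoc, this.eq]

end ListProd

/-! ### The union bound for commuting projections -/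

section Union

variable {G : Type}

/-- The product of the complements. -/
def Lam (P : G → Matrix ι ι ℂ) (gs : List G) : Matrix ι ι ℂ :=
  lprod (fun l => 1 - P l) gs

lemma Lam_proj (P : G → Matrix ι ι ℂ) (gs : List G) (hP : ∀ l ∈ gs, IsStarProjection (P l))
    (hc : gs.Pairwise fun a b => Commute (P a) (P b)) : IsStarProjection (Lam P gs) := by
  induction gs with
  | nil => simpa [Lam] using IsStarProjection.one _
  | cons a gs ih =>
    rw [List.pairwise_cons] at hc
    have h1 := ih (fun l hl => hP l (by simp [hl])) hc.2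
    have h2 : Commute (1 - P a) (Lam P gs) :=
      lprod_commute _ _ _ fun l hl => (Commute.one_left _).sub_left
        ((Commute.one_right _).sub_right (hc.1 l hl))
    unfold Lam at h1 h2 ⊢
    rw [lprod_cons]
    exact (hP a (by simp)).one_sub.mul h1 h2

/-- Two-term union bound. -/
lemma union_two {E L : Matrix ι ι ℂ} (hE : IsStarProjection E) (hL : IsStarProjection L)
    (hc : Commute E L) (u : Vec ι) :
    ‖act (1 - (1 - E) * L) u‖ ^ 2 ≤ ‖act E u‖ ^ 2 + ‖act (1 - L) u‖ ^ 2 := by
  have h1 := pythagoras hE (act (1 - (1 - E) * L) u)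
  have h2 : act E (act (1 - (1 - E) * L) u) = act E u := by
    rw [← act_mul]
    congr 1
    have : E * (1 - E) = 0 := hE.mul_one_sub_self
    rw [mul_sub, mul_one, ← mul_assoc, this, zero_mul, sub_zero]
  have h3 : act (1 - E) (act (1 - (1 - E) * L) u) = act (1 - E) (act (1 - L) u) := by
    rw [← act_mul, ← act_mul]
    congr 1
    have h4 : (1 - E) * (1 - E) = 1 - E := hE.one_sub.isIdempotentElem.eq
    rw [mul_sub, mul_sub, mul_one, ← mul_assoc, h4]
  have h5 := norm_act_proj_le hE.one_sub (act (1 - L) u)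
  rw [h2, h3] at h1
  linarith

theorem union_bound (P : G → Matrix ι ι ℂ) (gs : List G) (hP : ∀ l ∈ gs, IsStarProjection (P l))
    (hc : gs.Pairwise fun a b => Commute (P a) (P b)) (u : Vec ι) :
    ‖act (1 - Lam P gs) u‖ ^ 2 ≤ (gs.map fun l => ‖act (P l) u‖ ^ 2).sum := by
  induction gs with
  | nil => simp [Lam, act]
  | cons a gs ih =>
    rw [List.pairwise_cons] at hc
    have h1 := ih (fun l hl => hP l (by simp [hl])) hc.2
    have hL := Lam_proj P gs (fun l hl => hP l (by simp [hl])) hc.2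
    have h2 : Commute (P a) (Lam P gs) :=
      lprod_commute _ _ _ fun l hl => (Commute.one_right _).sub_right (hc.1 l hl)
    have h3 := union_two (hP a (by simp)) hL h2 u
    have h4 : Lam P (a :: gs) = (1 - P a) * Lam P gs := by simp [Lam]
    rw [h4]
    simp only [List.map_cons, List.sum_cons]
    linarith

/-- Algebraic core of the error lemma: the two products agree on the range of the product of the
complements. -/
lemma lprod_mul_Lam (t t' P : G → Matrix ι ι ℂ) (gs : List G)
    (hct : gs.Pairwise fun a b => Commute (P a) (t b))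
    (hct' : gs.Pairwise fun a b => Commute (P a) (t' b))
    (h : ∀ l ∈ gs, t l * (1 - P l) = t' l * (1 - P l)) :
    lprod t gs * Lam P gs = lprod t' gs * Lam P gs := by
  induction gs with
  | nil => rfl
  | cons a gs ih =>
    rw [List.pairwise_cons] at hct hct'
    have h1 := ih hct.2 hct'.2 (fun l hl => h l (by simp [hl]))
    have h2 : Commute (1 - P a) (lprod t gs) :=
      lprod_commute _ _ _ fun l hl => (Commute.one_left _).sub_left (hct.1 l hl)
    have h3 : Commute (1 - P a) (lprod t' gs) :=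
      lprod_commute _ _ _ fun l hl => (Commute.one_left _).sub_left (hct'.1 l hl)
    have h4 : Lam P (a :: gs) = (1 - P a) * Lam P gs := by simp [Lam]
    rw [h4, lprod_cons, lprod_cons]
    calc t a * lprod t gs * ((1 - P a) * Lam P gs)
        = t a * ((1 - P a) * lprod t gs) * Lam P gs := by
          rw [h2.eq]; simp only [mul_assoc]
      _ = (t a * (1 - P a)) * (lprod t gs * Lam P gs) := by simp only [mul_assoc]
      _ = (t' a * (1 - P a)) * (lprod t' gs * Lam P gs) := by rw [h a (by simp), h1]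
      _ = t' a * ((1 - P a) * lprod t' gs) * Lam P gs := by simp only [mul_assoc]
      _ = t' a * lprod t' gs * ((1 - P a) * Lam P gs) := by
          rw [h3.eq]; simp only [mul_assoc]

/-- The error lemma. -/
theorem error_lemma (t t' P : G → Matrix ι ι ℂ) (gs : List G)
    (hP : ∀ l ∈ gs, IsStarProjection (P l))
    (hc : gs.Pairwise fun a b => Commute (P a) (P b))
    (hct : gs.Pairwise fun a b => Commute (P a) (t b))
    (hct' : gs.Pairwise fun a b => Commute (P a) (t' b))
    (h : ∀ l ∈ gs, t l * (1 - P l) = t' l * (1 - P l))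
    (hT : star (lprod t gs) * lprod t gs = 1)
    (hT' : star (lprod t' gs) * lprod t' gs = 1) (u : Vec ι) :
    ‖act (lprod t gs) u - act (lprod t' gs) u‖ ^ 2
      ≤ 4 * (gs.map fun l => ‖act (P l) u‖ ^ 2).sum := by
  have h1 := lprod_mul_Lam t t' P gs hct hct' h
  set L := Lam P gs with hL
  have h2 : act (lprod t gs) u - act (lprod t' gs) u
      = act (lprod t gs) (act (1 - L) u) - act (lprod t' gs) (act (1 - L) u) := by
    have h3 : act (lprod t gs) (act L u) = act (lprod t' gs) (act L u) := by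
      rw [← act_mul, ← act_mul, h1]
    simp only [act_sub, act_one, act_vsub, h3]
    abel
  rw [h2]
  have h4 := norm_act_of_star_mul _ hT (act (1 - L) u)
  have h5 := norm_act_of_star_mul _ hT' (act (1 - L) u)
  have h6 : ‖act (lprod t gs) (act (1 - L) u) - act (lprod t' gs) (act (1 - L) u)‖
      ≤ 2 * ‖act (1 - L) u‖ := by
    calc _ ≤ ‖act (lprod t gs) (act (1 - L) u)‖ + ‖act (lprod t' gs) (act (1 - L) u)‖ :=
          norm_sub_le _ _
      _ = 2 * ‖act (1 - L) u‖ := by rw [h4, h5]; ring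
  have h7 := union_bound P gs hP hc u
  have h8 : ‖act (lprod t gs) (act (1 - L) u) - act (lprod t' gs) (act (1 - L) u)‖ ^ 2
      ≤ (2 * ‖act (1 - L) u‖) ^ 2 := by
    gcongr
  nlinarith

end Union

end Vale.Agent.Lib.P368
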