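import Vale.Agent.Lib.P368.Reduce

/-! The observable of the last layers, its six-term form, and the output probabilities. -/

namespace Vale.Agent.Lib.P368

open Matrix Finset
open scoped Matrix.Norms.L2Operator InnerProductSpace

set_option linter.unusedSectionVars false
set_option linter.unusedSimpArgs false
set_option linter.unusedVariables false

variable {Q : Type} [Fintype Q] [DecidableEq Q]

/-! ### Basis vectors -/

section Basis

variable {ι : Type} [Fintype ι] [DecidableEq ι]

/-- The basis vector at `t`. -/
noncomputable def e (t : ι) : Vec ι := EuclideanSpace.single t (1 : ℂ)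

lemma norm_e (t : ι) : ‖e t‖ = 1 := by simp [e]

lemma act_apply (A : Matrix ι ι ℂ) (v : Vec ι) (s : ι) :
    (act A v) s = ∑ u, A s u * v u := by
  simp [act, Matrix.ofLp_toEuclideanCLM, Matrix.mulVec, dotProduct]

lemma act_e_apply (A : Matrix ι ι ℂ) (t s : ι) : (act A (e t)) s = A s t := by
  rw [act_apply]
  simp [e, Finset.sum_ite_eq, PiLp.single_apply]

lemma norm_sq_eq_sum (v : Vec ι) : ‖v‖ ^ 2 = ∑ s, ‖v s‖ ^ 2 := by
  rw [EuclideanSpace.norm_sq_eq]

lemma norm_act_e_sq (A : Matrix ι ι ℂ) (t : ι) : ‖act A (e t)‖ ^ 2 = ∑ s, ‖A s t‖ ^ 2 := by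
  rw [norm_sq_eq_sum]
  exact Finset.sum_congr rfl fun s _ => by rw [act_e_apply]

end Basis

/-! ### Unitarity of tensor products -/

lemma tp_unitary {U : Q → M2} (hU : ∀ q, U q ∈ Matrix.unitaryGroup Bool ℂ) :
    star (tp U) * tp U = 1 ∧ tp U * star (tp U) = 1 := by
  constructor
  · rw [tp_star, tp_mul]
    have : (fun q => star (U q) * U q) = fun _ => (1 : M2) := by
      funext q
      exact Matrix.mem_unitaryGroup_iff'.mp (hU q)
    rw [this]
    exact tp_one
  · rw [tp_star, tp_mul]
    have : (fun q => U q * star (U q)) = fun _ => (1 : M2) := by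
      funext q
      exact Matrix.mem_unitaryGroup_iff.mp (hU q)
    rw [this]
    exact tp_one

/-! ### The observable -/

/-- The last three layers of the circuit. -/
noncomputable def Circuit3.tail (C : Circuit3 Q) : Op Q :=
  tp C.L3 * gateLayer C.T3 * tp C.L2

/-- The first three layers of the circuit. -/
noncomputable def Circuit3.head (C : Circuit3 Q) : Op Q :=
  tp C.L1 * gateLayer C.T1 * tp C.L0

/-- The observable measured after the second Toffoli layer. -/
noncomputable def Circuit3.obs (C : Circuit3 Q) (q : Q) : Op Q :=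
  star C.tail * Zq q * C.tail

lemma Circuit3.unitary_eq (C : Circuit3 Q) :
    C.unitary = C.tail * gateLayer C.T2 * C.head := by
  simp only [Circuit3.unitary, Circuit3.tail, Circuit3.head, mul_assoc]

lemma Circuit3.tail_unitary (C : Circuit3 Q) :
    star C.tail * C.tail = 1 ∧ C.tail * star C.tail = 1 := by
  obtain ⟨h1, h2⟩ := tp_unitary C.L3_unitary
  obtain ⟨h3, h4⟩ := tp_unitary C.L2_unitary
  obtain ⟨h5, h6⟩ := layer_invol C.T3_disjoint
  unfold Circuit3.tail
  set L3 := tp C.L3
  set L2 := tp C.L2
  set T := gateLayer C.T3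
  constructor
  · simp only [star_mul, h5]
    calc star L2 * (T * star L3) * (L3 * T * L2) = star L2 * T * (star L3 * L3) * T * L2 := by
          simp only [mul_assoc]
      _ = star L2 * (T * T) * L2 := by rw [h1, mul_one]; simp only [mul_assoc]
      _ = 1 := by rw [h6, mul_one, h3]
  · simp only [star_mul, h5]
    calc L3 * T * L2 * (star L2 * (T * star L3)) = L3 * T * (L2 * star L2) * T * star L3 := by
          simp only [mul_assoc]
      _ = L3 * (T * T) * star L3 := by rw [h4, mul_one]; simp only [mul_assoc]
      _ = 1 := by rw [h6, mul_one, h2]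

lemma Circuit3.head_unitary (C : Circuit3 Q) :
    star C.head * C.head = 1 := by
  obtain ⟨h1, h2⟩ := tp_unitary C.L1_unitary
  obtain ⟨h3, h4⟩ := tp_unitary C.L0_unitary
  obtain ⟨h5, h6⟩ := layer_invol C.T1_disjoint
  unfold Circuit3.head
  set L1 := tp C.L1
  set L0 := tp C.L0
  set T := gateLayer C.T1
  simp only [star_mul, h5]
  calc star L0 * (T * star L1) * (L1 * T * L0) = star L0 * T * (star L1 * L1) * T * L0 := by
        simp only [mul_assoc]
    _ = star L0 * (T * T) * L0 := by rw [h1, mul_one]; simp only [mul_assoc]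
    _ = 1 := by rw [h6, mul_one, h3]

lemma Circuit3.obs_star (C : Circuit3 Q) (q : Q) : star (C.obs q) = C.obs q := by
  unfold Circuit3.obs
  simp [star_mul, Zq_star, mul_assoc]

lemma Circuit3.obs_sq (C : Circuit3 Q) (q : Q) : C.obs q * C.obs q = 1 := by
  obtain ⟨h1, h2⟩ := C.tail_unitary
  unfold Circuit3.obs
  set W := C.tail
  calc star W * Zq q * W * (star W * Zq q * W) = star W * Zq q * (W * star W) * Zq q * W := by
        simp only [mul_assoc]
    _ = star W * (Zq q * Zq q) * W := by rw [h2, mul_one]; simp only [mul_assoc]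
    _ = 1 := by rw [Zq_sq, mul_one, h1]

lemma Circuit3.obs_norm (C : Circuit3 Q) (q : Q) : ‖C.obs q‖ ≤ 1 :=
  norm_invol_le (C.obs_star q) (C.obs_sq q)

lemma update_proj {F : Q → M2} (hF : ∀ p, IsStarProjection (F p)) (q : Q) {X : M2}
    (hX : IsStarProjection X) (p : Q) : IsStarProjection (Function.update F q X p) := by
  by_cases hp : p = q
  · subst hp; simpa using hX
  · rw [Function.update_of_ne hp]; exact hF p

lemma tp_half (F : Q → M2) (q : Q) (X : M2) :
    tp (Function.update F q X) = tp (Function.update F q ((1 / 2 : ℂ) • (1 + X)))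
      - tp (Function.update F q ((1 / 2 : ℂ) • (1 - X))) := by
  rw [← tp_update_sub, ← half_sub]

/-- The six-term form of the observable. -/
theorem Circuit3.obs_six (C : Circuit3 Q) (q : Q) :
    ∃ E1 E2 E3 E4 E5 E6 : Q → M2,
      (∀ p, IsStarProjection (E1 p)) ∧ (∀ p, IsStarProjection (E2 p)) ∧
      (∀ p, IsStarProjection (E3 p)) ∧ (∀ p, IsStarProjection (E4 p)) ∧
      (∀ p, IsStarProjection (E5 p)) ∧ (∀ p, IsStarProjection (E6 p)) ∧
      C.obs q = tp E1 - tp E2 + tp E3 - tp E4 - tp E5 + tp E6 := by
  -- the conjugate of `Z` by the last layer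
  set M : M2 := star (C.L3 q) * Z2 * C.L3 q with hM
  have hM1 : star M = M := (conj_invol (C.L3_unitary q) Z2_star Z2_sq).1
  have hM2 : M * M = 1 := (conj_invol (C.L3_unitary q) Z2_star Z2_sq).2
  have hone : ∀ p, IsStarProjection ((fun _ : Q => (1 : M2)) p) := fun _ => IsStarProjection.one _
  have h3 : star (tp C.L3) * Zq q * tp C.L3 = tp (Function.update (fun _ => 1) q M) := by
    unfold Zq
    rw [tp_conj]
    congr 1
    funext p
    by_cases hp : p = q
    · subst hp; simp [hM]
    · simp [Function.update_of_ne hp, Matrix.mem_unitaryGroup_iff'.mp (C.L3_unitary p)]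
  have hAmem : ∀ X : M2, tp (Function.update (fun _ => (1 : M2)) q X) ∈ Alg {q} := by
    intro X
    refine tp_mem_Alg fun p hp => ?_
    have : p ≠ q := by simpa using hp
    rw [Function.update_of_ne this]
  obtain ⟨hT1, hT2⟩ := layer_invol C.T3_disjoint
  have hobs : C.obs q = star (tp C.L2)
      * (gateLayer C.T3 * tp (Function.update (fun _ => 1) q M) * gateLayer C.T3) * tp C.L2 := by
    rw [← h3]
    unfold Circuit3.obs Circuit3.tail
    simp only [star_mul, hT1, mul_assoc]
  -- conjugation by the layer `L2`
  have hconj1 : ∀ X : M2, star (tp C.L2) * tp (Function.update (fun _ => 1) q X) * tp C.L2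
      = tp (Function.update (fun _ => 1) q (star (C.L2 q) * X * C.L2 q)) := by
    intro X
    rw [tp_conj]
    congr 1
    funext p
    by_cases hp : p = q
    · subst hp; simp
    · simp [Function.update_of_ne hp, Matrix.mem_unitaryGroup_iff'.mp (C.L2_unitary p)]
  set M' : M2 := star (C.L2 q) * M * C.L2 q with hM'
  have hM'1 : star M' = M' := (conj_invol (C.L2_unitary q) hM1 hM2).1
  have hM'2 : M' * M' = 1 := (conj_invol (C.L2_unitary q) hM1 hM2).2
  obtain ⟨hEp, hEm⟩ := half_proj hM'1 hM'2
  rcases layer_conj C.T3_disjoint q (hAmem M) with ⟨_, h4⟩ | ⟨g, _, _, h4⟩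
  · -- no gate of the third layer touches the output qubit
    refine ⟨Function.update (fun _ => 1) q ((1 / 2 : ℂ) • (1 + M')),
      Function.update (fun _ => 1) q ((1 / 2 : ℂ) • (1 - M')),
      Function.update (fun _ => 1) q ((1 / 2 : ℂ) • (1 + M')),
      Function.update (fun _ => 1) q ((1 / 2 : ℂ) • (1 + M')),
      Function.update (fun _ => 1) q ((1 / 2 : ℂ) • (1 + M')),
      Function.update (fun _ => 1) q ((1 / 2 : ℂ) • (1 + M')),
      update_proj hone q hEp, update_proj hone q hEm, update_proj hone q hEp,
      update_proj hone q hEp, update_proj hone q hEp, update_proj hone q hEp, ?_⟩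
    rw [hobs, h4, hconj1, ← hM', tp_half]
    abel
  · -- a gate of the third layer touches the output qubit
    set π := g.pi with hπ
    have hπp : ∀ p, IsStarProjection (π p) := g.pi_proj
    set r : M2 := 1 - (2 : ℂ) • π q with hr
    have hr1 : star r = r := by
      simp [hr, (hπp q).isSelfAdjoint.star_eq]
    have hr2 : r * r = 1 := by
      have h : π q * π q = π q := (hπp q).isIdempotentElem.eq
      have h2 : ((2 : ℂ) • π q) = π q + π q := two_smul ℂ _
      rw [hr, h2]
      have h3 : (1 - (π q + π q)) * (1 - (π q + π q))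
          = 1 - (π q + π q) - (π q + π q) + (π q * π q + π q * π q + π q * π q + π q * π q) := by
        noncomm_ring
      rw [h3, h]
      abel
    set Mt : M2 := r * M * r with hMt
    have hMt1 : star Mt = Mt := by
      simp [hMt, star_mul, hr1, hM1, mul_assoc]
    have hMt2 : Mt * Mt = 1 := by
      calc r * M * r * (r * M * r) = r * M * (r * r) * M * r := by simp only [mul_assoc]
        _ = r * (M * M) * r := by rw [hr2, mul_one]; simp only [mul_assoc]
        _ = 1 := by rw [hM2, mul_one, hr2]
    set Mt' : M2 := star (C.L2 q) * Mt * C.L2 q with hMt'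
    have hMt'1 : star Mt' = Mt' := (conj_invol (C.L2_unitary q) hMt1 hMt2).1
    have hMt'2 : Mt' * Mt' = 1 := (conj_invol (C.L2_unitary q) hMt1 hMt2).2
    obtain ⟨hFp, hFm⟩ := half_proj hMt'1 hMt'2
    set π2 : Q → M2 := fun p => star (C.L2 p) * π p * C.L2 p with hπ2
    have hπ2p : ∀ p, IsStarProjection (π2 p) := fun p => conj_proj (C.L2_unitary p) (hπp p)
    have hconj2 : ∀ X : M2, star (tp C.L2) * tp (Function.update π q X) * tp C.L2
        = tp (Function.update π2 q (star (C.L2 q) * X * C.L2 q)) := by
      intro X
      rw [tp_conj]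
      congr 1
      funext p
      by_cases hp : p = q
      · subst hp; simp
      · simp [Function.update_of_ne hp, hπ2]
    refine ⟨Function.update (fun _ => 1) q ((1 / 2 : ℂ) • (1 + M')),
      Function.update (fun _ => 1) q ((1 / 2 : ℂ) • (1 - M')),
      Function.update π2 q ((1 / 2 : ℂ) • (1 + Mt')),
      Function.update π2 q ((1 / 2 : ℂ) • (1 - Mt')),
      Function.update π2 q ((1 / 2 : ℂ) • (1 + M')),
      Function.update π2 q ((1 / 2 : ℂ) • (1 - M')),
      update_proj hone q hEp, update_proj hone q hEm, update_proj hπ2p q hFp,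
      update_proj hπ2p q hFm, update_proj hπ2p q hEp, update_proj hπ2p q hEm, ?_⟩
    rw [hobs, h4, refl_conj_one hπp q M, ← hr, ← hMt]
    have hdist : star (tp C.L2) * (tp (Function.update (fun _ => 1) q M)
          + tp (Function.update π q Mt) - tp (Function.update π q M)) * tp C.L2
        = star (tp C.L2) * tp (Function.update (fun _ => 1) q M) * tp C.L2
          + star (tp C.L2) * tp (Function.update π q Mt) * tp C.L2
          - star (tp C.L2) * tp (Function.update π q M) * tp C.L2 := by
      simp only [mul_add, mul_sub, add_mul, sub_mul]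
    rw [hdist, hconj1, hconj2, hconj2, ← hM', ← hMt', tp_half (fun _ => 1) q M', tp_half π2 q Mt',
      tp_half π2 q M']
    abel

/-! ### Output probabilities -/

section Prob

lemma ev_Zq (q : Q) (v : Vec (Q → Bool)) :
    ev (Zq q) v = ∑ s, (if s q then (-1 : ℝ) else 1) * ‖v s‖ ^ 2 := by
  unfold ev
  rw [PiLp.inner_apply, Complex.re_sum]
  refine Finset.sum_congr rfl fun s _ => ?_
  rw [act_apply]
  simp only [Zq_apply]
  have h1 : ∑ u, (if s = u then (if s q = true then (-1 : ℂ) else 1) else 0) * v u
      = (if s q = true then (-1 : ℂ) else 1) * v s := by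
    rw [Finset.sum_eq_single s]
    · simp
    · intro b _ hb
      simp [hb.symm]
    · simp
  rw [h1]
  simp only [RCLike.inner_apply]
  have hc : ∀ z : ℂ, (z * (starRingEnd ℂ) z).re = ‖z‖ ^ 2 := by
    intro z
    rw [Complex.mul_conj, Complex.normSq_eq_norm_sq, Complex.ofReal_re]
  cases hs : s q
  · simp only [Bool.false_eq_true, if_false, one_mul]
    exact hc _
  · simp only [if_true, neg_mul, one_mul, Complex.neg_re]
    rw [hc]

/-- The output expectation in terms of the unitary. -/
lemma ev_Zq_act_e (q : Q) (U : Op Q) (t : Q → Bool) :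
    ev (Zq q) (act U (e t)) = ∑ s, (if s q then (-1 : ℝ) else 1) * ‖U s t‖ ^ 2 := by
  rw [ev_Zq]
  exact Finset.sum_congr rfl fun s _ => by rw [act_e_apply]

variable {n : ℕ} {A : Type} [Fintype A] [DecidableEq A]

lemma Circuit3.unitary_star (C : Circuit3 Q) : star C.unitary * C.unitary = 1 := by
  rw [C.unitary_eq]
  obtain ⟨h1, _⟩ := C.tail_unitary
  obtain ⟨h3, h4⟩ := layer_invol C.T2_disjoint
  have h5 := C.head_unitary
  set W := C.tail
  set T := gateLayer C.T2
  set V := C.head
  simp only [star_mul, h3]
  calc star V * (T * star W) * (W * T * V) = star V * T * (star W * W) * T * V := by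
        simp only [mul_assoc]
    _ = star V * (T * T) * V := by rw [h1, mul_one]; simp only [mul_assoc]
    _ = 1 := by rw [h4, mul_one, h5]

/-- The probabilities of the two outcomes sum to one. -/
lemma Circuit3.outProb_add (C : Circuit3 (Fin n ⊕ A)) (q : Fin n ⊕ A) (x : Fin n → Bool) :
    C.outProb q x false + C.outProb q x true = 1 := by
  have h1 : ‖act C.unitary (e (inputString x))‖ ^ 2 = 1 := by
    rw [norm_act_of_star_mul _ C.unitary_star, norm_e, one_pow]
  rw [norm_act_e_sq] at h1
  rw [← h1]
  unfold Circuit3.outProb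
  rw [← Finset.sum_filter_add_sum_filter_not Finset.univ (fun s : Fin n ⊕ A → Bool => s q = false)]
  congr 1
  refine Finset.sum_congr ?_ fun _ _ => rfl
  ext s
  simp

lemma Circuit3.outProb_sub (C : Circuit3 (Fin n ⊕ A)) (q : Fin n ⊕ A) (x : Fin n → Bool) :
    C.outProb q x false - C.outProb q x true
      = ev (Zq q) (act C.unitary (e (inputString x))) := by
  rw [ev_Zq_act_e]
  unfold Circuit3.outProb
  rw [Finset.sum_filter, Finset.sum_filter, ← Finset.sum_sub_distrib]
  refine Finset.sum_congr rfl fun s _ => ?_
  cases hs : s q <;> simp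

/-- The sign attached to a bit. -/
def sgnOf (b : Bool) : ℝ := if b then -1 else 1

lemma sgnOf_not (b : Bool) : sgnOf (!b) = - sgnOf b := by
  cases b <;> simp [sgnOf]

lemma abs_sgnOf (b : Bool) : |sgnOf b| = 1 := by
  cases b <;> simp [sgnOf]

/-- A circuit computing parity has large signed expectation. -/
lemma Circuit3.signed_of_computes {C : Circuit3 (Fin n ⊕ A)} {q : Fin n ⊕ A} {ε : ℝ}
    (h : C.ComputesParity q ε) (x : Fin n → Bool) :
    2 * ε ≤ sgnOf (parityOf x) *
      ev (C.obs q) (act (gateLayer C.T2) (act C.head (e (inputString x)))) := by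
  have h1 := h x
  have h2 := C.outProb_add q x
  have h3 := C.outProb_sub q x
  have h4 : ev (C.obs q) (act (gateLayer C.T2) (act C.head (e (inputString x))))
      = ev (Zq q) (act C.unitary (e (inputString x))) := by
    rw [C.unitary_eq, act_mul, act_mul]
    exact ev_conj _ _ _
  rw [h4, ← h3]
  cases hp : parityOf x
  · rw [hp] at h1
    simp only [sgnOf, Bool.false_eq_true, if_false]
    linarith
  · rw [hp] at h1
    simp only [sgnOf, if_true]
    linarith

/-- Parity changes under a bit flip. -/
lemma parityOf_flip (i : Fin n) (x : Fin n → Bool) : parityOf (flip i x) = !parityOf x := by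
  unfold parityOf
  have hF : ∀ y : Fin n → Bool, y i = false →
      (Finset.univ.filter fun j => Function.update y i true j = true)
        = insert i (Finset.univ.filter fun j => y j = true) := by
    intro y hy
    ext j
    by_cases hj : j = i
    · subst hj; simp
    · simp [Function.update_of_ne hj, hj]
  have hnot : ∀ y : Fin n → Bool, y i = false → i ∉ Finset.univ.filter fun j => y j = true := by
    intro y hy
    simp [hy]
  cases hx : x i
  · -- the bit goes from false to true
    have h1 : flip i x = Function.update x i true := by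
      simp [flip, hx]
    rw [h1, hF x hx, Finset.card_insert_of_notMem (hnot x hx)]
    by_cases hodd : Odd (Finset.univ.filter fun j => x j = true).card
    · have : ¬ Odd ((Finset.univ.filter fun j => x j = true).card + 1) := by
        rw [Nat.not_odd_iff_even]; exact hodd.add_one
      simp [this, hodd]
    · have : Odd ((Finset.univ.filter fun j => x j = true).card + 1) := by
        rw [Nat.not_odd_iff_even] at hodd; exact hodd.add_one
      simp [this, hodd]
  · -- the bit goes from true to false
    set y := flip i x with hy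
    have hyi : y i = false := by simp [hy, flip, hx]
    have hxy : x = Function.update y i true := by
      funext j
      by_cases hj : j = i
      · subst hj; simp [hx]
      · simp [hy, flip, Function.update_of_ne hj]
    rw [hxy, hF y hyi, Finset.card_insert_of_notMem (hnot y hyi)]
    by_cases hodd : Odd (Finset.univ.filter fun j => y j = true).card
    · have : ¬ Odd ((Finset.univ.filter fun j => y j = true).card + 1) := by
        rw [Nat.not_odd_iff_even]; exact hodd.add_one
      simp [this, hodd]
    · have : Odd ((Finset.univ.filter fun j => y j = true).card + 1) := by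
        rw [Nat.not_odd_iff_even] at hodd; exact hodd.add_one
      simp [this, hodd]

end Prob

end Vale.Agent.Lib.P368
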