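import Vale.Agent.Lib.P368.TheoremG

/-! Choosing the parameters in Theorem G. -/

namespace Vale.Agent.Lib.P368

open Matrix Finset

set_option linter.unusedSectionVars false
set_option linter.unusedSimpArgs false
set_option linter.unusedVariables false

variable {n : ℕ} {A : Type} [Fintype A] [DecidableEq A]

/-- Counting pairwise disjoint sets of size at least `b`. -/
lemma list_disjoint_count {G α : Type} [Fintype α] [DecidableEq α] (f : G → Finset α) (b : ℕ)
    (L : List G) (hd : L.Pairwise fun x y => Disjoint (f x) (f y)) (hb : ∀ g ∈ L, b ≤ (f g).card) :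
    L.length * b ≤ Fintype.card α := by
  classical
  have key : L.length * b ≤ (L.toFinset.biUnion f).card := by
    induction L with
    | nil => simp
    | cons a L ih =>
      rw [List.pairwise_cons] at hd
      have h1 := ih hd.2 (fun g hg => hb g (by simp [hg]))
      have h2 := hb a (by simp)
      rw [List.toFinset_cons, Finset.biUnion_insert]
      have h3 : Disjoint (f a) (L.toFinset.biUnion f) := by
        rw [Finset.disjoint_biUnion_right]
        intro g hg
        exact hd.1 g (List.mem_toFinset.mp hg)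
      rw [Finset.card_union_of_disjoint h3, List.length_cons, add_mul]
      omega
  exact key.trans (Finset.card_le_univ _)

lemma big_count (C : Circuit3 (Fin n ⊕ A)) (t : ℕ) :
    (C.T1.filter fun g => decide (2 * t ≤ (inpOf g).card)).length * (2 * t) ≤ n := by
  have h := list_disjoint_count (α := Fin n) inpOf (2 * t)
    (C.T1.filter fun g => decide (2 * t ≤ (inpOf g).card))
    ((C.T1_disjoint.filter _).imp fun {a b} hab => by
      rw [Finset.disjoint_left]
      intro i hi hi'
      exact Finset.disjoint_left.mp hab (Finset.mem_filter.mp hi).2 (Finset.mem_filter.mp hi').2)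
    (fun g hg => by simpa using (List.mem_filter.mp hg).2)
  simpa using h

lemma wide_count (C : Circuit3 (Fin n ⊕ A)) (w : ℕ) (p : Toffoli (Fin n ⊕ A) → Bool)
    (hp : ∀ g, p g = true → w < g.supp.card) :
    (C.T1.filter p).length * (w + 1) ≤ n + Fintype.card A := by
  have h := list_disjoint_count (α := Fin n ⊕ A) Toffoli.supp (w + 1) (C.T1.filter p)
    (C.T1_disjoint.filter _) (fun g hg => hp g (List.mem_filter.mp hg).2)
  simpa using h

/-- Theorem G with cleaner numerical hypotheses. -/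
theorem no_advantage_of_params (C : Circuit3 (Fin n ⊕ A)) (q : Fin n ⊕ A) {ε : ℝ} (hε : 0 < ε)
    (t w m c W0 : ℕ) (ht : 1 ≤ t) (hw : 1 ≤ w) (hm0 : 1 ≤ m)
    (hm : (1 / 2 : ℝ) ^ m < ε / 12)
    (ht2 : 8 * (n : ℝ) * (1 / 2 : ℝ) ^ t ≤ ε ^ 2)
    (hc : (1 : ℝ) ≤ c * (ε / (48 * m)) ^ 2)
    (hW0 : (C.T1.filter fun g =>
      decide ((inpOf g).card < 2 * t ∧ w < g.supp.card ∧ (inpOf g).Nonempty)).length ≤ W0)
    (hcount : 4 * t * (m * (1 + c * w) + W0) ≤ n) :
    ¬ C.ComputesParity q ε := by
  intro h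
  have hm0R : (0 : ℝ) < m := by exact_mod_cast hm0
  set τ : ℝ := (ε / (48 * m)) ^ 2 with hτ
  have hτpos : 0 < τ := by positivity
  have hN0 : (w : ℝ) ≤ ((c * w : ℕ) : ℝ) * τ := by
    push_cast
    have hwpos : (0 : ℝ) ≤ w := Nat.cast_nonneg w
    nlinarith
  have hG := theoremG C q ε h t w m (c * w) ht hw τ hτpos hN0 W0 hW0 hcount
  have hsq : Real.sqrt τ = ε / (48 * m) := by
    rw [hτ]
    exact Real.sqrt_sq (by positivity)
  rw [hsq] at hG
  have h4m : 4 * (m : ℝ) * (ε / (48 * m)) = ε / 12 := by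
    field_simp
    norm_num
  rw [h4m] at hG
  -- the bound on `D`
  set bigC := (C.T1.filter fun g => decide (2 * t ≤ (inpOf g).card)).length with hbigC
  have hbig := big_count C t
  rw [← hbigC] at hbig
  have hbig2 : 4 * (bigC : ℝ) ≤ 2 * n := by
    have h1 : bigC * 2 ≤ bigC * (2 * t) := by
      apply Nat.mul_le_mul_left
      omega
    have h2 : bigC * 2 ≤ n := h1.trans hbig
    have h3 : (bigC : ℝ) * 2 ≤ n := by exact_mod_cast h2
    linarith
  have hpow : (0 : ℝ) < (1 / 2 : ℝ) ^ t := by positivity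
  have hD : Real.sqrt (4 * (bigC : ℝ) * (1 / 2 : ℝ) ^ t) ≤ ε / 2 := by
    refine Real.sqrt_le_iff.mpr ⟨by positivity, ?_⟩
    have h1 : 4 * (bigC : ℝ) * (1 / 2 : ℝ) ^ t ≤ 2 * n * (1 / 2 : ℝ) ^ t := by gcongr
    have h2 : (ε / 2) ^ 2 = ε ^ 2 / 4 := by ring
    rw [h2]
    nlinarith
  have hmm : 6 * (1 / 2 : ℝ) ^ m < ε / 2 := by linarith
  linarith

end Vale.Agent.Lib.P368
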