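import Vale.Agent.Lib.P368.Core

/-! Toffoli gates as reflections, the Heisenberg-picture observable and its six-term form. -/

namespace Vale.Agent.Lib.P368

open Matrix Finset
open scoped Matrix.Norms.L2Operator InnerProductSpace

set_option linter.unusedSectionVars false
set_option linter.unusedSimpArgs false
set_option linter.unusedVariables false

variable {Q : Type} [Fintype Q] [DecidableEq Q]

/-- The projector `|1⟩⟨1|`. -/
def P1 : M2 := Matrix.of fun a b => if a = true ∧ b = true then 1 else 0

/-- The projector `|−⟩⟨−|`. -/
noncomputable def Pm : M2 := Matrix.of fun a b => if a = b then (1 / 2 : ℂ) else (-1 / 2 : ℂ)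

lemma P1_proj : IsStarProjection P1 := by
  constructor
  · show P1 * P1 = P1
    ext a b
    cases a <;> cases b <;> simp [P1, Matrix.mul_apply]
  · show star P1 = P1
    ext a b
    cases a <;> cases b <;> simp [P1, Matrix.star_apply]

lemma Pm_proj : IsStarProjection Pm := by
  constructor
  · show Pm * Pm = Pm
    ext a b
    cases a <;> cases b <;> simp [Pm, Matrix.mul_apply] <;> ring
  · show star Pm = Pm
    ext a b
    cases a <;> cases b <;> simp [Pm, Matrix.star_apply]

/-- The family of one-qubit projectors of a Toffoli gate. -/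
noncomputable def Toffoli.pi (g : Toffoli Q) (q : Q) : M2 :=
  if q = g.target then Pm else if q ∈ g.controls then P1 else 1

lemma Toffoli.pi_proj (g : Toffoli Q) (q : Q) : IsStarProjection (g.pi q) := by
  unfold Toffoli.pi
  split_ifs
  · exact Pm_proj
  · exact P1_proj
  · exact IsStarProjection.one _

lemma Toffoli.pi_off (g : Toffoli Q) (q : Q) (h : q ∉ g.supp) : g.pi q = 1 := by
  have h1 : q ≠ g.target := fun hq => h (by simp [Toffoli.supp, hq])
  have h2 : q ∉ g.controls := fun hq => h (by simp [Toffoli.supp, hq])
  simp [Toffoli.pi, h1, h2]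

lemma Toffoli.target_mem (g : Toffoli Q) : g.target ∈ g.supp := by
  simp [Toffoli.supp]

lemma Toffoli.act_apply (g : Toffoli Q) (t : Q → Bool) (q : Q) :
    g.act t q = if q = g.target then xor (t g.target) (decide (∀ c ∈ g.controls, t c = true))
      else t q := by
  unfold Toffoli.act
  by_cases h : q = g.target
  · subst h; simp
  · simp [Function.update_of_ne h, h]

/-- A Toffoli gate is the reflection `1 - 2 ⊗ π`. -/
lemma Toffoli.mat_eq (g : Toffoli Q) : g.mat = gateOf g.pi := by
  ext s t
  simp only [Toffoli.mat, gateOf, refl, Matrix.of_apply, Matrix.sub_apply, Matrix.smul_apply,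
    Matrix.one_apply, smul_eq_mul, tp]
  by_cases hoff : ∃ p, p ≠ g.target ∧ s p ≠ t p
  · obtain ⟨p, hp, hsp⟩ := hoff
    have h1 : s ≠ g.act t := fun h => hsp (by rw [h, Toffoli.act_apply, if_neg hp])
    have h2 : s ≠ t := fun h => hsp (by rw [h])
    have h3 : g.pi p (s p) (t p) = 0 := by
      unfold Toffoli.pi
      rw [if_neg hp]
      split_ifs with hc
      · cases hs : s p <;> cases ht : t p <;> simp_all [P1]
      · simp [Matrix.one_apply, hsp]
    have h4 : ∏ q, g.pi q (s q) (t q) = 0 := Finset.prod_eq_zero (Finset.mem_univ p) h3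
    simp [h1, h2, h4]
  · push Not at hoff
    have hprod : ∏ q, g.pi q (s q) (t q)
        = g.pi g.target (s g.target) (t g.target)
          * ∏ q ∈ g.controls, g.pi q (s q) (t q) := by
      rw [← Finset.mul_prod_erase _ _ (Finset.mem_univ g.target)]
      congr 1
      symm
      refine Finset.prod_subset ?_ ?_
      · intro c hc
        refine Finset.mem_erase.mpr ⟨fun h => g.target_not_mem (h ▸ hc), Finset.mem_univ _⟩
      · intro p hp hpc
        have hpt : p ≠ g.target := Finset.ne_of_mem_erase hp
        have : s p = t p := hoff p hpt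
        simp only [Toffoli.pi, if_neg hpt, if_neg hpc]
        rw [this]
        simp
    have hT : g.pi g.target = Pm := by simp [Toffoli.pi]
    by_cases hctrl : ∀ c ∈ g.controls, t c = true
    · have hctl : ∏ q ∈ g.controls, g.pi q (s q) (t q) = 1 := by
        refine Finset.prod_eq_one fun c hc => ?_
        have hct : c ≠ g.target := fun h => g.target_not_mem (h ▸ hc)
        have h1 : s c = t c := hoff c hct
        simp [Toffoli.pi, hct, hc, h1, hctrl c hc, P1]
      have hact : ∀ q, g.act t q = if q = g.target then !t g.target else t q := by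
        intro q
        rw [Toffoli.act_apply, decide_eq_true hctrl]
        simp
      rw [hprod, hctl, hT, mul_one]
      by_cases hst : s g.target = t g.target
      · have h1 : s = t := by
          funext p
          by_cases hp : p = g.target
          · rw [hp, hst]
          · exact hoff p hp
        have h2 : s ≠ g.act t := by
          intro h
          have := congrFun h g.target
          rw [hact, if_pos rfl, hst] at this
          have hb : ∀ b : Bool, b ≠ !b := by decide
          exact hb _ this
        have h3 : Pm (s g.target) (t g.target) = (1 / 2 : ℂ) := by simp [Pm, hst]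
        rw [if_neg h2, if_pos h1, h3]
        norm_num
      · have h1 : s = g.act t := by
          funext p
          rw [hact]
          by_cases hp : p = g.target
          · subst hp
            simp only [if_true]
            cases hs : s g.target <;> cases ht : t g.target <;> simp_all
          · rw [if_neg hp]; exact hoff p hp
        have h2 : s ≠ t := fun h => hst (by rw [h])
        have h3 : Pm (s g.target) (t g.target) = (-1 / 2 : ℂ) := by simp [Pm, hst]
        rw [if_pos h1, if_neg h2, h3]
        norm_num
    · have hctl : ∏ q ∈ g.controls, g.pi q (s q) (t q) = 0 := by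
        push Not at hctrl
        obtain ⟨c, hc, hct⟩ := hctrl
        refine Finset.prod_eq_zero hc ?_
        have hct' : c ≠ g.target := fun h => g.target_not_mem (h ▸ hc)
        have h1 : s c = t c := hoff c hct'
        have h2 : t c = false := by simpa using hct
        simp [Toffoli.pi, hct', hc, h1, h2, P1]
      have hact : g.act t = t := by
        funext q
        rw [Toffoli.act_apply, decide_eq_false hctrl]
        by_cases hq : q = g.target
        · subst hq; simp
        · simp [hq]
      rw [hprod, hctl, hact]
      simp

lemma gateLayer_eq (gs : List (Toffoli Q)) :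
    gateLayer gs = lprod (fun g : Toffoli Q => gateOf g.pi) gs := by
  unfold gateLayer lprod
  congr 1
  exact List.map_congr_left fun g _ => g.mat_eq

lemma Toffoli.mat_mem (g : Toffoli Q) : gateOf g.pi ∈ Alg g.supp :=
  refl_mem (tp_mem_Alg g.pi_off)

lemma Toffoli.mat_star (g : Toffoli Q) : star (gateOf g.pi) = gateOf g.pi :=
  refl_star (tp_proj g.pi_proj)

lemma Toffoli.mat_sq (g : Toffoli Q) : gateOf g.pi * gateOf g.pi = 1 :=
  refl_sq (tp_proj g.pi_proj)

/-- Commutation of gates in a layer. -/
lemma layer_pairwise {gs : List (Toffoli Q)} (h : gs.Pairwise fun g h => Disjoint g.supp h.supp) :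
    gs.Pairwise fun a b => Commute (gateOf a.pi) (gateOf b.pi) :=
  h.imp fun {a b} hab => Alg_commute hab a.mat_mem b.mat_mem

lemma layer_invol {gs : List (Toffoli Q)} (h : gs.Pairwise fun g h => Disjoint g.supp h.supp) :
    star (gateLayer gs) = gateLayer gs ∧ gateLayer gs * gateLayer gs = 1 := by
  rw [gateLayer_eq]
  exact lprod_invol _ gs (layer_pairwise h) (fun l _ => l.mat_star) (fun l _ => l.mat_sq)

/-- Conjugating an operator on one qubit by a layer of gates. -/
theorem layer_conj {gs : List (Toffoli Q)} (h : gs.Pairwise fun g h => Disjoint g.supp h.supp)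
    (q : Q) {A : Op Q} (hA : A ∈ Alg {q}) :
    ((∀ g ∈ gs, q ∉ g.supp) ∧ gateLayer gs * A * gateLayer gs = A) ∨
    (∃ g ∈ gs, q ∈ g.supp ∧ gateLayer gs * A * gateLayer gs = gateOf g.pi * A * gateOf g.pi) := by
  induction gs with
  | nil =>
    left
    simp [gateLayer]
  | cons a gs ih =>
    rw [List.pairwise_cons] at h
    have hinv := layer_invol h.2
    have hlay : gateLayer (a :: gs) = gateOf a.pi * gateLayer gs := by
      rw [gateLayer_eq, gateLayer_eq, lprod_cons]
    have hcomm : Commute (gateOf a.pi) (gateLayer gs) := by
      rw [gateLayer_eq]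
      exact lprod_commute _ _ _ fun l hl => Alg_commute (h.1 l hl) a.mat_mem l.mat_mem
    rw [hlay]
    by_cases hq : q ∈ a.supp
    · right
      refine ⟨a, by simp, hq, ?_⟩
      have hr : ∀ g ∈ gs, q ∉ g.supp := fun g hg hqg =>
        Finset.disjoint_left.mp (h.1 g hg) hq hqg
      have hcA : Commute (gateLayer gs) A := by
        rw [gateLayer_eq]
        refine (lprod_commute _ _ _ fun l hl => ?_).symm
        exact Alg_commute (by simpa using hr l hl) hA l.mat_mem
      set T := gateLayer gs
      set t := gateOf a.pi
      calc t * T * A * (t * T) = t * (T * A) * (t * T) := by simp only [mul_assoc]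
        _ = t * (A * T) * (t * T) := by rw [hcA.eq]
        _ = t * A * (T * t) * T := by simp only [mul_assoc]
        _ = t * A * (t * T) * T := by rw [hcomm.symm.eq]
        _ = t * A * t * (T * T) := by simp only [mul_assoc]
        _ = t * A * t := by rw [hinv.2, mul_one]
    · have hcA : Commute (gateOf a.pi) A :=
        Alg_commute (by simpa using hq) a.mat_mem hA
      have hsq := a.mat_sq
      have hred : gateOf a.pi * gateLayer gs * A * (gateOf a.pi * gateLayer gs)
          = gateLayer gs * A * gateLayer gs := by
        set T := gateLayer gs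
        set t := gateOf a.pi
        calc t * T * A * (t * T) = t * T * (A * t) * T := by simp only [mul_assoc]
          _ = t * T * (t * A) * T := by rw [hcA.symm.eq]
          _ = t * (T * t) * A * T := by simp only [mul_assoc]
          _ = t * (t * T) * A * T := by rw [hcomm.symm.eq]
          _ = (t * t) * (T * A * T) := by simp only [mul_assoc]
          _ = T * A * T := by rw [hsq, one_mul]
      rw [hred]
      rcases ih h.2 with ⟨h1, h2⟩ | ⟨g, hg, hqg, h2⟩
      · left
        refine ⟨?_, h2⟩
        intro g hg
        rcases List.mem_cons.mp hg with rfl | hg'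
        · exact hq
        · exact h1 g hg'
      · right
        exact ⟨g, by simp [hg], hqg, h2⟩

/-! ### The observable -/

/-- The one-qubit operator `Z`. -/
def Z2 : M2 := Matrix.of fun a b => if a = b then (if a then -1 else 1) else 0

/-- The observable `Z` on one qubit of the register. -/
noncomputable def Zq (q : Q) : Op Q := tp (Function.update (fun _ => 1) q Z2)

lemma Z2_star : star Z2 = Z2 := by
  ext a b
  cases a <;> cases b <;> simp [Z2, Matrix.star_apply]

lemma Z2_sq : Z2 * Z2 = 1 := by
  ext a b
  cases a <;> cases b <;> simp [Z2, Matrix.mul_apply]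

lemma Zq_apply (q : Q) (s t : Q → Bool) :
    Zq q s t = if s = t then (if s q then -1 else 1) else 0 := by
  unfold Zq tp
  simp only [Matrix.of_apply]
  rw [← Finset.mul_prod_erase _ _ (Finset.mem_univ q)]
  have h1 : ∏ p ∈ univ.erase q, Function.update (fun _ => (1 : M2)) q Z2 p (s p) (t p)
      = if (∀ p, p ≠ q → s p = t p) then 1 else 0 := by
    split_ifs with h
    · refine Finset.prod_eq_one fun p hp => ?_
      have hpq := Finset.ne_of_mem_erase hp
      rw [Function.update_of_ne hpq, h p hpq]
      simp
    · push Not at h
      obtain ⟨p, hpq, hsp⟩ := h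
      refine Finset.prod_eq_zero (Finset.mem_erase.mpr ⟨hpq, Finset.mem_univ p⟩) ?_
      rw [Function.update_of_ne hpq]
      simp [Matrix.one_apply, hsp]
  rw [h1, Function.update_self]
  by_cases hst : s = t
  · subst hst
    simp [Z2]
  · rw [if_neg hst]
    by_cases h : ∀ p, p ≠ q → s p = t p
    · have hq : s q ≠ t q := by
        intro hq
        apply hst
        funext p
        by_cases hp : p = q
        · rw [hp, hq]
        · exact h p hp
      simp [Z2, hq]
    · simp [h]

lemma Zq_star (q : Q) : star (Zq q) = Zq q := by
  unfold Zq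
  rw [tp_star]
  congr 1
  funext p
  by_cases hp : p = q
  · subst hp; simp [Z2_star]
  · simp [Function.update_of_ne hp]

lemma Zq_sq (q : Q) : Zq q * Zq q = 1 := by
  unfold Zq
  rw [tp_mul]
  have : (fun p => Function.update (fun _ => (1 : M2)) q Z2 p * Function.update (fun _ => (1 : M2)) q Z2 p)
      = fun _ => (1 : M2) := by
    funext p
    by_cases hp : p = q
    · subst hp; simp [Z2_sq]
    · simp [Function.update_of_ne hp]
  rw [this]
  exact tp_one

/-- Single-qubit self-adjoint involutions give two complementary projections. -/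
lemma half_proj {X : M2} (h1 : star X = X) (h2 : X * X = 1) :
    IsStarProjection ((1 / 2 : ℂ) • (1 + X)) ∧ IsStarProjection ((1 / 2 : ℂ) • (1 - X)) := by
  constructor
  · constructor
    · show (1 / 2 : ℂ) • (1 + X) * (1 / 2 : ℂ) • (1 + X) = (1 / 2 : ℂ) • (1 + X)
      have h3 : (1 + X) * (1 + X) = (2 : ℂ) • (1 + X) := by
        rw [two_smul]
        have : (1 + X) * (1 + X) = 1 + X + X + X * X := by noncomm_ring
        rw [this, h2]
        abel
      rw [smul_mul_smul_comm, h3, smul_smul]
      norm_num
    · show star ((1 / 2 : ℂ) • (1 + X)) = (1 / 2 : ℂ) • (1 + X)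
      simp [star_smul, h1]
  · constructor
    · show (1 / 2 : ℂ) • (1 - X) * (1 / 2 : ℂ) • (1 - X) = (1 / 2 : ℂ) • (1 - X)
      have h3 : (1 - X) * (1 - X) = (2 : ℂ) • (1 - X) := by
        rw [two_smul]
        have : (1 - X) * (1 - X) = 1 - X - X + X * X := by noncomm_ring
        rw [this, h2]
        abel
      rw [smul_mul_smul_comm, h3, smul_smul]
      norm_num
    · show star ((1 / 2 : ℂ) • (1 - X)) = (1 / 2 : ℂ) • (1 - X)
      simp [star_smul, h1]

lemma half_sub (X : M2) : X = (1 / 2 : ℂ) • (1 + X) - (1 / 2 : ℂ) • (1 - X) := by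
  rw [← smul_sub]
  have : (1 + X) - (1 - X) = (2 : ℂ) • X := by rw [two_smul]; abel
  rw [this, smul_smul]
  norm_num

/-- Conjugation of a self-adjoint involution. -/
lemma conj_invol {U X : M2} (hU : U ∈ Matrix.unitaryGroup Bool ℂ) (h1 : star X = X)
    (h2 : X * X = 1) :
    star (star U * X * U) = star U * X * U ∧ (star U * X * U) * (star U * X * U) = 1 := by
  have h3 : U * star U = 1 := Matrix.mem_unitaryGroup_iff.mp hU
  have h4 : star U * U = 1 := Matrix.mem_unitaryGroup_iff'.mp hU
  constructor
  · simp [star_mul, h1, mul_assoc]
  · calc star U * X * U * (star U * X * U) = star U * X * (U * star U) * X * U := by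
          simp only [mul_assoc]
      _ = star U * (X * X) * U := by rw [h3, mul_one]; simp only [mul_assoc]
      _ = 1 := by rw [h2, mul_one, h4]

lemma conj_proj {U X : M2} (hU : U ∈ Matrix.unitaryGroup Bool ℂ) (h : IsStarProjection X) :
    IsStarProjection (star U * X * U) := by
  have h3 : U * star U = 1 := Matrix.mem_unitaryGroup_iff.mp hU
  constructor
  · show star U * X * U * (star U * X * U) = star U * X * U
    calc star U * X * U * (star U * X * U) = star U * X * (U * star U) * X * U := by
          simp only [mul_assoc]
      _ = star U * (X * X) * U := by rw [h3, mul_one]; simp only [mul_assoc]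
      _ = star U * X * U := by rw [h.isIdempotentElem.eq]
  · show star (star U * X * U) = star U * X * U
    simp [star_mul, h.isSelfAdjoint.star_eq, mul_assoc]

/-- Conjugating a tensor product by a layer of one-qubit gates. -/
lemma tp_conj (U F : Q → M2) :
    star (tp U) * tp F * tp U = tp (fun p => star (U p) * F p * U p) := by
  rw [tp_star, tp_mul, tp_mul]

/-- Conjugation of a one-qubit operator by a reflection, in six-term-ready form. -/
lemma refl_conj_one {π : Q → M2} (hπ : ∀ p, IsStarProjection (π p)) (q : Q) (M : M2) :
    gateOf π * tp (Function.update (fun _ => 1) q M) * gateOf π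
      = tp (Function.update (fun _ => 1) q M)
        + tp (Function.update π q ((1 - (2 : ℂ) • π q) * M * (1 - (2 : ℂ) • π q)))
        - tp (Function.update π q M) := by
  have hPi : ∀ X : M2, tp π * tp (Function.update (fun _ => 1) q X)
      = tp (Function.update π q (π q * X)) := by
    intro X
    rw [tp_mul]
    congr 1
    funext p
    by_cases hp : p = q
    · subst hp; simp
    · simp [Function.update_of_ne hp]
  have hPi' : ∀ X : M2, tp (Function.update π q X) * tp π = tp (Function.update π q (X * π q)) := by
    intro X
    rw [tp_mul]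
    congr 1
    funext p
    by_cases hp : p = q
    · subst hp; simp
    · simp [Function.update_of_ne hp, (hπ p).isIdempotentElem.eq]
  have hPi'' : ∀ X : M2, tp (Function.update (fun _ => 1) q X) * tp π
      = tp (Function.update π q (X * π q)) := by
    intro X
    rw [tp_mul]
    congr 1
    funext p
    by_cases hp : p = q
    · subst hp; simp
    · simp [Function.update_of_ne hp]
  set P := π q with hP
  have e2 : ∀ {R : Type} [Ring R] [Algebra ℂ R] (X : R), (2 : ℂ) • X = X + X :=
    fun X => two_smul ℂ X
  have e4 : ∀ {R : Type} [Ring R] [Algebra ℂ R] (X : R), (4 : ℂ) • X = X + X + X + X := by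
    intro R _ _ X
    rw [show (4 : ℂ) = 1 + 1 + 1 + 1 by norm_num]
    simp only [add_smul, one_smul]
  have hexp : (1 - (2 : ℂ) • P) * M * (1 - (2 : ℂ) • P)
      = M - (2 : ℂ) • (P * M) - (2 : ℂ) • (M * P) + (4 : ℂ) • (P * M * P) := by
    simp only [e2, e4]
    noncomm_ring
  have hexp2 : ∀ PP m : Op Q, (1 - (2 : ℂ) • PP) * m * (1 - (2 : ℂ) • PP)
      = m - (2 : ℂ) • (PP * m) - (2 : ℂ) • (m * PP) + (4 : ℂ) • (PP * m * PP) := by
    intro PP m
    simp only [e2, e4]
    noncomm_ring
  unfold gateOf refl
  rw [hexp2, hexp, tp_update_add, tp_update_sub, tp_update_sub, tp_update_smul, tp_update_smul,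
    tp_update_smul, hPi, hPi'', hPi']
  abel

end Vale.Agent.Lib.P368
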