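import Vale.Agent.Lib.P368.TopOp

/-! The selection of a small set of inputs by a potential argument. -/

namespace Vale.Agent.Lib.P368

open Matrix Finset
open scoped Matrix.Norms.L2Operator InnerProductSpace

set_option linter.unusedSectionVars false
set_option linter.unusedSimpArgs false
set_option linter.unusedVariables false

variable {Q I G : Type} [Fintype Q] [DecidableEq Q] [DecidableEq I] [DecidableEq G]

/-- The restriction of a gate projector to the qubits in `A`. -/
noncomputable def Rr (π : Q → M2) (A : Finset Q) : Op Q := tp (fun q => if q ∈ A then π q else 1)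

lemma Rr_proj {π : Q → M2} (hπ : ∀ q, IsStarProjection (π q)) (A : Finset Q) :
    IsStarProjection (Rr π A) := by
  refine tp_proj fun q => ?_
  by_cases hq : q ∈ A
  · simpa [hq] using hπ q
  · simpa [hq] using IsStarProjection.one _

lemma Rr_mul {π : Q → M2} (hπ : ∀ q, IsStarProjection (π q)) (A A' : Finset Q) :
    Rr π A * Rr π A' = Rr π (A ∪ A') := by
  unfold Rr
  rw [tp_mul]
  congr 1
  funext q
  by_cases hq : q ∈ A <;> by_cases hq' : q ∈ A' <;> simp [hq, hq', (hπ q).isIdempotentElem.eq]

lemma Rr_comm {π : Q → M2} (hπ : ∀ q, IsStarProjection (π q)) (A A' : Finset Q) :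
    Commute (Rr π A) (Rr π A') := by
  show Rr π A * Rr π A' = Rr π A' * Rr π A
  rw [Rr_mul hπ, Rr_mul hπ, Finset.union_comm]

lemma Rr_empty (π : Q → M2) : Rr π ∅ = 1 := by
  unfold Rr
  simp only [Finset.notMem_empty, if_false]
  exact tp_one

lemma Rr_univ (π : Q → M2) : Rr π Finset.univ = tp π := by
  unfold Rr
  simp

lemma Rr_mem (π : Q → M2) (A : Finset Q) : Rr π A ∈ Alg A :=
  tp_mem_Alg fun q hq => by simp [hq]

lemma Rr_mem_supp {π : Q → M2} {S : Finset Q} (h : ∀ q, q ∉ S → π q = 1) (A : Finset Q) :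
    Rr π A ∈ Alg S :=
  tp_mem_Alg fun q hq => by simp [h q hq]

lemma Rr_mem_inter {π : Q → M2} {S : Finset Q} (h : ∀ q, q ∉ S → π q = 1) (A : Finset Q) :
    Rr π A ∈ Alg (A ∩ S) :=
  tp_mem_Alg fun q hq => by
    by_cases hA : q ∈ A
    · have : q ∉ S := fun hS => hq (Finset.mem_inter.mpr ⟨hA, hS⟩)
      simp [hA, h q this]
    · simp [hA]

/-- A family of unit vectors indexed by bit strings on `I`, with local self-adjoint involutions
implementing the flips of the bits, whose supports are pairwise disjoint. -/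
structure FlipSys (Q I : Type) [Fintype Q] [DecidableEq Q] [DecidableEq I] where
  /-- The unit vectors. -/
  φ : (I → Bool) → Vec (Q → Bool)
  /-- The flips. -/
  W : I → Op Q
  /-- The supports of the flips. -/
  B : I → Finset Q
  φ_unit : ∀ z, ‖φ z‖ = 1
  W_star : ∀ i, star (W i) = W i
  W_sq : ∀ i, W i * W i = 1
  W_mem : ∀ i, W i ∈ Alg (B i)
  B_disj : ∀ i j, i ≠ j → Disjoint (B i) (B j)
  flip_eq : ∀ i z, φ (flip i z) = act (W i) (φ z)

namespace FlipSys

variable (P : FlipSys Q I)

/-- The union of the supports of the flips in `F`. -/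
def BU (F : Finset I) : Finset Q := F.biUnion P.B

lemma W_star_mul (i : I) : star (P.W i) * P.W i = 1 := by rw [P.W_star, P.W_sq]

/-- The quantity controlled by the selection. -/
noncomputable def loss (π : Q → M2) (j : I) (F : Finset I) (x : I → Bool) : ℝ :=
  ‖act (1 - Rr π (P.B j)) (act (Rr π (P.BU F)) (P.φ x))‖ ^ 2

lemma loss_nonneg (π : Q → M2) (j : I) (F : Finset I) (x : I → Bool) : 0 ≤ P.loss π j F x := by
  unfold loss; positivity

lemma BU_insert (j : I) (F : Finset I) : P.BU (insert j F) = P.B j ∪ P.BU F := by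
  simp [BU, Finset.biUnion_insert]

lemma BU_empty : P.BU ∅ = ∅ := by simp [BU]

lemma disjoint_B_BU {k : I} {F : Finset I} (hk : k ∉ F) : Disjoint (P.B k) (P.BU F) := by
  unfold BU
  rw [Finset.disjoint_biUnion_right]
  intro j hj
  exact P.B_disj k j (fun h => hk (h ▸ hj))

lemma disjoint_BU_BU {F F' : Finset I} (h : Disjoint F F') : Disjoint (P.BU F) (P.BU F') := by
  unfold BU
  rw [Finset.disjoint_biUnion_left]
  intro j hj
  exact P.disjoint_B_BU (Finset.disjoint_left.mp h hj)

lemma subset_BU {j : I} {F : Finset I} (hj : j ∈ F) : P.B j ⊆ P.BU F :=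
  Finset.subset_biUnion_of_mem P.B hj

/-- One step of the potential: the squared norm drops by the loss. -/
lemma potential_step {π : Q → M2} (hπ : ∀ q, IsStarProjection (π q)) (j : I) (F : Finset I)
    (x : I → Bool) :
    ‖act (Rr π (P.BU (insert j F))) (P.φ x)‖ ^ 2
      = ‖act (Rr π (P.BU F)) (P.φ x)‖ ^ 2 - P.loss π j F x := by
  have h1 := pythagoras (Rr_proj hπ (P.B j)) (act (Rr π (P.BU F)) (P.φ x))
  have h2 : act (Rr π (P.B j)) (act (Rr π (P.BU F)) (P.φ x))
      = act (Rr π (P.BU (insert j F))) (P.φ x) := by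
    rw [← act_mul, Rr_mul hπ, P.BU_insert]
  rw [h2] at h1
  unfold loss
  linarith

/-- Invariance of the norm under flips of bits outside `F`. -/
lemma norm_invariant_Rr {π : Q → M2} (F D : Finset I) (hFD : Disjoint F D) (x x' : I → Bool)
    (h : ∀ i, i ∉ D → x i = x' i) :
    ‖act (Rr π (P.BU F)) (P.φ x)‖ = ‖act (Rr π (P.BU F)) (P.φ x')‖ := by
  refine norm_invariant P.φ P.W P.flip_eq P.W_star_mul _ D x x' h fun k hk => ?_
  have hkF : k ∉ F := fun hF => Finset.disjoint_left.mp hFD hF hk
  exact Alg_commute (P.disjoint_B_BU hkF).symm (Rr_mem _ _) (P.W_mem k)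

/-- The loss does not change under a flip of a bit whose flip is disjoint from the gate. -/
lemma loss_invariant {π : Q → M2} {S : Finset Q} (hoff : ∀ q, q ∉ S → π q = 1) {o : I}
    (ho : Disjoint (P.B o) S) (j : I) (F : Finset I) (x x' : I → Bool)
    (h : ∀ i, i ≠ o → x i = x' i) : P.loss π j F x = P.loss π j F x' := by
  have hR1 := Rr_mem_supp hoff (P.B j)
  have hR2 := Rr_mem_supp hoff (P.BU F)
  have hmem : (1 - Rr π (P.B j)) * Rr π (P.BU F) ∈ Alg S :=
    (Alg S).mul_mem ((Alg S).sub_mem (Alg S).one_mem hR1) hR2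
  have hc : Commute ((1 - Rr π (P.B j)) * Rr π (P.BU F)) (P.W o) :=
    Alg_commute ho.symm hmem (P.W_mem o)
  have key : ‖act ((1 - Rr π (P.B j)) * Rr π (P.BU F)) (P.φ x)‖
      = ‖act ((1 - Rr π (P.B j)) * Rr π (P.BU F)) (P.φ x')‖ := by
    refine norm_invariant P.φ P.W P.flip_eq P.W_star_mul _ {o} x x' ?_ ?_
    · intro i hi
      exact h i (by simpa using hi)
    · intro k hk
      have hk' : k = o := by simpa using hk
      rw [hk']
      exact hc
  unfold loss
  rw [← act_mul, ← act_mul, key]

/-- The greedy fixing of bits for one owner `o`. -/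
theorem greedy (π : G → Q → M2) (hπ : ∀ l q, IsStarProjection (π l q)) (w τ : ℝ) (hτ : 0 < τ)
    (N0 : ℕ) (hN0 : w ≤ N0 * τ) (o : I) (Lo : Finset G) :
    ∀ (k : ℕ) (F Fr : Finset I) (y : I → Bool),
      F.card + k = N0 → Disjoint F Fr → o ∈ Fr →
      (∀ x, (∀ i, i ∉ Fr → x i = y i) →
        ∑ l ∈ Lo, ‖act (Rr (π l) (P.BU F)) (P.φ x)‖ ^ 2 ≤ w - F.card * τ) →
      ∃ (F' : Finset I) (y' : I → Bool),
        F ⊆ F' ∧ F'.card ≤ N0 ∧ F' ⊆ F ∪ Fr ∧ o ∉ F' ∧ (∀ i, i ∉ Fr → y' i = y i) ∧
        ∀ j ∈ Fr \ F', j ≠ o → ∀ x, (∀ i, i ∉ Fr \ F' → x i = y' i) →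
          ∑ l ∈ Lo, P.loss (π l) j F' x ≤ τ := by
  intro k
  induction k with
  | zero =>
    intro F Fr y hk hd ho hinv
    refine ⟨F, y, Finset.Subset.refl _, by omega, Finset.subset_union_left,
      fun hF => Finset.disjoint_left.mp hd hF ho, fun _ _ => rfl, ?_⟩
    intro j hj hjo x hx
    by_contra hcon
    push Not at hcon
    have hjFr : j ∈ Fr := (Finset.mem_sdiff.mp hj).1
    have hjF : j ∉ F := (Finset.mem_sdiff.mp hj).2
    have hxFr : ∀ i, i ∉ Fr → x i = y i := fun i hi => hx i (fun h => hi (Finset.mem_sdiff.mp h).1)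
    have h1 := hinv x hxFr
    have h2 : ∑ l ∈ Lo, ‖act (Rr (π l) (P.BU (insert j F))) (P.φ x)‖ ^ 2
        = ∑ l ∈ Lo, ‖act (Rr (π l) (P.BU F)) (P.φ x)‖ ^ 2 - ∑ l ∈ Lo, P.loss (π l) j F x := by
      rw [← Finset.sum_sub_distrib]
      exact Finset.sum_congr rfl fun l _ => P.potential_step (hπ l) j F x
    have h3 : 0 ≤ ∑ l ∈ Lo, ‖act (Rr (π l) (P.BU (insert j F))) (P.φ x)‖ ^ 2 :=
      Finset.sum_nonneg fun _ _ => by positivity
    have h4 : (F.card : ℝ) = N0 := by exact_mod_cast (by omega : F.card = N0)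
    rw [h4] at h1
    linarith
  | succ k ih =>
    intro F Fr y hk hd ho hinv
    by_cases hv : ∃ j ∈ Fr, j ≠ o ∧ ∃ x, (∀ i, i ∉ Fr → x i = y i) ∧
        τ < ∑ l ∈ Lo, P.loss (π l) j F x
    · obtain ⟨j, hjFr, hjo, x0, hx0, hlt⟩ := hv
      have hjF : j ∉ F := fun h => Finset.disjoint_left.mp hd h hjFr
      have hcard : (insert j F).card = F.card + 1 := Finset.card_insert_of_notMem hjF
      have hd' : Disjoint (insert j F) (Fr.erase j) := by
        rw [Finset.disjoint_left]
        intro a ha ha'
        rcases Finset.mem_insert.mp ha with rfl | haF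
        · exact (Finset.notMem_erase a Fr) ha'
        · exact Finset.disjoint_left.mp hd haF (Finset.mem_of_mem_erase ha')
      have hinv' : ∀ x, (∀ i, i ∉ Fr.erase j → x i = Function.update y j (x0 j) i) →
          ∑ l ∈ Lo, ‖act (Rr (π l) (P.BU (insert j F))) (P.φ x)‖ ^ 2
            ≤ w - (insert j F).card * τ := by
        intro x hx
        have hagree : ∀ i, i ∉ Fr.erase j → x i = x0 i := by
          intro i hi
          rw [hx i hi]
          by_cases hij : i = j
          · subst hij; simp
          · rw [Function.update_of_ne hij]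
            exact (hx0 i (fun h => hi (Finset.mem_erase.mpr ⟨hij, h⟩))).symm
        have h1 : ∀ l ∈ Lo, ‖act (Rr (π l) (P.BU (insert j F))) (P.φ x)‖ ^ 2
            = ‖act (Rr (π l) (P.BU F)) (P.φ x0)‖ ^ 2 - P.loss (π l) j F x0 := by
          intro l _
          rw [P.norm_invariant_Rr (insert j F) (Fr.erase j) hd' x x0 hagree]
          exact P.potential_step (hπ l) j F x0
        rw [Finset.sum_congr rfl h1, Finset.sum_sub_distrib, hcard]
        have h2 := hinv x0 hx0
        push_cast
        nlinarith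
      obtain ⟨F', y', h1, h2, h3, h4, h5, h6⟩ := ih (insert j F) (Fr.erase j)
        (Function.update y j (x0 j)) (by omega) hd' (Finset.mem_erase.mpr ⟨hjo.symm, ho⟩) hinv'
      have hjF' : j ∈ F' := h1 (Finset.mem_insert_self _ _)
      have hsd : Fr.erase j \ F' = Fr \ F' := by
        ext a
        simp only [Finset.mem_sdiff, Finset.mem_erase]
        constructor
        · rintro ⟨⟨_, ha⟩, hb⟩; exact ⟨ha, hb⟩
        · rintro ⟨ha, hb⟩
          exact ⟨⟨fun h => hb (h ▸ hjF'), ha⟩, hb⟩
      refine ⟨F', y', (Finset.subset_insert _ _).trans h1, h2, ?_, h4, ?_, ?_⟩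
      · intro a ha
        have := h3 ha
        simp only [Finset.mem_union, Finset.mem_insert, Finset.mem_erase] at this ⊢
        rcases this with (h | h) | h
        · exact Or.inr (h ▸ hjFr)
        · exact Or.inl h
        · exact Or.inr h.2
      · intro i hi
        rw [h5 i (fun h => hi (Finset.mem_of_mem_erase h))]
        have : i ≠ j := fun h => hi (h ▸ hjFr)
        exact Function.update_of_ne this _ _
      · rw [← hsd]
        exact h6
    · push Not at hv
      refine ⟨F, y, Finset.Subset.refl _, by omega, Finset.subset_union_left,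
        fun hF => Finset.disjoint_left.mp hd hF ho, fun _ _ => rfl, ?_⟩
      intro j hj hjo x hx
      have hxFr : ∀ i, i ∉ Fr → x i = y i :=
        fun i hi => hx i (fun h => hi (Finset.mem_sdiff.mp h).1)
      exact hv j (Finset.mem_sdiff.mp hj).1 hjo x hxFr

/-- **Selection.** -/
theorem select (π : G → Q → M2) (hπ : ∀ l q, IsStarProjection (π l q)) (supp : G → Finset Q)
    (hoff : ∀ l q, q ∉ supp l → π l q = 1) (Gs : Finset G) (w : ℝ)
    (hw : ∀ o, ((Gs.filter fun l => ¬ Disjoint (P.B o) (supp l)).card : ℝ) ≤ w)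
    (τ : ℝ) (hτ : 0 < τ) (N0 : ℕ) (hN0 : w ≤ N0 * τ) :
    ∀ (m : ℕ) (Fr : Finset I) (y : I → Bool) (Ls : Finset G), Ls ⊆ Gs → m * (1 + N0) ≤ Fr.card →
      ∃ (I' : Finset I) (y' : I → Bool) (J Fg : G → Finset I),
        I' ⊆ Fr ∧ I'.card = m ∧ (∀ i, i ∉ Fr → y' i = y i) ∧ (∀ l, J l ⊆ I') ∧
        (∀ l, Fg l ⊆ Fr \ I') ∧
        (∀ l ∈ Ls, ∀ i ∈ I', ∀ j ∈ I', i ∉ J l → j ∉ J l → ¬ Disjoint (P.B i) (supp l) →
          ¬ Disjoint (P.B j) (supp l) → i = j) ∧
        ∀ x, (∀ i, i ∉ I' → x i = y' i) →
          ∑ l ∈ Ls, ∑ j ∈ J l, P.loss (π l) j (Fg l) x ≤ (m : ℝ) ^ 2 * τ := by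
  intro m
  induction m with
  | zero =>
    intro Fr y Ls _ _
    refine ⟨∅, y, fun _ => ∅, fun _ => ∅, by simp, by simp, fun _ _ => rfl, by simp, by simp,
      by simp, ?_⟩
    intro x _
    simp
  | succ m ih =>
    intro Fr y Ls hLs hcard
    have hFrpos : 0 < Fr.card := by nlinarith [Nat.zero_le m, Nat.zero_le N0]
    obtain ⟨o, ho⟩ := Finset.card_pos.mp hFrpos
    set Lo := Ls.filter (fun l => ¬ Disjoint (P.B o) (supp l)) with hLo
    have hLow : (Lo.card : ℝ) ≤ w := by
      refine le_trans ?_ (hw o)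
      exact_mod_cast Finset.card_le_card (Finset.filter_subset_filter _ hLs)
    obtain ⟨F, y1, -, hFcard, hFsub, hoF, hy1, hstop⟩ := P.greedy π hπ w τ hτ N0 hN0 o Lo N0 ∅ Fr y
      (by simp) (by simp) ho (by
        intro x _
        have h1 : ∀ l ∈ Lo, ‖act (Rr (π l) (P.BU ∅)) (P.φ x)‖ ^ 2 = 1 := by
          intro l _
          rw [P.BU_empty, Rr_empty, act_one, P.φ_unit]
          norm_num
        rw [Finset.sum_congr rfl h1]
        simpa using hLow)
    have hFFr : F ⊆ Fr := by simpa using hFsub
    set Fr1 := Fr \ F with hFr1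
    set Fr' := Fr1.erase o with hFr'
    have hoFr1 : o ∈ Fr1 := Finset.mem_sdiff.mpr ⟨ho, hoF⟩
    have hFr'card : m * (1 + N0) ≤ Fr'.card := by
      have h1 : Fr'.card + 1 = Fr1.card := Finset.card_erase_add_one hoFr1
      have h2 : Fr1.card + F.card = Fr.card := Finset.card_sdiff_add_card_eq_card hFFr
      have h3 : (m + 1) * (1 + N0) = m * (1 + N0) + (1 + N0) := by ring
      omega
    obtain ⟨I'', y'', J'', Fg'', hI''sub, hI''card, hy'', hJ'', hFg'', hadj'', herr''⟩ :=
      ih Fr' y1 (Ls.filter fun l => ¬ ¬ Disjoint (P.B o) (supp l))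
        ((Finset.filter_subset _ _).trans hLs) hFr'card
    have hoI'' : o ∉ I'' := fun h => (Finset.mem_erase.mp (hI''sub h)).1 rfl
    have hI''1 : I'' ⊆ Fr1 := hI''sub.trans (Finset.erase_subset _ _)
    refine ⟨insert o I'', y'',
      fun l => if ¬ Disjoint (P.B o) (supp l) then
        I''.filter (fun i => ¬ Disjoint (P.B i) (supp l)) else J'' l,
      fun l => if ¬ Disjoint (P.B o) (supp l) then F else Fg'' l,
      ?_, ?_, ?_, ?_, ?_, ?_, ?_⟩
    · intro a ha
      rcases Finset.mem_insert.mp ha with rfl | h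
      · exact ho
      · exact (Finset.mem_sdiff.mp (hI''1 h)).1
    · rw [Finset.card_insert_of_notMem hoI'', hI''card]
    · intro i hi
      have h1 : i ∉ Fr' := fun h => hi (Finset.mem_sdiff.mp (Finset.mem_of_mem_erase h)).1
      rw [hy'' i h1]
      exact hy1 i hi
    · intro l
      by_cases hl : ¬ Disjoint (P.B o) (supp l)
      · simp only [hl, not_false_eq_true, if_true]
        exact (Finset.filter_subset _ _).trans (Finset.subset_insert _ _)
      · simp only [hl, if_false]
        exact (hJ'' l).trans (Finset.subset_insert _ _)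
    · intro l a ha
      by_cases hl : ¬ Disjoint (P.B o) (supp l)
      · simp only [hl, not_false_eq_true, if_true] at ha
        refine Finset.mem_sdiff.mpr ⟨hFFr ha, ?_⟩
        intro h
        rcases Finset.mem_insert.mp h with rfl | h'
        · exact hoF ha
        · exact (Finset.mem_sdiff.mp (hI''1 h')).2 ha
      · simp only [hl, if_false] at ha
        have h1 := hFg'' l ha
        have h2 := (Finset.mem_sdiff.mp h1).1
        have h3 := (Finset.mem_sdiff.mp h1).2
        have h4 := Finset.mem_erase.mp h2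
        refine Finset.mem_sdiff.mpr ⟨(Finset.mem_sdiff.mp h4.2).1, ?_⟩
        intro h
        rcases Finset.mem_insert.mp h with h' | h'
        · exact h4.1 h'
        · exact h3 h'
    · intro l hl i hi j hj hiJ hjJ hai haj
      by_cases hlo : ¬ Disjoint (P.B o) (supp l)
      · simp only [hlo, not_false_eq_true, if_true] at hiJ hjJ
        have hi' : i = o := by
          rcases Finset.mem_insert.mp hi with h | h
          · exact h
          · exact absurd (Finset.mem_filter.mpr ⟨h, hai⟩) hiJ
        have hj' : j = o := by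
          rcases Finset.mem_insert.mp hj with h | h
          · exact h
          · exact absurd (Finset.mem_filter.mpr ⟨h, haj⟩) hjJ
        rw [hi', hj']
      · simp only [hlo, if_false] at hiJ hjJ
        have hi' : i ∈ I'' := by
          rcases Finset.mem_insert.mp hi with h | h
          · exact absurd (h ▸ hai) hlo
          · exact h
        have hj' : j ∈ I'' := by
          rcases Finset.mem_insert.mp hj with h | h
          · exact absurd (h ▸ haj) hlo
          · exact h
        exact hadj'' l (Finset.mem_filter.mpr ⟨hl, by simpa using hlo⟩) i hi' j hj' hiJ hjJ hai haj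
    · intro x hx
      rw [← Finset.sum_filter_add_sum_filter_not Ls (fun l => ¬ Disjoint (P.B o) (supp l))]
      have hpart1 : ∑ l ∈ Ls.filter (fun l => ¬ Disjoint (P.B o) (supp l)),
          ∑ j ∈ (if ¬ Disjoint (P.B o) (supp l) then
              I''.filter (fun i => ¬ Disjoint (P.B i) (supp l)) else J'' l),
            P.loss (π l) j (if ¬ Disjoint (P.B o) (supp l) then F else Fg'' l) x
          ≤ (m : ℝ) * τ := by
        have hstep : ∀ l ∈ Lo, ∑ j ∈ (if ¬ Disjoint (P.B o) (supp l) then
              I''.filter (fun i => ¬ Disjoint (P.B i) (supp l)) else J'' l),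
            P.loss (π l) j (if ¬ Disjoint (P.B o) (supp l) then F else Fg'' l) x
            ≤ ∑ j ∈ I'', P.loss (π l) j F x := by
          intro l hl
          have hl' := (Finset.mem_filter.mp hl).2
          simp only [hl', not_false_eq_true, if_true]
          exact Finset.sum_le_sum_of_subset_of_nonneg (Finset.filter_subset _ _)
            fun j _ _ => P.loss_nonneg _ _ _ _
        refine (Finset.sum_le_sum hstep).trans ?_
        rw [Finset.sum_comm]
        have hbd : ∀ j ∈ I'', ∑ l ∈ Lo, P.loss (π l) j F x ≤ τ := by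
          intro j hj
          have hj1 := hI''sub hj
          have hjo : j ≠ o := (Finset.mem_erase.mp hj1).1
          refine hstop j (Finset.mem_of_mem_erase hj1) hjo x ?_
          intro i hi
          have h1 : i ∉ insert o I'' := by
            intro h
            rcases Finset.mem_insert.mp h with rfl | h'
            · exact hi hoFr1
            · exact hi (hI''1 h')
          rw [hx i h1]
          exact hy'' i (fun h => hi (Finset.mem_of_mem_erase h))
        refine (Finset.sum_le_sum hbd).trans ?_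
        simp [hI''card]
      have hpart2 : ∑ l ∈ Ls.filter (fun l => ¬ ¬ Disjoint (P.B o) (supp l)),
          ∑ j ∈ (if ¬ Disjoint (P.B o) (supp l) then
              I''.filter (fun i => ¬ Disjoint (P.B i) (supp l)) else J'' l),
            P.loss (π l) j (if ¬ Disjoint (P.B o) (supp l) then F else Fg'' l) x
          ≤ (m : ℝ) ^ 2 * τ := by
        set xo := Function.update x o (y'' o) with hxo
        have hxo' : ∀ i, i ∉ I'' → xo i = y'' i := by
          intro i hi
          by_cases hio : i = o
          · subst hio; simp [hxo]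
          · rw [hxo, Function.update_of_ne hio]
            exact hx i (fun h => by
              rcases Finset.mem_insert.mp h with h' | h'
              · exact hio h'
              · exact hi h')
        have h1 := herr'' xo hxo'
        refine le_trans (le_of_eq ?_) h1
        refine Finset.sum_congr rfl fun l hl => ?_
        have hl' : Disjoint (P.B o) (supp l) := by
          have := (Finset.mem_filter.mp hl).2
          simpa using this
        simp only [hl', not_true_eq_false, if_false]
        refine Finset.sum_congr rfl fun j _ => ?_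
        refine P.loss_invariant (hoff l) hl' j _ x xo ?_
        intro i hio
        rw [hxo, Function.update_of_ne hio]
      have hm : (m : ℝ) * τ + (m : ℝ) ^ 2 * τ ≤ ((m + 1 : ℕ) : ℝ) ^ 2 * τ := by
        push_cast
        nlinarith [Nat.cast_nonneg (α := ℝ) m]
      linarith

end FlipSys

end Vale.Agent.Lib.P368
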