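import Vale.Agent.Lib.P368.Main

/-! The structure theorem: a depth-three circuit computing parity needs a wide last gate at the
output and many wide first-layer gates on the inputs. -/

namespace Vale.Agent.Lib.P368

open Matrix Finset

set_option linter.unusedSectionVars false
set_option linter.unusedSimpArgs false
set_option linter.unusedVariables false

variable {n : ℕ} {A : Type} [Fintype A] [DecidableEq A]

/-- Theorem G for a narrow last gate, with cleaner numerical hypotheses. -/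
theorem no_advantage_narrow (C : Circuit3 (Fin n ⊕ A)) (q : Fin n ⊕ A) {ε : ℝ} (hε : 0 < ε)
    (t w m c : ℕ) (ht : 1 ≤ t) (hw : 1 ≤ w) (hm0 : 1 ≤ m)
    (hm : (1 / 2 : ℝ) ^ m < ε / 12)
    (ht2 : 8 * (n : ℝ) * (1 / 2 : ℝ) ^ t ≤ ε ^ 2)
    (hc : (1 : ℝ) ≤ c * (ε / (48 * m)) ^ 2)
    (hS : (Bset C.T3 q).card ≤ w)
    (hcount : 4 * t * (m * (1 + c * w)) ≤ n) :
    ¬ C.ComputesParity q ε := by
  intro h
  have hm0R : (0 : ℝ) < m := by exact_mod_cast hm0
  set τ : ℝ := (ε / (48 * m)) ^ 2 with hτ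
  have hτpos : 0 < τ := by positivity
  have hN0 : (w : ℝ) ≤ ((c * w : ℕ) : ℝ) * τ := by
    push_cast
    have hwpos : (0 : ℝ) ≤ w := Nat.cast_nonneg w
    nlinarith
  have hG := theoremG_narrow C q ε h t w m (c * w) ht hw τ hτpos hN0 hS hcount
  have hsq : Real.sqrt τ = ε / (48 * m) := by
    rw [hτ]
    exact Real.sqrt_sq (by positivity)
  rw [hsq] at hG
  have h4m : 4 * (m : ℝ) * (ε / (48 * m)) = ε / 12 := by
    field_simp
    norm_num
  rw [h4m] at hG
  set bigC := (C.T1.filter fun g => decide (2 * t ≤ (inpOf g).card)).length with hbigC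
  have hbig := big_count C t
  rw [← hbigC] at hbig
  have hbig2 : 4 * (bigC : ℝ) ≤ 2 * n := by
    have h1 : bigC * 2 ≤ bigC * (2 * t) := by
      apply Nat.mul_le_mul_left
      omega
    have h2 : bigC * 2 ≤ n := h1.trans hbig
    have h3 : (bigC : ℝ) * 2 ≤ n := by exact_mod_cast h2
    linarith
  have hpow : (0 : ℝ) < (1 / 2 : ℝ) ^ t := by positivity
  have hD : Real.sqrt (4 * (bigC : ℝ) * (1 / 2 : ℝ) ^ t) ≤ ε / 2 := by
    refine Real.sqrt_le_iff.mpr ⟨by positivity, ?_⟩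
    have h1 : 4 * (bigC : ℝ) * (1 / 2 : ℝ) ^ t ≤ 2 * n * (1 / 2 : ℝ) ^ t := by gcongr
    have h2 : (ε / 2) ^ 2 = ε ^ 2 / 4 := by ring
    rw [h2]
    nlinarith
  have hmm : 6 * (1 / 2 : ℝ) ^ m < ε / 2 := by linarith
  linarith

/-- For fixed advantage, the gate at the output in the last layer must have more than
`n / (K log n)` qubits. -/
theorem general_bound_narrow (ε : ℝ) (hε : 0 < ε) :
    ∃ K n0 : ℕ, ∀ n ≥ n0, ∀ (A : Type) [Fintype A] [DecidableEq A]
      (C : Circuit3 (Fin n ⊕ A)) (q : Fin n ⊕ A) (w : ℕ), 1 ≤ w →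
      K * w * Nat.log 2 n ≤ n → (Bset C.T3 q).card ≤ w →
      ¬ C.ComputesParity q ε := by
  obtain ⟨m0, hm0⟩ := exists_pow_lt_of_lt_one (show 0 < ε / 12 by positivity)
    (show (1 / 2 : ℝ) < 1 by norm_num)
  set m := m0 + 1 with hm
  have hm1 : (1 / 2 : ℝ) ^ m < ε / 12 := by
    refine lt_of_le_of_lt ?_ hm0
    exact pow_le_pow_of_le_one (by norm_num) (by norm_num) (by omega)
  have hmpos : (0 : ℝ) < m := by
    rw [hm]; positivity
  obtain ⟨c, hc⟩ := exists_nat_ge (1 / (ε / (48 * m)) ^ 2)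
  have hc1 : (1 : ℝ) ≤ c * (ε / (48 * m)) ^ 2 := by
    have hτ : (0 : ℝ) < (ε / (48 * m)) ^ 2 := by positivity
    rw [div_le_iff₀ hτ] at hc
    exact hc
  obtain ⟨t0, ht0⟩ := exists_pow_lt_of_lt_one (show 0 < ε ^ 2 / 8 by positivity)
    (show (1 / 2 : ℝ) < 1 by norm_num)
  refine ⟨16 * m * (1 + c) + 16, 2 ^ (t0 + 2), ?_⟩
  intro n hn A _ _ C q w hw hK1 hS
  have hn0 : n ≠ 0 := by
    have : 0 < 2 ^ (t0 + 2) := by positivity
    omega
  set L := Nat.log 2 n with hL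
  have hL1 : t0 + 2 ≤ L := Nat.le_log_of_pow_le (by norm_num) hn
  set t := L + 1 + t0 with ht
  have ht2L : t ≤ 2 * L := by omega
  have ht2 : 8 * (n : ℝ) * (1 / 2 : ℝ) ^ t ≤ ε ^ 2 := by
    have h1 : n < 2 ^ (L + 1) := Nat.lt_pow_succ_log_self (by norm_num) n
    have h2 : (n : ℝ) < 2 ^ (L + 1) := by exact_mod_cast h1
    have h3 : (n : ℝ) * (1 / 2 : ℝ) ^ (L + 1) ≤ 1 := by
      have h4 : (0 : ℝ) < (1 / 2 : ℝ) ^ (L + 1) := by positivity
      have h5 : (2 : ℝ) ^ (L + 1) * (1 / 2 : ℝ) ^ (L + 1) = 1 := by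
        rw [← mul_pow]; norm_num
      nlinarith
    have h6 : (1 / 2 : ℝ) ^ t = (1 / 2 : ℝ) ^ (L + 1) * (1 / 2 : ℝ) ^ t0 := by
      rw [ht, pow_add]
    rw [h6]
    have h7 : (0 : ℝ) < (1 / 2 : ℝ) ^ t0 := by positivity
    calc 8 * (n : ℝ) * ((1 / 2 : ℝ) ^ (L + 1) * (1 / 2 : ℝ) ^ t0)
        = 8 * ((n : ℝ) * (1 / 2 : ℝ) ^ (L + 1)) * (1 / 2 : ℝ) ^ t0 := by ring
      _ ≤ 8 * 1 * (1 / 2 : ℝ) ^ t0 := by gcongr
      _ ≤ ε ^ 2 := by linarith
  refine no_advantage_narrow C q hε t w m c (by omega) hw (by omega) hm1 ht2 hc1 hS ?_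
  have h1 : 1 + c * w ≤ (1 + c) * w := by nlinarith
  calc 4 * t * (m * (1 + c * w)) ≤ 4 * (2 * L) * (m * ((1 + c) * w)) := by gcongr
    _ = 8 * m * (1 + c) * w * L := by ring
    _ ≤ (16 * m * (1 + c) + 16) * w * L := by
      gcongr
      nlinarith
    _ ≤ n := hK1

/-- **Structure theorem.** -/
theorem structure_theorem (ε : ℝ) (hε : 0 < ε) :
    ∃ K n0 : ℕ, ∀ n ≥ n0, ∀ (A : Type) [Fintype A] [DecidableEq A]
      (C : Circuit3 (Fin n ⊕ A)) (q : Fin n ⊕ A), C.ComputesParity q ε →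
      ∀ w : ℕ, K * w * Nat.log 2 n ≤ n →
        (∃ g ∈ C.T3, q ∈ g.supp ∧ w < g.supp.card) ∧
        n < K * Nat.log 2 n *
          (C.T1.filter fun g => decide ((∃ i : Fin n, (Sum.inl i : Fin n ⊕ A) ∈ g.supp) ∧
            w < g.supp.card)).length := by
  obtain ⟨K1, n1, h1⟩ := general_bound ε hε
  obtain ⟨K2, n2, h2⟩ := general_bound_narrow ε hε
  obtain ⟨n3, h3⟩ := log_sq_le (K1 + K2 + 1)
  refine ⟨K1 + K2 + 1, max (max n1 n2) n3, ?_⟩
  intro n hn A _ _ C q hC w hw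
  have hn1 : n1 ≤ n := le_trans (le_trans (le_max_left _ _) (le_max_left _ _)) hn
  have hn2 : n2 ≤ n := le_trans (le_trans (le_max_right _ _) (le_max_left _ _)) hn
  have hn3 : n3 ≤ n := le_trans (le_max_right _ _) hn
  set L := Nat.log 2 n with hL
  -- a version for `w ≥ 1`
  have hw1 : (K1 + K2 + 1) * 1 * L ≤ n := by
    have h4 := h3 n hn3
    have h5 : L ≤ L ^ 2 := Nat.le_self_pow (by norm_num) L
    calc (K1 + K2 + 1) * 1 * L = (K1 + K2 + 1) * L := by ring
      _ ≤ (K1 + K2 + 1) * L ^ 2 := by gcongr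
      _ ≤ n := h4
  set w' := max w 1 with hw'
  have hw'1 : 1 ≤ w' := le_max_right _ _
  have hww' : w ≤ w' := le_max_left _ _
  have hKw' : (K1 + K2 + 1) * w' * L ≤ n := by
    rcases le_total w 1 with h | h
    · rw [hw', max_eq_right h]; exact hw1
    · rw [hw', max_eq_left h]; exact hw
  have hK2 : K2 * w' * L ≤ n := by
    refine le_trans ?_ hKw'
    gcongr
    omega
  have hK1 : K1 * w' * L ≤ n := by
    refine le_trans ?_ hKw'
    gcongr
    omega
  constructor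
  · -- the last gate at the output is wide
    by_contra hcon
    push Not at hcon
    refine h2 n hn2 A C q w' hw'1 hK2 ?_ hC
    have hTd := C.T3_disjoint
    by_cases hex : ∃ g ∈ C.T3, q ∈ g.supp
    · obtain ⟨g, hg, hqg⟩ := hex
      rw [Bset_of_mem hTd hg hqg]
      -- the gate has at most `w` qubits
      exact (hcon g hg hqg).trans hww'
    · rw [Bset_of_not hex]
      simpa using hw'1
  · -- many wide first-layer gates
    by_contra hcon
    push Not at hcon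
    refine h1 n hn1 A C q w' hw'1 hK1 ?_ hC
    have hcount : wideCount C w' ≤ (C.T1.filter fun g => decide
        ((∃ i : Fin n, (Sum.inl i : Fin n ⊕ A) ∈ g.supp) ∧ w < g.supp.card)).length := by
      unfold wideCount
      refine length_filter_mono _ _ _ fun g hg => ?_
      simp only [decide_eq_true_eq] at hg ⊢
      obtain ⟨⟨i, hi⟩, hlt⟩ := hg
      exact ⟨⟨i, (Finset.mem_filter.mp hi).2⟩, lt_of_le_of_lt hww' hlt⟩
    calc K1 * L * wideCount C w' ≤ (K1 + K2 + 1) * L * (C.T1.filter fun g => decide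
        ((∃ i : Fin n, (Sum.inl i : Fin n ⊕ A) ∈ g.supp) ∧ w < g.supp.card)).length := by
          gcongr
          omega
      _ ≤ n := hcon

end Vale.Agent.Lib.P368
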