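import Vale.Agent.Lib.P368.Defs

/-! Tensor-product algebra and the algebras of operators supported on a set of qubits. -/

namespace Vale.Agent.Lib.P368

open Finset Matrix

set_option linter.unusedSectionVars false
set_option linter.unusedSimpArgs false

variable {Q : Type} [Fintype Q] [DecidableEq Q]

lemma tp_apply (E : Q → M2) (s t : Q → Bool) : tp E s t = ∏ q, E q (s q) (t q) := rfl

lemma tp_mul (E F : Q → M2) : tp E * tp F = tp (fun q => E q * F q) := by
  ext s t
  simp only [tp, Matrix.mul_apply, Matrix.of_apply]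
  simp_rw [← Finset.prod_mul_distrib]
  rw [Finset.prod_univ_sum, Fintype.piFinset_univ]

lemma tp_one : tp (fun _ : Q => (1 : M2)) = 1 := by
  ext s t
  simp only [tp, Matrix.of_apply, Matrix.one_apply]
  by_cases h : s = t
  · subst h; simp
  · rw [if_neg h]
    obtain ⟨q, hq⟩ := Function.ne_iff.mp h
    exact Finset.prod_eq_zero (Finset.mem_univ q) (by simp [hq])

lemma tp_conjTranspose (E : Q → M2) : (tp E)ᴴ = tp (fun q => (E q)ᴴ) := by
  ext s t
  simp [tp, Matrix.conjTranspose_apply, map_prod]

lemma tp_star (E : Q → M2) : star (tp E) = tp (fun q => star (E q)) := tp_conjTranspose E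

/-- Linearity in one coordinate. -/
lemma tp_update_add (E : Q → M2) (q : Q) (A B : M2) :
    tp (Function.update E q (A + B)) = tp (Function.update E q A) + tp (Function.update E q B) := by
  ext s t
  simp only [tp, Matrix.of_apply, Matrix.add_apply]
  rw [← Finset.mul_prod_erase _ _ (Finset.mem_univ q), ← Finset.mul_prod_erase _ _ (Finset.mem_univ q),
    ← Finset.mul_prod_erase _ _ (Finset.mem_univ q)]
  have h : ∀ C : M2, ∏ p ∈ univ.erase q, Function.update E q C p (s p) (t p)
      = ∏ p ∈ univ.erase q, E p (s p) (t p) := by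
    intro C
    refine Finset.prod_congr rfl fun p hp => ?_
    rw [Function.update_of_ne (Finset.ne_of_mem_erase hp)]
  rw [h, h, h]
  simp [add_mul]

lemma tp_update_smul (E : Q → M2) (q : Q) (c : ℂ) (A : M2) :
    tp (Function.update E q (c • A)) = c • tp (Function.update E q A) := by
  ext s t
  simp only [tp, Matrix.of_apply, Matrix.smul_apply]
  rw [← Finset.mul_prod_erase _ _ (Finset.mem_univ q), ← Finset.mul_prod_erase _ _ (Finset.mem_univ q)]
  have h : ∀ C : M2, ∏ p ∈ univ.erase q, Function.update E q C p (s p) (t p)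
      = ∏ p ∈ univ.erase q, E p (s p) (t p) := by
    intro C
    refine Finset.prod_congr rfl fun p hp => ?_
    rw [Function.update_of_ne (Finset.ne_of_mem_erase hp)]
  rw [h, h]
  simp [mul_assoc]

lemma tp_update_sub (E : Q → M2) (q : Q) (A B : M2) :
    tp (Function.update E q (A - B)) = tp (Function.update E q A) - tp (Function.update E q B) := by
  have h : A - B = A + (-1 : ℂ) • B := by simp [sub_eq_add_neg]
  rw [h, tp_update_add, tp_update_smul]
  simp [sub_eq_add_neg]

/-! ### Operators supported on a set of qubits -/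

/-- The generators of the algebra of operators supported on `S`. -/
def gens (S : Finset Q) : Set (Op Q) :=
  {A | ∃ E : Q → M2, (∀ q, q ∉ S → E q = 1) ∧ A = tp E}

/-- The algebra of operators supported on `S`. -/
noncomputable def Alg (S : Finset Q) : Subalgebra ℂ (Op Q) := Algebra.adjoin ℂ (gens S)

lemma tp_mem_Alg {S : Finset Q} {E : Q → M2} (h : ∀ q, q ∉ S → E q = 1) : tp E ∈ Alg S :=
  Algebra.subset_adjoin ⟨E, h, rfl⟩

lemma Alg_mono {S S' : Finset Q} (h : S ⊆ S') : Alg S ≤ Alg S' := by
  refine Algebra.adjoin_mono ?_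
  rintro A ⟨E, hE, rfl⟩
  exact ⟨E, fun q hq => hE q (fun hq' => hq (h hq')), rfl⟩

lemma Alg_mem_mono {S S' : Finset Q} (h : S ⊆ S') {A : Op Q} (hA : A ∈ Alg S) : A ∈ Alg S' :=
  Alg_mono h hA

lemma gens_commute {S S' : Finset Q} (h : Disjoint S S') {A B : Op Q} (hA : A ∈ gens S)
    (hB : B ∈ gens S') : Commute A B := by
  obtain ⟨E, hE, rfl⟩ := hA
  obtain ⟨F, hF, rfl⟩ := hB
  show tp E * tp F = tp F * tp E
  rw [tp_mul, tp_mul]
  congr 1
  funext q
  by_cases hq : q ∈ S
  · have : q ∉ S' := Finset.disjoint_left.mp h hq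
    simp [hF q this]
  · simp [hE q hq]

theorem Alg_commute {S S' : Finset Q} (h : Disjoint S S') {A B : Op Q} (hA : A ∈ Alg S)
    (hB : B ∈ Alg S') : Commute A B := by
  have h1 : ∀ A ∈ gens S, Commute A B := by
    intro A' hA'
    induction hB using Algebra.adjoin_induction with
    | mem x hx => exact gens_commute h hA' hx
    | algebraMap r => exact Algebra.commute_algebraMap_right r A'
    | add x y _ _ hx hy => exact hx.add_right hy
    | mul x y _ _ hx hy => exact hx.mul_right hy
  induction hA using Algebra.adjoin_induction with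
  | mem x hx => exact h1 x hx
  | algebraMap r => exact Algebra.commute_algebraMap_left r B
  | add x y _ _ hx hy => exact hx.add_left hy
  | mul x y _ _ hx hy => exact hx.mul_left hy

/-- Conjugating by a tensor-product unitary preserves the support. -/
theorem Alg_conj {S : Finset Q} (U U' : Q → M2) (h : ∀ q, U q * U' q = 1) (h' : ∀ q, U' q * U q = 1)
    {A : Op Q} (hA : A ∈ Alg S) : tp U * A * tp U' ∈ Alg S := by
  have hUU' : tp U * tp U' = 1 := by rw [tp_mul]; simp only [h]; exact tp_one
  have hU'U : tp U' * tp U = 1 := by rw [tp_mul]; simp only [h']; exact tp_one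
  induction hA using Algebra.adjoin_induction with
  | mem x hx =>
    obtain ⟨E, hE, rfl⟩ := hx
    rw [tp_mul, tp_mul]
    refine tp_mem_Alg fun q hq => ?_
    simp [hE q hq, h q]
  | algebraMap r =>
    have : tp U * (algebraMap ℂ (Op Q) r) * tp U' = algebraMap ℂ (Op Q) r := by
      rw [Algebra.algebraMap_eq_smul_one]
      simp [hUU']
    rw [this]
    exact Subalgebra.algebraMap_mem _ r
  | add x y _ _ hx hy =>
    rw [mul_add, add_mul]
    exact add_mem hx hy
  | mul x y _ _ hx hy =>
    have : tp U * (x * y) * tp U' = (tp U * x * tp U') * (tp U * y * tp U') := by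
      calc tp U * (x * y) * tp U' = tp U * x * 1 * y * tp U' := by simp [mul_assoc]
        _ = tp U * x * (tp U' * tp U) * y * tp U' := by rw [hU'U]
        _ = _ := by simp only [mul_assoc]
    rw [this]
    exact mul_mem hx hy

/-- Splitting a tensor product by a subset of the qubits. -/
lemma tp_split (E : Q → M2) (U : Finset Q) :
    tp E = tp (fun q => if q ∈ U then E q else 1) * tp (fun q => if q ∈ U then 1 else E q) := by
  rw [tp_mul]
  congr 1
  funext q
  by_cases hq : q ∈ U <;> simp [hq]

end Vale.Agent.Lib.P368
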