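import Vale.Agent.Lib.P368.FirstLayer

/-! The general bound for circuits of entangling depth three. -/

namespace Vale.Agent.Lib.P368

open Matrix Finset
open scoped Matrix.Norms.L2Operator InnerProductSpace

set_option linter.unusedSectionVars false
set_option linter.unusedSimpArgs false
set_option linter.unusedVariables false

variable {n : ℕ} {A : Type} [Fintype A] [DecidableEq A]

/-- The input bits read by a gate. -/
def inpOf (g : Toffoli (Fin n ⊕ A)) : Finset (Fin n) :=
  Finset.univ.filter fun i => (Sum.inl i : Fin n ⊕ A) ∈ g.supp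

/-- Extending a string on the pool by fixed values. -/
def glue (P : Finset (Fin n)) (y0 : Fin n → Bool) (z : {i // i ∈ P} → Bool) : Fin n → Bool :=
  fun i => if h : i ∈ P then z ⟨i, h⟩ else y0 i

lemma glue_flip (P : Finset (Fin n)) (y0 : Fin n → Bool) (z : {i // i ∈ P} → Bool)
    (i : {i // i ∈ P}) : glue P y0 (flip i z) = flip i.1 (glue P y0 z) := by
  funext j
  unfold glue flip
  by_cases hj : j ∈ P
  · simp only [hj, dif_pos]
    by_cases hji : j = i.1
    · subst hji
      simp [hj]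
    · have : (⟨j, hj⟩ : {i // i ∈ P}) ≠ i := fun h => hji (by rw [← h])
      rw [Function.update_of_ne this, Function.update_of_ne hji]
      simp [hj]
  · have hji : j ≠ i.1 := fun h => hj (h ▸ i.2)
    rw [Function.update_of_ne hji]
    simp [hj]

lemma inputString_flip (i : Fin n) (x : Fin n → Bool) :
    (inputString (flip i x) : Fin n ⊕ A → Bool) = flip (Sum.inl i) (inputString x) := by
  funext j
  cases j with
  | inl j =>
    unfold flip inputString
    by_cases hj : j = i
    · subst hj; simp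
    · have : (Sum.inl j : Fin n ⊕ A) ≠ Sum.inl i := fun h => hj (Sum.inl_injective h)
      rw [Function.update_of_ne this]
      simp [Function.update_of_ne hj]
  | inr a =>
    unfold flip inputString
    have : (Sum.inr a : Fin n ⊕ A) ≠ Sum.inl i := by simp
    rw [Function.update_of_ne this]
    simp

lemma exists_y0 (C : Circuit3 (Fin n ⊕ A)) :
    ∃ y0 : Fin n → Bool, ∀ g ∈ C.T1, ∀ i, (Sum.inl i : Fin n ⊕ A) ∈ g.supp →
      ∑ a, ‖(g.pi (Sum.inl i) * C.L0 (Sum.inl i)) a (y0 i)‖ ^ 2 ≤ 1 / 2 := by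
  have h : ∀ i : Fin n, ∃ b : Bool, ∀ g ∈ C.T1, (Sum.inl i : Fin n ⊕ A) ∈ g.supp →
      ∑ a, ‖(g.pi (Sum.inl i) * C.L0 (Sum.inl i)) a b‖ ^ 2 ≤ 1 / 2 := by
    intro i
    by_cases hex : ∃ g ∈ C.T1, (Sum.inl i : Fin n ⊕ A) ∈ g.supp
    · obtain ⟨g, hg, hq⟩ := hex
      obtain ⟨b, hb⟩ := exists_good_bit g hq (C.L0_unitary (Sum.inl i))
      refine ⟨b, fun g' hg' hq' => ?_⟩
      have : Std.Symm (fun g h : Toffoli (Fin n ⊕ A) => Disjoint g.supp h.supp) :=
        ⟨fun a b h => h.symm⟩
      by_cases hne : g = g'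
      · rw [← hne]; exact hb
      · exact absurd hq' (Finset.disjoint_left.mp (C.T1_disjoint.forall hg hg' hne) hq)
    · refine ⟨false, fun g hg hq => absurd ⟨g, hg, hq⟩ hex⟩
  choose y0 hy0 using h
  exact ⟨y0, fun g hg i hq => hy0 i g hg hq⟩

lemma nodup_of_disjoint {Q : Type} [DecidableEq Q] {T : List (Toffoli Q)}
    (hd : T.Pairwise fun g h => Disjoint g.supp h.supp) : T.Nodup := by
  refine hd.imp ?_
  intro a b hab heq
  subst heq
  exact Finset.disjoint_left.mp hab (Finset.mem_insert_self _ _) (Finset.mem_insert_self _ _)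

/-- **Theorem G**, general form: `sz` is the width used for the pool, `gs` is the sublist of the
second gate layer that is kept, and `hadj` bounds the number of kept gates adjacent to a flip. -/
theorem theoremG_gen (C : Circuit3 (Fin n ⊕ A)) (q : Fin n ⊕ A) (ε : ℝ) (h : C.ComputesParity q ε)
    (t w m N0 : ℕ) (ht : 1 ≤ t) (hw : 1 ≤ w) (τ : ℝ) (hτ : 0 < τ) (hN0 : (w : ℝ) ≤ N0 * τ)
    (W0 : ℕ) (sz : Toffoli (Fin n ⊕ A) → ℕ)
    (hW0 : (C.T1.filter fun g =>
      decide ((inpOf g).card < 2 * t ∧ w < sz g ∧ (inpOf g).Nonempty)).length ≤ W0)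
    (hcount : 4 * t * (m * (1 + N0) + W0) ≤ n)
    (gs : List (Toffoli (Fin n ⊕ A)))
    (hgsd : gs.Pairwise fun g h => Disjoint g.supp h.supp)
    (hev : ∀ u : Vec (Fin n ⊕ A → Bool), ev (C.obs q) (act (gateLayer C.T2) u)
      = ev (C.obs q) (act (gateLayer gs) u))
    (hadj : ∀ (P : Finset (Fin n)),
      (∀ i ∈ P, ∀ g ∈ C.T1, i ∈ inpOf g → 2 * t ≤ (inpOf g).card ∨ sz g ≤ w) →
      ∀ i ∈ P, ∀ Tk : List (Toffoli (Fin n ⊕ A)),
        (∀ g ∈ Tk, g ∈ C.T1 ∧ (inpOf g).card < 2 * t) →
        (Tk.Pairwise fun g h => Disjoint g.supp h.supp) →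
        ∀ [DecidableEq (Toffoli (Fin n ⊕ A))],
        ((gs.toFinset.filter fun l => ¬ Disjoint (Bset Tk (Sum.inl i)) l.supp).card : ℝ) ≤ w) :
    2 * ε - 2 * Real.sqrt (4 * (C.T1.filter fun g => decide (2 * t ≤ (inpOf g).card)).length
        * (1 / 2 : ℝ) ^ t) - 4 * m * Real.sqrt τ ≤ 6 * (1 / 2 : ℝ) ^ m := by
  classical
  have hT1nd := nodup_of_disjoint C.T1_disjoint
  have hT2nd := nodup_of_disjoint hgsd
  have : Std.Symm (fun g h : Toffoli (Fin n ⊕ A) => Disjoint g.supp h.supp) :=
    ⟨fun a b h => h.symm⟩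
  have hT1d : ∀ a ∈ C.T1, ∀ b ∈ C.T1, a ≠ b → Disjoint a.supp b.supp :=
    fun a ha b hb hab => C.T1_disjoint.forall ha hb hab
  -- the pool
  obtain ⟨P, hP1, hP2, hP3, hP4⟩ := pool_exists C.T1.toFinset inpOf (by
      intro g hg g' hg' hne
      rw [Finset.disjoint_left]
      intro i hi hi'
      have h1 := (Finset.mem_filter.mp hi).2
      have h2 := (Finset.mem_filter.mp hi').2
      exact Finset.disjoint_left.mp (hT1d g (List.mem_toFinset.mp hg) g' (List.mem_toFinset.mp hg')
        hne) h1 h2) sz t w ht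
  obtain ⟨y0, hy0⟩ := exists_y0 C
  -- the size of the pool
  have hcardP : m * (1 + N0) ≤ P.card := by
    have h1 : (C.T1.toFinset.filter fun g =>
        (inpOf g).card < 2 * t ∧ w < sz g ∧ (inpOf g).Nonempty).card ≤ W0 := by
      refine le_trans (le_of_eq ?_) hW0
      rw [← List.toFinset_card_of_nodup (hT1nd.filter _), List.toFinset_filter]
      congr 1
      ext g
      simp
    have h2 : Fintype.card (Fin n) = n := Fintype.card_fin n
    rw [h2] at hP1
    have h3 : 4 * t * (m * (1 + N0)) + 4 * t * W0 ≤ 4 * t * P.card + 2 * t * W0 := by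
      calc 4 * t * (m * (1 + N0)) + 4 * t * W0 = 4 * t * (m * (1 + N0) + W0) := by ring
        _ ≤ n := hcount
        _ ≤ _ := hP1
        _ ≤ _ := by gcongr
    have h4 : 4 * t * (m * (1 + N0)) ≤ 4 * t * P.card := by nlinarith
    exact Nat.le_of_mul_le_mul_left h4 (by omega)
  -- the kept gates
  set bg : Toffoli (Fin n ⊕ A) → Bool := fun g => decide (2 * t ≤ (inpOf g).card) with hbg
  set Tk := C.T1.filter fun g => !bg g with hTk
  have hTkd : Tk.Pairwise fun g h => Disjoint g.supp h.supp := C.T1_disjoint.filter _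
  have hTkmem : ∀ g ∈ Tk, g ∈ C.T1 ∧ (inpOf g).card < 2 * t := by
    intro g hg
    obtain ⟨h1, h2⟩ := List.mem_filter.mp hg
    refine ⟨h1, ?_⟩
    simpa [hbg] using h2
  -- the supports of the flips
  have hinp : ∀ (i : Fin n) (g : Toffoli (Fin n ⊕ A)), (Sum.inl i : Fin n ⊕ A) ∈ g.supp →
      i ∈ inpOf g := fun i g hi => Finset.mem_filter.mpr ⟨Finset.mem_univ _, hi⟩
  have hBd : ∀ i j : {i // i ∈ P}, i ≠ j →
      Disjoint (Bset Tk (Sum.inl i.1)) (Bset Tk (Sum.inl j.1)) := by
    intro i j hij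
    have hij' : i.1 ≠ j.1 := fun h => hij (Subtype.ext h)
    by_cases h1 : ∃ g ∈ Tk, (Sum.inl i.1 : Fin n ⊕ A) ∈ g.supp
    · obtain ⟨g, hg, hig⟩ := h1
      rw [Bset_of_mem hTkd hg hig]
      by_cases h2 : ∃ g ∈ Tk, (Sum.inl j.1 : Fin n ⊕ A) ∈ g.supp
      · obtain ⟨g', hg', hjg⟩ := h2
        rw [Bset_of_mem hTkd hg' hjg]
        by_cases hgg : g = g'
        · subst hgg
          exact absurd (hP3 g (List.mem_toFinset.mpr (hTkmem g hg).1) (hTkmem g hg).2 i.1 i.2 j.1 j.2
            (hinp _ _ hig) (hinp _ _ hjg)) hij'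
        · exact hTkd.forall hg hg' hgg
      · rw [Bset_of_not h2]
        rw [Finset.disjoint_singleton_right]
        exact fun hj => h2 ⟨g, hg, hj⟩
    · rw [Bset_of_not h1]
      by_cases h2 : ∃ g ∈ Tk, (Sum.inl j.1 : Fin n ⊕ A) ∈ g.supp
      · obtain ⟨g', hg', hjg⟩ := h2
        rw [Bset_of_mem hTkd hg' hjg]
        rw [Finset.disjoint_singleton_left]
        exact fun hi => h1 ⟨g', hg', hi⟩
      · rw [Bset_of_not h2]
        rw [Finset.disjoint_singleton_left, Finset.mem_singleton]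
        exact fun hE => hij' (Sum.inl_injective hE)
  -- the family of states with flips
  let S : FlipSys (Fin n ⊕ A) {i // i ∈ P} :=
    { φ := fun z => act (headOf C.L1 C.L0 Tk) (e (inputString (glue P y0 z)))
      W := fun i => flipOp C.L1 C.L0 Tk (Sum.inl i.1)
      B := fun i => Bset Tk (Sum.inl i.1)
      φ_unit := fun z => by
        rw [norm_act_of_star_mul _ (headOf_unitary C.L1_unitary C.L0_unitary hTkd).1, norm_e]
      W_star := fun i => flipOp_star _
      W_sq := fun i => flipOp_sq C.L1_unitary C.L0_unitary hTkd _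
      W_mem := fun i => flipOp_mem C.L1_unitary C.L0_unitary hTkd _
      B_disj := hBd
      flip_eq := fun i z => by
        rw [flipOp_act C.L1_unitary C.L0_unitary hTkd, glue_flip, inputString_flip] }
  -- the error of removing the gates with many inputs
  set bigC : ℕ := (C.T1.filter bg).length with hbigC
  set D : ℝ := Real.sqrt (4 * bigC * (1 / 2 : ℝ) ^ t) with hD
  have hrem : ∀ z : {i // i ∈ P} → Bool,
      ‖act C.head (e (inputString (glue P y0 z))) - S.φ z‖ ≤ D := by
    intro z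
    set x := glue P y0 z with hx
    set u0 := act (tp C.L0) (e (inputString x) : Vec (Fin n ⊕ A → Bool)) with hu0
    have h1 : act C.head (e (inputString x)) = act (tp C.L1) (act (gateLayer C.T1) u0) := by
      simp only [Circuit3.head, act_mul, hu0]
    have h2 : S.φ z = act (tp C.L1) (act (gateLayer Tk) u0) := by
      simp only [S, headOf, act_mul, hu0, hx]
    rw [h1, h2, ← act_vsub, norm_act_of_star_mul _ (tp_unitary C.L1_unitary).1]
    have h3 := removal C.T1 C.T1_disjoint bg u0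
    have h4 : ∀ g ∈ C.T1.filter bg, ‖act (tp g.pi) u0‖ ^ 2 ≤ (1 / 2 : ℝ) ^ t := by
      intro g hg
      obtain ⟨hg1, hg2⟩ := List.mem_filter.mp hg
      have hg3 : 2 * t ≤ (inpOf g).card := by simpa [hbg] using hg2
      have h5 := big_bound (S := (inpOf g \ P).image Sum.inl) g.pi_proj C.L0_unitary
        (inputString x) (by
          intro q hq
          obtain ⟨i, hi, rfl⟩ := Finset.mem_image.mp hq
          have hi1 := (Finset.mem_sdiff.mp hi).1
          have hi2 := (Finset.mem_sdiff.mp hi).2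
          have hi3 : (Sum.inl i : Fin n ⊕ A) ∈ g.supp := (Finset.mem_filter.mp hi1).2
          have hxi : inputString x (Sum.inl i : Fin n ⊕ A) = y0 i := by
            simp [inputString, hx, glue, hi2]
          rw [hxi]
          exact hy0 g hg1 i hi3)
      refine h5.trans ?_
      rw [Finset.card_image_of_injective _ Sum.inl_injective]
      exact pow_le_pow_of_le_one (by norm_num) (by norm_num)
        (hP4 g (List.mem_toFinset.mpr hg1) hg3)
    have h6 : ((C.T1.filter bg).map fun g => ‖act (tp g.pi) u0‖ ^ 2).sum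
        ≤ bigC * (1 / 2 : ℝ) ^ t := by
      have h7 := List.sum_le_card_nsmul ((C.T1.filter bg).map fun g => ‖act (tp g.pi) u0‖ ^ 2)
        ((1 / 2 : ℝ) ^ t) (by
          intro y hy
          obtain ⟨g, hg, rfl⟩ := List.mem_map.mp hy
          exact h4 g hg)
      simpa [hbigC] using h7
    refine Real.le_sqrt_of_sq_le ?_
    calc _ ≤ 4 * ((C.T1.filter bg).map fun g => ‖act (tp g.pi) u0‖ ^ 2).sum := h3
      _ ≤ 4 * (bigC * (1 / 2 : ℝ) ^ t) := by gcongr
      _ = _ := by ring
  -- the signed inequality for the family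
  have hT2iso : star (gateLayer gs) * gateLayer gs = 1 := by
    rw [(layer_invol hgsd).1, (layer_invol hgsd).2]
  have hκ : ∀ z, 2 * ε - 2 * D ≤ sgnOf (parityOf (glue P y0 z)) *
      ev (C.obs q) (act (gateLayer gs) (S.φ z)) := by
    intro z
    have h1 := C.signed_of_computes h (glue P y0 z)
    rw [hev] at h1
    have hu : ‖act (gateLayer gs) (act C.head (e (inputString (glue P y0 z))))‖ = 1 := by
      rw [norm_act_of_star_mul _ hT2iso, norm_act_of_star_mul _ C.head_unitary, norm_e]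
    have hv : ‖act (gateLayer gs) (S.φ z)‖ = 1 := by
      rw [norm_act_of_star_mul _ hT2iso, S.φ_unit]
    have h2 := abs_ev_sub_le (C.obs_star q) (C.obs_norm q) hu hv
    rw [← act_vsub, norm_act_of_star_mul _ hT2iso] at h2
    have h3 := hrem z
    set v1 := act (gateLayer gs) (act C.head (e (inputString (glue P y0 z))))
    set v2 := act (gateLayer gs) (S.φ z)
    set sg := sgnOf (parityOf (glue P y0 z))
    have h4 : sg * (ev (C.obs q) v1 - ev (C.obs q) v2) ≤ |sg * (ev (C.obs q) v1 - ev (C.obs q) v2)| :=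
      le_abs_self _
    rw [abs_mul, abs_sgnOf, one_mul] at h4
    have h5 : sg * ev (C.obs q) v1 = sg * ev (C.obs q) v2 + sg * (ev (C.obs q) v1 - ev (C.obs q) v2) := by
      ring
    linarith
  -- apply the core theorem
  obtain ⟨E1, E2, E3, E4, E5, E6, hE1, hE2, hE3, hE4, hE5, hE6, hN⟩ := C.obs_six q
  have hcore := S.core Toffoli.pi (fun l p => l.pi_proj p) Toffoli.supp (fun l p hp => l.pi_off p hp)
    gs hT2nd hgsd (w : ℝ) τ hτ N0 hN0
    (fun o => hadj P (fun i hi g hg hig => hP2 i hi g (List.mem_toFinset.mpr hg) hig) o.1 o.2 Tk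
      hTkmem hTkd)
    m (by simpa using hcardP) (C.obs q) (C.obs_star q) (C.obs_norm q)
    E1 E2 E3 E4 E5 E6 hE1 hE2 hE3 hE4 hE5 hE6 hN
    (fun z => sgnOf (parityOf (glue P y0 z)))
    (by
      intro i z
      rw [glue_flip, parityOf_flip, sgnOf_not])
    (fun z => abs_sgnOf _)
    (2 * ε - 2 * D)
    (by
      intro z
      rw [← gateLayer_eq]
      exact hκ z)
  exact hcore

/-- **Theorem G.** -/
theorem theoremG (C : Circuit3 (Fin n ⊕ A)) (q : Fin n ⊕ A) (ε : ℝ) (h : C.ComputesParity q ε)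
    (t w m N0 : ℕ) (ht : 1 ≤ t) (hw : 1 ≤ w) (τ : ℝ) (hτ : 0 < τ) (hN0 : (w : ℝ) ≤ N0 * τ)
    (W0 : ℕ)
    (hW0 : (C.T1.filter fun g =>
      decide ((inpOf g).card < 2 * t ∧ w < g.supp.card ∧ (inpOf g).Nonempty)).length ≤ W0)
    (hcount : 4 * t * (m * (1 + N0) + W0) ≤ n) :
    2 * ε - 2 * Real.sqrt (4 * (C.T1.filter fun g => decide (2 * t ≤ (inpOf g).card)).length
        * (1 / 2 : ℝ) ^ t) - 4 * m * Real.sqrt τ ≤ 6 * (1 / 2 : ℝ) ^ m := by
  refine theoremG_gen C q ε h t w m N0 ht hw τ hτ hN0 W0 (fun g => g.supp.card) hW0 hcount C.T2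
    C.T2_disjoint (fun _ => rfl) ?_
  intro P hP i hi Tk hTk hTkd _
  have hBw : (Bset Tk (Sum.inl i)).card ≤ w := by
    by_cases h1 : ∃ g ∈ Tk, (Sum.inl i : Fin n ⊕ A) ∈ g.supp
    · obtain ⟨g, hg, hig⟩ := h1
      rw [Bset_of_mem hTkd hg hig]
      obtain ⟨h2, h3⟩ := hTk g hg
      rcases hP i hi g h2 (Finset.mem_filter.mpr ⟨Finset.mem_univ _, hig⟩) with h4 | h4
      · omega
      · exact h4
    · rw [Bset_of_not h1]
      simpa using hw
  have : Std.Symm (fun g h : Toffoli (Fin n ⊕ A) => Disjoint g.supp h.supp) :=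
    ⟨fun a b h => h.symm⟩
  have h1 := adj_card_le C.T2.toFinset Toffoli.supp (Bset Tk (Sum.inl i)) (fun a ha b hb hab =>
    C.T2_disjoint.forall (List.mem_toFinset.mp ha) (List.mem_toFinset.mp hb) hab)
  exact_mod_cast h1.trans hBw

/-- The support of the observable. -/
lemma Circuit3.obs_mem {Q : Type} [Fintype Q] [DecidableEq Q] (C : Circuit3 Q) (q : Q) :
    C.obs q ∈ Alg (Bset C.T3 q) := by
  have hZ : Zq q ∈ Alg {q} := by
    refine tp_mem_Alg fun p hp => ?_
    have : p ≠ q := by simpa using hp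
    rw [Function.update_of_ne this]
  have hL : ∀ (U : Q → M2), (∀ q, U q ∈ Matrix.unitaryGroup Bool ℂ) → ∀ {S : Finset Q} {A : Op Q},
      A ∈ Alg S → star (tp U) * A * tp U ∈ Alg S := by
    intro U hU S A hA
    rw [tp_star]
    exact Alg_conj (fun q => star (U q)) U (fun q => Matrix.mem_unitaryGroup_iff'.mp (hU q))
      (fun q => Matrix.mem_unitaryGroup_iff.mp (hU q)) hA
  have h2 := hL C.L3 C.L3_unitary hZ
  have h3 := conj_mem_Bset C.T3_disjoint q h2
  have h4 := hL C.L2 C.L2_unitary h3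
  obtain ⟨c1, _⟩ := layer_invol C.T3_disjoint
  have h5 : C.obs q = star (tp C.L2) * (gateLayer C.T3 * (star (tp C.L3) * Zq q * tp C.L3)
      * gateLayer C.T3) * tp C.L2 := by
    unfold Circuit3.obs Circuit3.tail
    simp only [star_mul, c1, mul_assoc]
  rw [h5]
  exact h4

/-- Gates of the second layer disjoint from the support of the observable cancel. -/
lemma Circuit3.ev_filter {Q : Type} [Fintype Q] [DecidableEq Q] (C : Circuit3 Q) (q : Q)
    (u : Vec (Q → Bool)) :
    ev (C.obs q) (act (gateLayer C.T2) u)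
      = ev (C.obs q) (act (gateLayer
          (C.T2.filter fun l => decide (¬ Disjoint (Bset C.T3 q) l.supp))) u) := by
  set pr : Toffoli Q → Bool := fun l => decide (¬ Disjoint (Bset C.T3 q) l.supp) with hpr
  have hsplit : gateLayer C.T2 = gateLayer (C.T2.filter pr)
      * gateLayer (C.T2.filter fun l => !pr l) := by
    simp only [gateLayer_eq]
    exact lprod_filter _ _ (layer_pairwise C.T2_disjoint) pr
  have hd1 : (C.T2.filter pr).Pairwise fun g h => Disjoint g.supp h.supp := C.T2_disjoint.filter _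
  have hd2 : (C.T2.filter fun l => !pr l).Pairwise fun g h => Disjoint g.supp h.supp :=
    C.T2_disjoint.filter _
  have hcomm : Commute (gateLayer (C.T2.filter fun l => !pr l)) (C.obs q) := by
    rw [gateLayer_eq]
    refine (lprod_commute _ _ _ fun l hl => ?_).symm
    have hl2 := (List.mem_filter.mp hl).2
    have hdisj : Disjoint (Bset C.T3 q) l.supp := by simpa [hpr] using hl2
    exact Alg_commute hdisj (C.obs_mem q) l.mat_mem
  have hcomm2 : Commute (gateLayer (C.T2.filter pr)) (gateLayer (C.T2.filter fun l => !pr l)) := by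
    have h3 := layer_pairwise C.T2_disjoint
    rw [gateLayer_eq, gateLayer_eq]
    refine lprod_commute _ _ _ fun b hb => ?_
    have hb1 := List.mem_filter.mp hb
    refine (lprod_commute _ _ _ fun a ha => ?_).symm
    have ha1 := List.mem_filter.mp ha
    have hne : a ≠ b := by
      rintro rfl
      have h5 := ha1.2
      have h6 := hb1.2
      simp_all
    have : Std.Symm (fun g h : Toffoli Q => Disjoint g.supp h.supp) := ⟨fun a b h => h.symm⟩
    exact (Alg_commute (C.T2_disjoint.forall ha1.1 hb1.1 hne) a.mat_mem b.mat_mem).symm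
  have h1 := (layer_invol C.T2_disjoint).1
  have h2 := (layer_invol hd1).1
  have h4 := (layer_invol hd2).2
  have key : gateLayer C.T2 * C.obs q * gateLayer C.T2
      = gateLayer (C.T2.filter pr) * C.obs q * gateLayer (C.T2.filter pr) := by
    rw [hsplit]
    set Ts := gateLayer (C.T2.filter pr)
    set Tr := gateLayer (C.T2.filter fun l => !pr l)
    calc Ts * Tr * C.obs q * (Ts * Tr) = Ts * (Tr * C.obs q) * (Ts * Tr) := by simp only [mul_assoc]
      _ = Ts * (C.obs q * Tr) * (Ts * Tr) := by rw [hcomm.eq]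
      _ = Ts * C.obs q * (Tr * Ts) * Tr := by simp only [mul_assoc]
      _ = Ts * C.obs q * (Ts * Tr) * Tr := by rw [hcomm2.symm.eq]
      _ = Ts * C.obs q * Ts * (Tr * Tr) := by simp only [mul_assoc]
      _ = Ts * C.obs q * Ts := by rw [h4, mul_one]
  have h5 : ∀ T : Op Q, star T = T → ev (C.obs q) (act T u) = ev (T * C.obs q * T) u := by
    intro T hT
    rw [← ev_conj, hT]
  rw [h5 _ h1, h5 _ h2, key]

/-- **Theorem G** when the gate at the output in the last layer is narrow: no condition on the first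
layer. -/
theorem theoremG_narrow (C : Circuit3 (Fin n ⊕ A)) (q : Fin n ⊕ A) (ε : ℝ)
    (h : C.ComputesParity q ε)
    (t w m N0 : ℕ) (ht : 1 ≤ t) (hw : 1 ≤ w) (τ : ℝ) (hτ : 0 < τ) (hN0 : (w : ℝ) ≤ N0 * τ)
    (hS : (Bset C.T3 q).card ≤ w)
    (hcount : 4 * t * (m * (1 + N0)) ≤ n) :
    2 * ε - 2 * Real.sqrt (4 * (C.T1.filter fun g => decide (2 * t ≤ (inpOf g).card)).length
        * (1 / 2 : ℝ) ^ t) - 4 * m * Real.sqrt τ ≤ 6 * (1 / 2 : ℝ) ^ m := by
  classical
  refine theoremG_gen C q ε h t w m N0 ht hw τ hτ hN0 0 (fun _ => 0) ?_ (by simpa using hcount)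
    (C.T2.filter fun l => decide (¬ Disjoint (Bset C.T3 q) l.supp)) (C.T2_disjoint.filter _)
    (C.ev_filter q) ?_
  · simp
  · intro P _ i _ Tk _ _ _
    have : Std.Symm (fun g h : Toffoli (Fin n ⊕ A) => Disjoint g.supp h.supp) :=
      ⟨fun a b h => h.symm⟩
    set gs := C.T2.filter fun l => decide (¬ Disjoint (Bset C.T3 q) l.supp) with hgs
    have h1 : (gs.toFinset.filter fun l => ¬ Disjoint (Bset Tk (Sum.inl i)) l.supp).card
        ≤ gs.toFinset.card := Finset.card_filter_le _ _
    have h2 : gs.toFinset ⊆ C.T2.toFinset.filter fun l => ¬ Disjoint (Bset C.T3 q) l.supp := by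
      intro g hg
      have h3 := List.mem_filter.mp (List.mem_toFinset.mp hg)
      exact Finset.mem_filter.mpr ⟨List.mem_toFinset.mpr h3.1, by simpa using h3.2⟩
    have h4 := adj_card_le C.T2.toFinset Toffoli.supp (Bset C.T3 q) (fun a ha b hb hab =>
      C.T2_disjoint.forall (List.mem_toFinset.mp ha) (List.mem_toFinset.mp hb) hab)
    have h5 := Finset.card_le_card h2
    exact_mod_cast h1.trans (h5.trans (h4.trans hS))

end Vale.Agent.Lib.P368
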