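import Vale.Agent.Lib.P368.Hilbert

/-! The top-degree operator `D_is`, the product bound (Lemma T) and the sign induction. -/

namespace Vale.Agent.Lib.P368

open Matrix
open scoped Matrix.Norms.L2Operator InnerProductSpace

set_option linter.unusedSectionVars false
set_option linter.unusedSimpArgs false
set_option linter.unusedVariables false

variable {ι : Type} [Fintype ι] [DecidableEq ι]

/-- The part of `B` odd under conjugation by `W`. -/
noncomputable def D (W B : Matrix ι ι ℂ) : Matrix ι ι ℂ := (1 / 2 : ℂ) • (B - W * B * W)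

/-- Iterated odd parts. -/
noncomputable def DD {I : Type} (W : I → Matrix ι ι ℂ) : List I → Matrix ι ι ℂ → Matrix ι ι ℂ
  | [], B => B
  | i :: is, B => D (W i) (DD W is B)

lemma D_add (W A B : Matrix ι ι ℂ) : D W (A + B) = D W A + D W B := by
  simp only [D, mul_add, add_mul, smul_sub, smul_add]
  abel

lemma D_sub (W A B : Matrix ι ι ℂ) : D W (A - B) = D W A - D W B := by
  simp only [D, mul_sub, sub_mul, smul_sub]
  abel

lemma DD_add {I : Type} (W : I → Matrix ι ι ℂ) (is : List I) (A B : Matrix ι ι ℂ) :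
    DD W is (A + B) = DD W is A + DD W is B := by
  induction is with
  | nil => rfl
  | cons i is ih => simp only [DD, ih, D_add]

lemma DD_sub {I : Type} (W : I → Matrix ι ι ℂ) (is : List I) (A B : Matrix ι ι ℂ) :
    DD W is (A - B) = DD W is A - DD W is B := by
  induction is with
  | nil => rfl
  | cons i is ih => simp only [DD, ih, D_sub]

/-- Factor commuting with `W` on the right. -/
lemma D_mul_right (W C Y : Matrix ι ι ℂ) (h : Commute W Y) : D W (C * Y) = D W C * Y := by
  simp only [D, smul_mul_assoc, sub_mul]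
  congr 2
  calc W * (C * Y) * W = W * C * (Y * W) := by simp only [mul_assoc]
    _ = W * C * (W * Y) := by rw [h.symm.eq]
    _ = W * C * W * Y := by simp only [mul_assoc]

/-- Factor commuting with `W` on the left. -/
lemma D_mul_left (W C Y : Matrix ι ι ℂ) (h : Commute W C) : D W (C * Y) = C * D W Y := by
  simp only [D, mul_smul_comm, mul_sub]
  congr 2
  rw [← mul_assoc W C Y, h.eq]
  simp only [mul_assoc]

lemma DD_mul_left {I : Type} (W : I → Matrix ι ι ℂ) (is : List I) (C Y : Matrix ι ι ℂ)
    (h : ∀ i ∈ is, Commute (W i) C) : DD W is (C * Y) = C * DD W is Y := by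
  induction is with
  | nil => rfl
  | cons i is ih =>
    simp only [DD]
    rw [ih (fun j hj => h j (by simp [hj]))]
    exact D_mul_left _ _ _ (h i (by simp))

lemma commute_D (A W B : Matrix ι ι ℂ) (h1 : Commute A W) (h2 : Commute A B) :
    Commute A (D W B) := by
  unfold D
  exact (h2.sub_right ((h1.mul_right h2).mul_right h1)).smul_right _

lemma commute_DD {I : Type} (W : I → Matrix ι ι ℂ) (is : List I) (A B : Matrix ι ι ℂ)
    (h1 : ∀ i ∈ is, Commute A (W i)) (h2 : Commute A B) : Commute A (DD W is B) := by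
  induction is with
  | nil => exact h2
  | cons i is ih =>
    exact commute_D _ _ _ (h1 i (by simp)) (ih fun j hj => h1 j (by simp [hj]))

lemma norm_D_proj {W C : Matrix ι ι ℂ} (hW1 : star W = W) (hW2 : W * W = 1)
    (hC : IsStarProjection C) : ‖D W C‖ ≤ 1 / 2 := by
  set S : Matrix ι ι ℂ := C + C - 1 with hS
  have hS1 : star S = S := by
    simp only [hS, star_sub, star_add, star_one, hC.isSelfAdjoint.star_eq]
  have hCC : C * C = C := hC.isIdempotentElem.eq
  have hS2 : S * S = 1 := by
    have : S * S = C * C + C * C + C * C + C * C - C - C - C - C + 1 := by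
      rw [hS]; noncomm_ring
    rw [this, hCC]
    abel
  have hSn : ‖S‖ ≤ 1 := norm_invol_le hS1 hS2
  have hWn : ‖W‖ ≤ 1 := norm_invol_le hW1 hW2
  have h1 : D W C = (1 / 4 : ℂ) • (S - W * S * W) := by
    have h2 : C = (1 / 2 : ℂ) • S + (1 / 2 : ℂ) • 1 := by
      rw [hS, ← smul_add, sub_add_cancel, ← two_smul ℂ C, smul_smul]
      norm_num
    have h3 : W * C * W = (1 / 2 : ℂ) • (W * S * W) + (1 / 2 : ℂ) • 1 := by
      rw [h2]
      simp only [mul_add, add_mul, mul_smul_comm, smul_mul_assoc, mul_one, hW2]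
    unfold D
    rw [h3]
    nth_rewrite 1 [h2]
    simp only [smul_sub, smul_add, smul_smul]
    norm_num
  rw [h1, norm_smul]
  have h4 : ‖S - W * S * W‖ ≤ 2 := by
    calc ‖S - W * S * W‖ ≤ ‖S‖ + ‖W * S * W‖ := norm_sub_le _ _
      _ ≤ ‖S‖ + ‖W‖ * ‖S‖ * ‖W‖ := by
          gcongr
          exact (norm_mul_le _ _).trans (by gcongr; exact norm_mul_le _ _)
      _ ≤ 1 + 1 * 1 * 1 := by gcongr
      _ = 2 := by norm_num
  have h5 : ‖(1 / 4 : ℂ)‖ = 1 / 4 := by norm_num
  rw [h5]
  linarith

variable {Q : Type} [Fintype Q] [DecidableEq Q]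

lemma tp_proj {E : Q → M2} (hE : ∀ q, IsStarProjection (E q)) : IsStarProjection (tp E) := by
  constructor
  · show tp E * tp E = tp E
    rw [tp_mul]
    congr 1
    funext q
    exact (hE q).isIdempotentElem.eq
  · show star (tp E) = tp E
    rw [tp_star]
    congr 1
    funext q
    exact (hE q).isSelfAdjoint.star_eq

/-- **Lemma T.** -/
theorem lemmaT {I G : Type} (W : I → Op Q) (B : I → Finset Q) (S : G → Finset Q) (t : G → Op Q) :
    ∀ (is : List I) (gs : List G) (E : Q → M2),
      is.Nodup →
      (∀ i ∈ is, star (W i) = W i ∧ W i * W i = 1 ∧ W i ∈ Alg (B i)) →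
      is.Pairwise (fun i j => Disjoint (B i) (B j)) →
      (∀ l ∈ gs, star (t l) = t l ∧ t l * t l = 1 ∧ t l ∈ Alg (S l)) →
      gs.Pairwise (fun a b => Disjoint (S a) (S b)) →
      (∀ l ∈ gs, ∀ i ∈ is, ∀ j ∈ is, ¬ Disjoint (S l) (B i) → ¬ Disjoint (S l) (B j) → i = j) →
      (∀ q, IsStarProjection (E q)) →
      ‖DD W is (lprod t gs * tp E * lprod t gs)‖ ≤ (1 / 2 : ℝ) ^ is.length := by
  intro is
  induction is with
  | nil =>
    intro gs E _ _ _ hgs hpair _ hE
    have hc : gs.Pairwise fun a b => Commute (t a) (t b) :=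
      List.Pairwise.imp_of_mem
        (fun {a b} ha hb hab => Alg_commute hab (hgs a ha).2.2 (hgs b hb).2.2) hpair
    obtain ⟨h1, h2⟩ := lprod_invol t gs hc (fun l hl => (hgs l hl).1) (fun l hl => (hgs l hl).2.1)
    have h3 := norm_invol_le h1 h2
    have h4 := norm_proj_le (tp_proj hE)
    simp only [DD, List.length_nil, pow_zero]
    calc ‖lprod t gs * tp E * lprod t gs‖ ≤ ‖lprod t gs‖ * ‖tp E‖ * ‖lprod t gs‖ :=
          (norm_mul_le _ _).trans (by gcongr; exact norm_mul_le _ _)
      _ ≤ 1 * 1 * 1 := by gcongr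
      _ = 1 := by norm_num
  | cons i is ih =>
    intro gs E hnd hW hBd hgs hpair hmeet hE
    classical
    rw [List.nodup_cons] at hnd
    rw [List.pairwise_cons] at hBd
    have hWi := hW i (by simp)
    -- the gates meeting `B i`
    set p : G → Bool := fun l => decide (¬ Disjoint (S l) (B i)) with hp
    set gs1 := gs.filter p with hgs1
    set gs2 := gs.filter (fun l => !p l) with hgs2
    have hmem1 : ∀ l ∈ gs1, l ∈ gs ∧ ¬ Disjoint (S l) (B i) := by
      intro l hl
      have := List.mem_filter.mp hl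
      exact ⟨this.1, by simpa [hp] using this.2⟩
    have hmem2 : ∀ l ∈ gs2, l ∈ gs ∧ Disjoint (S l) (B i) := by
      intro l hl
      have := List.mem_filter.mp hl
      exact ⟨this.1, by simpa [hp] using this.2⟩
    haveI : Std.Symm (fun a b => Disjoint (S a) (S b)) := ⟨fun a b h => h.symm⟩
    have hpw : ∀ a ∈ gs, ∀ b ∈ gs, a ≠ b → Disjoint (S a) (S b) :=
      fun a ha b hb hab => hpair.forall ha hb hab
    have hcross : ∀ a ∈ gs2, ∀ b ∈ gs1, Disjoint (S a) (S b) := by
      intro a ha b hb
      refine hpw a (hmem2 a ha).1 b (hmem1 b hb).1 ?_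
      rintro rfl
      exact (hmem1 a hb).2 (hmem2 a ha).2
    set U : Finset Q := B i ∪ gs1.toFinset.biUnion S with hU
    have hBU : B i ⊆ U := Finset.subset_union_left
    have hSU : ∀ l ∈ gs1, S l ⊆ U := by
      intro l hl
      refine Finset.Subset.trans ?_ Finset.subset_union_right
      exact Finset.subset_biUnion_of_mem S (List.mem_toFinset.mpr hl)
    have hS2U : ∀ l ∈ gs2, Disjoint (S l) U := by
      intro l hl
      rw [hU, Finset.disjoint_union_right]
      refine ⟨(hmem2 l hl).2, ?_⟩
      rw [Finset.disjoint_biUnion_right]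
      intro b hb
      exact hcross l hl b (List.mem_toFinset.mp hb)
    have hUc : ∀ l ∈ gs2, S l ⊆ Uᶜ := by
      intro l hl
      exact Finset.subset_compl_iff_disjoint_right.mpr (hS2U l hl)
    have hdisjUc : Disjoint U Uᶜ := disjoint_compl_right
    set E1 : Q → M2 := fun q => if q ∈ U then E q else 1 with hE1
    set E2 : Q → M2 := fun q => if q ∈ U then 1 else E q with hE2
    have hE1p : ∀ q, IsStarProjection (E1 q) := by
      intro q
      by_cases hq : q ∈ U
      · simpa [hE1, hq] using hE q
      · simpa [hE1, hq] using IsStarProjection.one _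
    have hE2p : ∀ q, IsStarProjection (E2 q) := by
      intro q
      by_cases hq : q ∈ U
      · simpa [hE2, hq] using IsStarProjection.one _
      · simpa [hE2, hq] using hE q
    have hsplit : tp E = tp E1 * tp E2 := tp_split E U
    have hE1mem : tp E1 ∈ Alg U := tp_mem_Alg fun q hq => by simp [hE1, hq]
    have hE2mem : tp E2 ∈ Alg Uᶜ := tp_mem_Alg fun q hq => by
      have : q ∈ U := by simpa using hq
      simp [hE2, this]
    have hc : gs.Pairwise fun a b => Commute (t a) (t b) :=
      List.Pairwise.imp_of_mem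
        (fun {a b} ha hb hab => Alg_commute hab (hgs a ha).2.2 (hgs b hb).2.2) hpair
    have hc1 : gs1.Pairwise fun a b => Commute (t a) (t b) := hc.filter _
    have hT : lprod t gs = lprod t gs1 * lprod t gs2 := lprod_filter t gs hc p
    set T1 := lprod t gs1 with hT1
    set T2 := lprod t gs2 with hT2
    have hT1mem : T1 ∈ Alg U :=
      lprod_mem t gs1 fun l hl => Alg_mem_mono (hSU l hl) (hgs l (hmem1 l hl).1).2.2
    have hT2mem : T2 ∈ Alg Uᶜ :=
      lprod_mem t gs2 fun l hl => Alg_mem_mono (hUc l hl) (hgs l (hmem2 l hl).1).2.2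
    have hcomm1 : Commute T1 T2 := Alg_commute hdisjUc hT1mem hT2mem
    have hcomm2 : Commute (tp E1) T2 := Alg_commute hdisjUc hE1mem hT2mem
    have hcomm3 : Commute T1 (tp E2) := Alg_commute hdisjUc hT1mem hE2mem
    obtain ⟨hT11, hT12⟩ := lprod_invol t gs1 hc1 (fun l hl => (hgs l (hmem1 l hl).1).1)
      (fun l hl => (hgs l (hmem1 l hl).1).2.1)
    set C := T1 * tp E1 * T1 with hC
    set Y := T2 * tp E2 * T2 with hY
    have hX : lprod t gs * tp E * lprod t gs = C * Y := by
      rw [hT, hsplit, hC, hY]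
      calc T1 * T2 * (tp E1 * tp E2) * (T1 * T2)
          = T1 * (T2 * tp E1) * tp E2 * (T1 * T2) := by simp only [mul_assoc]
        _ = T1 * (tp E1 * T2) * tp E2 * (T1 * T2) := by rw [hcomm2.eq]
        _ = T1 * tp E1 * (T2 * tp E2) * (T1 * T2) := by simp only [mul_assoc]
        _ = T1 * tp E1 * (T2 * tp E2 * T1) * T2 := by simp only [mul_assoc]
        _ = T1 * tp E1 * (T2 * (tp E2 * T1)) * T2 := by simp only [mul_assoc]
        _ = T1 * tp E1 * (T2 * (T1 * tp E2)) * T2 := by rw [hcomm3.symm.eq]
        _ = T1 * tp E1 * ((T2 * T1) * tp E2) * T2 := by simp only [mul_assoc]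
        _ = T1 * tp E1 * ((T1 * T2) * tp E2) * T2 := by rw [hcomm1.symm.eq]
        _ = T1 * tp E1 * T1 * (T2 * tp E2 * T2) := by simp only [mul_assoc]
    have hCproj : IsStarProjection C := by
      constructor
      · show C * C = C
        have hE1i : tp E1 * tp E1 = tp E1 := (tp_proj hE1p).isIdempotentElem.eq
        rw [hC]
        calc T1 * tp E1 * T1 * (T1 * tp E1 * T1) = T1 * tp E1 * (T1 * T1) * tp E1 * T1 := by
              simp only [mul_assoc]
          _ = T1 * (tp E1 * tp E1) * T1 := by rw [hT12]; simp only [mul_one, mul_assoc]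
          _ = T1 * tp E1 * T1 := by rw [hE1i]
      · show star C = C
        rw [hC, star_mul, star_mul, hT11, (tp_proj hE1p).isSelfAdjoint.star_eq, mul_assoc]
    have hCmem : C ∈ Alg U := mul_mem (mul_mem hT1mem hE1mem) hT1mem
    have hYmem : Y ∈ Alg Uᶜ := mul_mem (mul_mem hT2mem hE2mem) hT2mem
    -- commutations with the flips
    have hWiY : Commute (W i) Y := Alg_commute hdisjUc (Alg_mem_mono hBU hWi.2.2) hYmem
    have hBjU : ∀ j ∈ is, Disjoint (B j) U := by
      intro j hj
      rw [hU, Finset.disjoint_union_right]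
      refine ⟨(hBd.1 j hj).symm, ?_⟩
      rw [Finset.disjoint_biUnion_right]
      intro l hl
      have hl' := List.mem_toFinset.mp hl
      by_contra hcon
      have := hmeet l (hmem1 l hl').1 i (by simp) j (by simp [hj]) (hmem1 l hl').2
        (fun h => hcon h.symm)
      rw [this] at hnd
      exact hnd.1 hj
    have hWjC : ∀ j ∈ is, Commute (W j) C := fun j hj =>
      Alg_commute (hBjU j hj) (hW j (by simp [hj])).2.2 hCmem
    have hWiWj : ∀ j ∈ is, Commute (W i) (W j) := fun j hj =>
      Alg_commute (hBd.1 j hj) hWi.2.2 (hW j (by simp [hj])).2.2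
    have hIH := ih gs2 E2 hnd.2 (fun j hj => hW j (by simp [hj])) hBd.2
      (fun l hl => hgs l (hmem2 l hl).1) (hpair.filter _)
      (fun l hl a ha b hb => hmeet l (hmem2 l hl).1 a (by simp [ha]) b (by simp [hb])) hE2p
    have hD := norm_D_proj hWi.1 hWi.2.1 hCproj
    rw [hX]
    simp only [DD, List.length_cons]
    rw [DD_mul_left W is C Y hWjC, D_mul_right _ _ _ (commute_DD W is _ Y hWiWj hWiY)]
    calc ‖D (W i) C * DD W is Y‖ ≤ ‖D (W i) C‖ * ‖DD W is Y‖ := norm_mul_le _ _
      _ ≤ (1 / 2) * (1 / 2 : ℝ) ^ is.length := by gcongr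
      _ = (1 / 2 : ℝ) ^ (is.length + 1) := by rw [pow_succ]; ring

/-! ### Flips, sign induction, invariance -/

/-- Flip a coordinate. -/
def flip {I : Type} [DecidableEq I] (i : I) (z : I → Bool) : I → Bool :=
  Function.update z i (!z i)

lemma ev_D (W B : Matrix ι ι ℂ) (hW : star W = W) (v : Vec ι) :
    ev (D W B) v = (1 / 2) * (ev B v - ev B (act W v)) := by
  have h := ev_conj W B v
  rw [hW] at h
  unfold D
  have h2 : (1 / 2 : ℂ) = ((1 / 2 : ℝ) : ℂ) := by norm_num
  rw [h2, ev_smul_real, ev_sub, h]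

theorem sign_induction {I : Type} [DecidableEq I] (φ : (I → Bool) → Vec ι)
    (W : I → Matrix ι ι ℂ) (sgn : (I → Bool) → ℝ)
    (hflip : ∀ i z, φ (flip i z) = act (W i) (φ z)) (hW : ∀ i, star (W i) = W i)
    (hsgn : ∀ i z, sgn (flip i z) = - sgn z) (κ : ℝ) (A : Matrix ι ι ℂ) :
    ∀ (is : List I) (y : I → Bool),
      (∀ x, (∀ i, i ∉ is → x i = y i) → κ ≤ sgn x * ev A (φ x)) →
      κ ≤ sgn y * ev (DD W is A) (φ y) := by
  intro is
  induction is with
  | nil =>
    intro y h
    exact h y fun _ _ => rfl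
  | cons i is ih =>
    intro y h
    have h1 := ih y (fun x hx => h x fun j hj => hx j (fun hj' => hj (by simp [hj'])))
    have h2 := ih (flip i y) (fun x hx => h x fun j hj => by
      have hj1 : j ≠ i := fun hji => hj (by simp [hji])
      rw [hx j (fun hj' => hj (by simp [hj']))]
      simp [flip, Function.update_of_ne hj1])
    rw [hflip, hsgn] at h2
    simp only [DD]
    rw [ev_D _ _ (hW i)]
    nlinarith

/-- Invariance of the norm of `A φ` under flips commuting with `A`. -/
theorem norm_invariant {I : Type} [DecidableEq I] (φ : (I → Bool) → Vec ι)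
    (W : I → Matrix ι ι ℂ) (hflip : ∀ i z, φ (flip i z) = act (W i) (φ z))
    (hW : ∀ i, star (W i) * W i = 1) (A : Matrix ι ι ℂ) :
    ∀ (D : Finset I) (x x' : I → Bool), (∀ i, i ∉ D → x i = x' i) →
      (∀ k ∈ D, Commute A (W k)) → ‖act A (φ x)‖ = ‖act A (φ x')‖ := by
  intro D
  induction D using Finset.induction_on with
  | empty =>
    intro x x' h _
    have : x = x' := funext fun i => h i (by simp)
    rw [this]
  | insert k D hk ih =>
    intro x x' h hc
    have hc' : ∀ j ∈ D, Commute A (W j) := fun j hj => hc j (Finset.mem_insert_of_mem hj)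
    by_cases hxk : x k = x' k
    · exact ih x x' (fun i hi => by
        by_cases hik : i = k
        · rw [hik, hxk]
        · exact h i (by simp [hik, hi])) hc'
    · have h1 : ‖act A (φ (flip k x))‖ = ‖act A (φ x)‖ := by
        rw [hflip, ← act_mul, (hc k (Finset.mem_insert_self _ _)).eq, act_mul]
        exact norm_act_of_star_mul _ (hW k) _
      rw [← h1]
      refine ih _ _ (fun i hi => ?_) hc'
      by_cases hik : i = k
      · subst hik
        simp only [flip, Function.update_self]
        cases hx : x i <;> cases hx' : x' i <;> simp_all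
      · simp only [flip, Function.update_of_ne hik]
        exact h i (by simp [hik, hi])

end Vale.Agent.Lib.P368
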