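import Vale.Agent.Lib.P368.Reduce

/-! The operator bound at two layers: all flips are one-qubit flips. -/

namespace Vale.Agent.Lib.P368

open Matrix Finset
open scoped Matrix.Norms.L2Operator InnerProductSpace

set_option linter.unusedSectionVars false
set_option linter.unusedSimpArgs false
set_option linter.unusedVariables false

section Basic

variable {ι : Type} [Fintype ι] [DecidableEq ι]

lemma norm_mul3_le (A B C : Matrix ι ι ℂ) : ‖A * B * C‖ ≤ ‖A‖ * ‖B‖ * ‖C‖ :=
  (norm_mul_le _ _).trans (by gcongr; exact norm_mul_le _ _)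

lemma norm_D_le {W B : Matrix ι ι ℂ} (hW1 : star W = W) (hW2 : W * W = 1) : ‖D W B‖ ≤ ‖B‖ := by
  have hWn : ‖W‖ ≤ 1 := norm_invol_le hW1 hW2
  unfold D
  rw [norm_smul]
  have h5 : ‖(1 / 2 : ℂ)‖ = 1 / 2 := by norm_num
  rw [h5]
  have h4 : ‖B - W * B * W‖ ≤ 2 * ‖B‖ := by
    calc ‖B - W * B * W‖ ≤ ‖B‖ + ‖W * B * W‖ := norm_sub_le _ _
      _ ≤ ‖B‖ + ‖W‖ * ‖B‖ * ‖W‖ := by gcongr; exact norm_mul3_le _ _ _
      _ ≤ ‖B‖ + 1 * ‖B‖ * 1 := by gcongr
      _ = 2 * ‖B‖ := by ring
  linarith

lemma D_one {W : Matrix ι ι ℂ} (hW2 : W * W = 1) : D W 1 = 0 := by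
  unfold D
  simp [hW2]

lemma D_smul (W B : Matrix ι ι ℂ) (c : ℂ) : D W (c • B) = c • D W B := by
  unfold D
  simp only [mul_smul_comm, smul_mul_assoc, ← smul_sub, smul_smul]
  rw [mul_comm]

lemma DD_smul {I : Type} (W : I → Matrix ι ι ℂ) (is : List I) (c : ℂ) (B : Matrix ι ι ℂ) :
    DD W is (c • B) = c • DD W is B := by
  induction is with
  | nil => rfl
  | cons i is ih => simp only [DD, ih, D_smul]

/-- The reflection attached to a projection. -/
lemma sym_of_proj {P : Matrix ι ι ℂ} (hP : IsStarProjection P) :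
    star (P + P - 1) = P + P - 1 ∧ (P + P - 1) * (P + P - 1) = 1 := by
  have hPP : P * P = P := hP.isIdempotentElem.eq
  constructor
  · simp only [star_sub, star_add, star_one, hP.isSelfAdjoint.star_eq]
  · have : (P + P - 1) * (P + P - 1) = P * P + P * P + P * P + P * P - P - P - P - P + 1 := by
      noncomm_ring
    rw [this, hPP]
    abel

lemma proj_eq_half (P : Matrix ι ι ℂ) : P = (1 / 2 : ℂ) • ((1 : Matrix ι ι ℂ) + (P + P - 1)) := by
  have : (1 : Matrix ι ι ℂ) + (P + P - 1) = (2 : ℂ) • P := by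
    rw [two_smul]; abel
  rw [this, smul_smul]
  norm_num

/-- Two self-adjoint involutions. -/
lemma norm_prod_invol_le {S R : Matrix ι ι ℂ} (hS1 : star S = S) (hS2 : S * S = 1)
    (hR1 : star R = R) (hR2 : R * R = 1) : ‖S * R‖ ≤ 1 := by
  have h1 := norm_invol_le hS1 hS2
  have h2 := norm_invol_le hR1 hR2
  calc ‖S * R‖ ≤ ‖S‖ * ‖R‖ := norm_mul_le _ _
    _ ≤ 1 * 1 := by gcongr
    _ = 1 := by norm_num

/-- The odd part of a product of two projections. -/
lemma norm_D_mul {W P R : Matrix ι ι ℂ} (hW1 : star W = W) (hW2 : W * W = 1)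
    (hP : IsStarProjection P) (hR : IsStarProjection R) : ‖D W (P * R)‖ ≤ 3 / 4 := by
  obtain ⟨hS1, hS2⟩ := sym_of_proj hP
  obtain ⟨hT1, hT2⟩ := sym_of_proj hR
  set S := P + P - 1 with hS
  set T := R + R - 1 with hT
  have hSn := norm_invol_le hS1 hS2
  have hTn := norm_invol_le hT1 hT2
  have hST := norm_prod_invol_le hS1 hS2 hT1 hT2
  have h1 : P * R = (1 / 4 : ℂ) • (1 + S + T + S * T) := by
    have hPe := proj_eq_half P
    have hRe := proj_eq_half R
    rw [← hS] at hPe
    rw [← hT] at hRe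
    calc P * R = (1 / 2 : ℂ) • ((1 : Matrix ι ι ℂ) + S) * ((1 / 2 : ℂ) • ((1 : Matrix ι ι ℂ) + T)) := by
          rw [← hPe, ← hRe]
      _ = (1 / 4 : ℂ) • (1 + S + T + S * T) := by
          rw [smul_mul_smul_comm]
          congr 1
          · norm_num
          · noncomm_ring
  rw [h1, D_smul, D_add, D_add, D_add, D_one hW2, zero_add, norm_smul]
  have h5 : ‖(1 / 4 : ℂ)‖ = 1 / 4 := by norm_num
  rw [h5]
  have h2 := norm_D_le (B := S) hW1 hW2
  have h3 := norm_D_le (B := T) hW1 hW2
  have h4 := norm_D_le (B := S * T) hW1 hW2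
  have h6 : ‖D W S + D W T + D W (S * T)‖ ≤ 3 := by
    calc _ ≤ ‖D W S‖ + ‖D W T‖ + ‖D W (S * T)‖ := norm_add₃_le
      _ ≤ 3 := by linarith
  linarith

/-- The odd part of a product `P R P` of projections. -/
lemma norm_D_mul3 {W P R : Matrix ι ι ℂ} (hW1 : star W = W) (hW2 : W * W = 1)
    (hP : IsStarProjection P) (hR : IsStarProjection R) : ‖D W (P * R * P)‖ ≤ 3 / 4 := by
  obtain ⟨hS1, hS2⟩ := sym_of_proj hP
  obtain ⟨hT1, hT2⟩ := sym_of_proj hR
  set S := P + P - 1 with hS
  set T := R + R - 1 with hT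
  have hSn := norm_invol_le hS1 hS2
  have hTn := norm_invol_le hT1 hT2
  have hST := norm_prod_invol_le hS1 hS2 hT1 hT2
  have hTS := norm_prod_invol_le hT1 hT2 hS1 hS2
  have hSTS : ‖S * T * S‖ ≤ 1 := by
    calc ‖S * T * S‖ ≤ ‖S‖ * ‖T‖ * ‖S‖ := norm_mul3_le _ _ _
      _ ≤ 1 * 1 * 1 := by gcongr
      _ = 1 := by norm_num
  have h1 : P * R * P = (1 / 8 : ℂ) • (1 + 1 + (S + S) + T + S * T + T * S + S * T * S) := by
    have hPe := proj_eq_half P
    have hRe := proj_eq_half R
    rw [← hS] at hPe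
    rw [← hT] at hRe
    have e1 : P * R = (1 / 4 : ℂ) • ((1 + S) * (1 + T)) := by
      calc P * R = (1 / 2 : ℂ) • ((1 : Matrix ι ι ℂ) + S) * ((1 / 2 : ℂ) • ((1 : Matrix ι ι ℂ) + T)) := by
            rw [← hPe, ← hRe]
        _ = _ := by
            rw [smul_mul_smul_comm]
            congr 1
            norm_num
    calc P * R * P = (1 / 4 : ℂ) • ((1 + S) * (1 + T)) * ((1 / 2 : ℂ) • ((1 : Matrix ι ι ℂ) + S)) := by
          rw [← e1, ← hPe]
      _ = (1 / 8 : ℂ) • ((1 + S) * (1 + T) * (1 + S)) := by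
          rw [smul_mul_smul_comm]
          congr 1
          norm_num
      _ = _ := by
          congr 1
          have : (1 + S) * (1 + T) * (1 + S) = 1 + S + S * S + S + T + S * T + T * S + S * T * S := by
            noncomm_ring
          rw [this, hS2]
          abel
  rw [h1, D_smul, D_add, D_add, D_add, D_add, D_add, D_add, D_one hW2, norm_smul]
  have hDSS : D W (S + S) = D W S + D W S := D_add _ _ _
  rw [hDSS]
  have h5 : ‖(1 / 8 : ℂ)‖ = 1 / 8 := by norm_num
  rw [h5]
  have h2 := norm_D_le (B := S) hW1 hW2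
  have h3 := norm_D_le (B := T) hW1 hW2
  have h4 := norm_D_le (B := S * T) hW1 hW2
  have h4' := norm_D_le (B := T * S) hW1 hW2
  have h4'' := norm_D_le (B := S * T * S) hW1 hW2
  have h6 : ‖0 + (D W S + D W S) + D W T + D W (S * T) + D W (T * S) + D W (S * T * S)‖ ≤ 6 := by
    simp only [zero_add]
    have a1 := norm_add_le (D W S + D W S + D W T + D W (S * T) + D W (T * S)) (D W (S * T * S))
    have a2 := norm_add_le (D W S + D W S + D W T + D W (S * T)) (D W (T * S))
    have a3 := norm_add_le (D W S + D W S + D W T) (D W (S * T))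
    have a4 := norm_add_le (D W S + D W S) (D W T)
    have a5 := norm_add_le (D W S) (D W S)
    linarith
  linarith

lemma D_mem {S : Subalgebra ℂ (Matrix ι ι ℂ)} {W B : Matrix ι ι ℂ} (hW : W ∈ S) (hB : B ∈ S) :
    D W B ∈ S := by
  unfold D
  exact S.smul_mem (S.sub_mem hB (S.mul_mem (S.mul_mem hW hB) hW)) _

lemma DD_mem {I : Type} {S : Subalgebra ℂ (Matrix ι ι ℂ)} (W : I → Matrix ι ι ℂ) (is : List I)
    {B : Matrix ι ι ℂ} (hW : ∀ i ∈ is, W i ∈ S) (hB : B ∈ S) : DD W is B ∈ S := by
  induction is with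
  | nil => exact hB
  | cons i is ih =>
    exact D_mem (hW i (by simp)) (ih fun j hj => hW j (by simp [hj]))

/-- Splitting the odd part along a commuting factorization. -/
lemma DD_split {I : Type} (W : I → Matrix ι ι ℂ) (S S' : Subalgebra ℂ (Matrix ι ι ℂ))
    (hSS : ∀ a ∈ S, ∀ b ∈ S', Commute a b) (p : I → Bool) {C Y : Matrix ι ι ℂ}
    (hC : C ∈ S) (hY : Y ∈ S') (is : List I)
    (h1 : ∀ i ∈ is, p i = true → W i ∈ S) (h2 : ∀ i ∈ is, p i = false → W i ∈ S') :
    DD W is (C * Y) = DD W (is.filter p) C * DD W (is.filter fun i => !p i) Y := by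
  induction is with
  | nil => rfl
  | cons i is ih =>
    have ih' := ih (fun j hj => h1 j (by simp [hj])) (fun j hj => h2 j (by simp [hj]))
    have hmem1 : DD W (is.filter p) C ∈ S := by
      refine DD_mem W _ (fun j hj => ?_) hC
      obtain ⟨h3, h4⟩ := List.mem_filter.mp hj
      exact h1 j (by simp [h3]) h4
    have hmem2 : DD W (is.filter fun i => !p i) Y ∈ S' := by
      refine DD_mem W _ (fun j hj => ?_) hY
      obtain ⟨h3, h4⟩ := List.mem_filter.mp hj
      exact h2 j (by simp [h3]) (by simpa using h4)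
    simp only [DD]
    rw [ih']
    cases hp : p i with
    | true =>
      have hWi := h1 i (by simp) hp
      simp only [List.filter_cons, hp, if_true, Bool.not_true, Bool.false_eq_true, if_false, DD]
      exact D_mul_right _ _ _ (hSS _ hWi _ hmem2)
    | false =>
      have hWi := h2 i (by simp) hp
      simp only [List.filter_cons, hp, if_true, Bool.not_false, Bool.false_eq_true, if_false, DD]
      exact D_mul_left _ _ _ (hSS _ hmem1 _ hWi).symm

/-- A nonempty list of flips on a projection gives at most one half. -/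
lemma norm_DD_proj_le {I : Type} (W : I → Matrix ι ι ℂ) (is : List I) {C : Matrix ι ι ℂ}
    (hW : ∀ i ∈ is, star (W i) = W i ∧ W i * W i = 1) (hC : IsStarProjection C) (hne : is ≠ []) :
    ‖DD W is C‖ ≤ 1 / 2 := by
  induction is with
  | nil => exact absurd rfl hne
  | cons i is ih =>
    simp only [DD]
    obtain ⟨h1, h2⟩ := hW i (by simp)
    by_cases his : is = []
    · subst his
      exact norm_D_proj h1 h2 hC
    · exact (norm_D_le h1 h2).trans (ih (fun j hj => hW j (by simp [hj])) his)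

end Basic

variable {Q I : Type} [Fintype Q] [DecidableEq Q]

/-- Peeling one flip at a time. -/
theorem peel (W : I → Op Q) (b : I → Q) (𝔽 : (Q → M2) → Prop) (c : ℝ) (hc0 : 0 ≤ c)
    (hbase : ∀ F, 𝔽 F → ‖tp F‖ ≤ 1)
    (hupd : ∀ F q, 𝔽 F → 𝔽 (Function.update F q 1))
    (hstep : ∀ (F : Q → M2) (q : Q) (V : Op Q), 𝔽 F → star V = V → V * V = 1 →
      ‖D V (tp (Function.update (fun _ => 1) q (F q)))‖ ≤ c) :
    ∀ (is : List I) (F : Q → M2), 𝔽 F → (is.map b).Nodup →
      (∀ i ∈ is, star (W i) = W i ∧ W i * W i = 1 ∧ W i ∈ Alg {b i}) →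
      ‖DD W is (tp F)‖ ≤ c ^ is.length := by
  intro is
  induction is with
  | nil =>
    intro F hF _ _
    simpa [DD] using hbase F hF
  | cons i is ih =>
    intro F hF hnd hW
    rw [List.map_cons, List.nodup_cons] at hnd
    obtain ⟨hW1, hW2, hW3⟩ := hW i (by simp)
    set q := b i with hq
    have hne : ∀ j ∈ is, b j ≠ q := by
      intro j hj hjq
      exact hnd.1 (List.mem_map.mpr ⟨j, hj, hjq⟩)
    set X := tp (Function.update (fun _ => (1 : M2)) q (F q)) with hX
    set Y := tp (Function.update F q 1) with hY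
    have hsplit : tp F = X * Y := by
      rw [hX, hY, tp_mul]
      congr 1
      funext p
      by_cases hp : p = q
      · subst hp; simp
      · simp [Function.update_of_ne hp]
    have hXmem : X ∈ Alg {q} := tp_mem_Alg fun p hp => by
      have : p ≠ q := by simpa using hp
      rw [Function.update_of_ne this]
    have hYmem : Y ∈ Alg ({q}ᶜ : Finset Q) := tp_mem_Alg fun p hp => by
      have : p = q := by simpa using hp
      rw [this]; simp
    have hjc : ∀ j ∈ is, W j ∈ Alg ({q}ᶜ : Finset Q) := by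
      intro j hj
      refine Alg_mem_mono ?_ (hW j (by simp [hj])).2.2
      intro a ha
      have : a = b j := by simpa using ha
      rw [this]
      simpa using hne j hj
    have hdisj : Disjoint ({q} : Finset Q) ({q}ᶜ : Finset Q) := disjoint_compl_right
    have h1 : DD W is (X * Y) = X * DD W is Y :=
      DD_mul_left W is X Y fun j hj => (Alg_commute hdisj hXmem (hjc j hj)).symm
    have hmem : DD W is Y ∈ Alg ({q}ᶜ : Finset Q) := DD_mem W is hjc hYmem
    have h2 : D (W i) (X * DD W is Y) = D (W i) X * DD W is Y :=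
      D_mul_right _ _ _ (Alg_commute hdisj hW3 hmem)
    simp only [DD, List.length_cons]
    rw [hsplit, h1, h2]
    have h3 := hstep F q (W i) hF hW1 hW2
    have h4 := ih _ (hupd F q hF) hnd.2 (fun j hj => hW j (by simp [hj]))
    calc ‖D (W i) X * DD W is Y‖ ≤ ‖D (W i) X‖ * ‖DD W is Y‖ := norm_mul_le _ _
      _ ≤ c * c ^ is.length := by gcongr
      _ = c ^ (is.length + 1) := by rw [pow_succ]; ring

/-- Projection families. -/
def ProjFam (P : Q → M2) : Prop := ∀ q, IsStarProjection (P q)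

lemma ProjFam.update {P : Q → M2} (h : ProjFam P) (q : Q) : ProjFam (Function.update P q 1) :=
  fun p => by
    by_cases hp : p = q
    · subst hp; simpa using IsStarProjection.one _
    · rw [Function.update_of_ne hp]; exact h p

lemma ProjFam.one_update (q : Q) {X : M2} (h : IsStarProjection X) :
    ProjFam (Function.update (fun _ : Q => (1 : M2)) q X) :=
  fun p => by
    by_cases hp : p = q
    · subst hp; simpa using h
    · rw [Function.update_of_ne hp]; exact IsStarProjection.one _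

lemma tp_update_mul (q : Q) (X X' : M2) :
    tp (Function.update (fun _ => (1 : M2)) q (X * X'))
      = tp (Function.update (fun _ => (1 : M2)) q X) * tp (Function.update (fun _ => (1 : M2)) q X') := by
  rw [tp_mul]
  congr 1
  funext p
  by_cases hp : p = q
  · subst hp; simp
  · simp [Function.update_of_ne hp]

/-- Peeling for products of two projections. -/
theorem peel_two (W : I → Op Q) (b : I → Q) (is : List I) {P R : Q → M2} (hP : ProjFam P)
    (hR : ProjFam R) (hnd : (is.map b).Nodup)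
    (hW : ∀ i ∈ is, star (W i) = W i ∧ W i * W i = 1 ∧ W i ∈ Alg {b i}) :
    ‖DD W is (tp P * tp R)‖ ≤ (3 / 4 : ℝ) ^ is.length := by
  rw [tp_mul]
  refine peel W b (fun F => ∃ P R : Q → M2, ProjFam P ∧ ProjFam R ∧ F = fun q => P q * R q)
    (3 / 4) (by norm_num) ?_ ?_ ?_ is _ ⟨P, R, hP, hR, rfl⟩ hnd hW
  · rintro F ⟨P, R, hP, hR, rfl⟩
    rw [← tp_mul]
    calc ‖tp P * tp R‖ ≤ ‖tp P‖ * ‖tp R‖ := norm_mul_le _ _
      _ ≤ 1 * 1 := by
        gcongr
        · exact norm_proj_le (tp_proj hP)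
        · exact norm_proj_le (tp_proj hR)
      _ = 1 := by norm_num
  · rintro F q ⟨P, R, hP, hR, rfl⟩
    refine ⟨_, _, hP.update q, hR.update q, ?_⟩
    funext p
    by_cases hp : p = q
    · subst hp; simp
    · simp [Function.update_of_ne hp]
  · rintro F q V ⟨P, R, hP, hR, rfl⟩ hV1 hV2
    simp only
    rw [tp_update_mul]
    exact norm_D_mul hV1 hV2 (tp_proj (ProjFam.one_update q (hP q)))
      (tp_proj (ProjFam.one_update q (hR q)))

/-- Peeling for products `P R P`. -/
theorem peel_three (W : I → Op Q) (b : I → Q) (is : List I) {P R : Q → M2} (hP : ProjFam P)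
    (hR : ProjFam R) (hnd : (is.map b).Nodup)
    (hW : ∀ i ∈ is, star (W i) = W i ∧ W i * W i = 1 ∧ W i ∈ Alg {b i}) :
    ‖DD W is (tp P * tp R * tp P)‖ ≤ (3 / 4 : ℝ) ^ is.length := by
  rw [tp_mul, tp_mul]
  refine peel W b (fun F => ∃ P R : Q → M2, ProjFam P ∧ ProjFam R ∧ F = fun q => P q * R q * P q)
    (3 / 4) (by norm_num) ?_ ?_ ?_ is _ ⟨P, R, hP, hR, rfl⟩ hnd hW
  · rintro F ⟨P, R, hP, hR, rfl⟩
    rw [← tp_mul (fun q => P q * R q) P, ← tp_mul]
    calc ‖tp P * tp R * tp P‖ ≤ ‖tp P‖ * ‖tp R‖ * ‖tp P‖ := norm_mul3_le _ _ _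
      _ ≤ 1 * 1 * 1 := by
        gcongr
        · exact norm_proj_le (tp_proj hP)
        · exact norm_proj_le (tp_proj hR)
        · exact norm_proj_le (tp_proj hP)
      _ = 1 := by norm_num
  · rintro F q ⟨P, R, hP, hR, rfl⟩
    refine ⟨_, _, hP.update q, hR.update q, ?_⟩
    funext p
    by_cases hp : p = q
    · subst hp; simp
    · simp [Function.update_of_ne hp]
  · rintro F q V ⟨P, R, hP, hR, rfl⟩ hV1 hV2
    simp only
    rw [tp_update_mul, tp_update_mul]
    exact norm_D_mul3 hV1 hV2 (tp_proj (ProjFam.one_update q (hP q)))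
      (tp_proj (ProjFam.one_update q (hR q)))

lemma numeric_key (k : ℕ) (hk : 11 ≤ k) : (9 * (3 / 4 : ℝ) ^ k) ^ 10 ≤ (1 / 2 : ℝ) ^ k := by
  induction k, hk using Nat.le_induction with
  | base => norm_num
  | succ k hk ih =>
    have h3 : (9 * (3 / 4 : ℝ) ^ (k + 1)) ^ 10
        = (9 * (3 / 4 : ℝ) ^ k) ^ 10 * (3 / 4 : ℝ) ^ 10 := by
      rw [pow_succ]; ring
    rw [h3, pow_succ (1 / 2 : ℝ)]
    have h4 : (3 / 4 : ℝ) ^ 10 ≤ 1 / 2 := by norm_num
    have h5 : 0 ≤ (9 * (3 / 4 : ℝ) ^ k) ^ 10 := by positivity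
    have h6 : 0 ≤ (1 / 2 : ℝ) ^ k := by positivity
    exact mul_le_mul ih h4 (by positivity) h6

/-- The bound for one block in terms of the number of flips. -/
lemma block_numeric {x : ℝ} (hx0 : 0 ≤ x) (k : ℕ) (h1 : x ≤ 1 / 2) (h2 : x ≤ 9 * (3 / 4 : ℝ) ^ k) :
    x ^ 10 ≤ (1 / 2 : ℝ) ^ k := by
  by_cases hk : k ≤ 10
  · calc x ^ 10 ≤ (1 / 2 : ℝ) ^ 10 := pow_le_pow_left₀ hx0 h1 _
      _ ≤ (1 / 2 : ℝ) ^ k := pow_le_pow_of_le_one (by norm_num) (by norm_num) hk
  · exact (pow_le_pow_left₀ hx0 h2 _).trans (numeric_key k (by omega))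

/-- Peeling for a tensor product of projections. -/
theorem peel_one (W : I → Op Q) (b : I → Q) (is : List I) {E : Q → M2} (hE : ProjFam E)
    (hnd : (is.map b).Nodup)
    (hW : ∀ i ∈ is, star (W i) = W i ∧ W i * W i = 1 ∧ W i ∈ Alg {b i}) :
    ‖DD W is (tp E)‖ ≤ (1 / 2 : ℝ) ^ is.length := by
  refine peel W b ProjFam (1 / 2) (by norm_num) ?_ ?_ ?_ is _ hE hnd hW
  · intro F hF
    exact norm_proj_le (tp_proj hF)
  · intro F q hF
    exact hF.update q
  · intro F q V hF hV1 hV2
    exact norm_D_proj hV1 hV2 (tp_proj (ProjFam.one_update q (hF q)))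

/-- One block: the conjugate of a tensor product of projections by one reflection. -/
theorem block_bound (W : I → Op Q) (b : I → Q) (is : List I) {π E : Q → M2} (hπ : ProjFam π)
    (hE : ProjFam E) (hnd : (is.map b).Nodup)
    (hW : ∀ i ∈ is, star (W i) = W i ∧ W i * W i = 1 ∧ W i ∈ Alg {b i}) :
    ‖DD W is (gateOf π * tp E * gateOf π)‖ ^ 10 ≤ (1 / 2 : ℝ) ^ is.length := by
  set t := gateOf π with ht
  have ht1 : star t = t := refl_star (tp_proj hπ)
  have ht2 : t * t = 1 := refl_sq (tp_proj hπ)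
  have hEp := tp_proj hE
  have hC : IsStarProjection (t * tp E * t) := by
    constructor
    · show t * tp E * t * (t * tp E * t) = t * tp E * t
      calc t * tp E * t * (t * tp E * t) = t * tp E * (t * t) * tp E * t := by simp only [mul_assoc]
        _ = t * (tp E * tp E) * t := by rw [ht2]; simp only [mul_one, mul_assoc]
        _ = t * tp E * t := by rw [hEp.isIdempotentElem.eq]
    · show star (t * tp E * t) = t * tp E * t
      rw [star_mul, star_mul, ht1, hEp.isSelfAdjoint.star_eq, mul_assoc]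
  by_cases his : is = []
  · subst his
    simp only [DD, List.length_nil, pow_zero]
    have h1 := norm_proj_le hC
    exact pow_le_one₀ (norm_nonneg _) h1
  · have h1 : ‖DD W is (t * tp E * t)‖ ≤ 1 / 2 :=
      norm_DD_proj_le W is (fun i hi => ⟨(hW i hi).1, (hW i hi).2.1⟩) hC his
    have hone : ProjFam (fun _ : Q => (1 : M2)) := fun _ => IsStarProjection.one _
    have e1 : t * tp E * t = tp (fun _ => 1) * tp E - (2 : ℂ) • (tp π * tp E)
        - (2 : ℂ) • (tp E * tp π) + (4 : ℂ) • (tp π * tp E * tp π) := by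
      rw [tp_one, ht]
      unfold gateOf refl
      have e2 : ∀ X : Op Q, (2 : ℂ) • X = X + X := fun X => two_smul ℂ X
      have e4 : ∀ X : Op Q, (4 : ℂ) • X = X + X + X + X := by
        intro X
        rw [show (4 : ℂ) = 1 + 1 + 1 + 1 by norm_num]
        simp only [add_smul, one_smul]
      simp only [e2, e4]
      noncomm_ring
    have a1 := peel_two W b is hone hE hnd hW
    have a2 := peel_two W b is hπ hE hnd hW
    have a3 := peel_two W b is hE hπ hnd hW
    have a4 := peel_three W b is hπ hE hnd hW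
    have h2 : ‖DD W is (t * tp E * t)‖ ≤ 9 * (3 / 4 : ℝ) ^ is.length := by
      rw [e1]
      simp only [DD_add, DD_sub, DD_smul]
      have n2 : ‖(2 : ℂ)‖ = 2 := by norm_num
      have n4 : ‖(4 : ℂ)‖ = 4 := by norm_num
      set A1 := DD W is (tp (fun _ => 1) * tp E)
      set A2 := DD W is (tp π * tp E)
      set A3 := DD W is (tp E * tp π)
      set A4 := DD W is (tp π * tp E * tp π)
      calc ‖A1 - (2 : ℂ) • A2 - (2 : ℂ) • A3 + (4 : ℂ) • A4‖
          ≤ ‖A1‖ + ‖(2 : ℂ) • A2‖ + ‖(2 : ℂ) • A3‖ + ‖(4 : ℂ) • A4‖ := by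
            refine (norm_add_le _ _).trans (add_le_add_left ?_ _)
            refine (norm_sub_le _ _).trans (add_le_add_left ?_ _)
            exact norm_sub_le _ _
        _ = ‖A1‖ + 2 * ‖A2‖ + 2 * ‖A3‖ + 4 * ‖A4‖ := by
            rw [norm_smul, norm_smul, norm_smul, n2, n4]
        _ ≤ (3 / 4 : ℝ) ^ is.length + 2 * (3 / 4 : ℝ) ^ is.length + 2 * (3 / 4 : ℝ) ^ is.length
            + 4 * (3 / 4 : ℝ) ^ is.length := by gcongr
        _ = _ := by ring
    exact block_numeric (norm_nonneg _) _ h1 h2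

lemma gateLayer_cons (h : Toffoli Q) (r : List (Toffoli Q)) :
    gateLayer (h :: r) = gateOf h.pi * gateLayer r := by
  rw [gateLayer_eq, gateLayer_eq, lprod_cons]

/-- **The two-layer bound.** Conjugating a tensor product of projections by one layer of gates:
each input qubit contributes a factor `(1/2) ^ (1/10)`. -/
theorem two_layer_bound (W : I → Op Q) (b : I → Q) :
    ∀ (gs : List (Toffoli Q)) (is : List I) (E : Q → M2),
      (gs.Pairwise fun g h => Disjoint g.supp h.supp) → (is.map b).Nodup →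
      (∀ i ∈ is, star (W i) = W i ∧ W i * W i = 1 ∧ W i ∈ Alg {b i}) → ProjFam E →
      ‖DD W is (gateLayer gs * tp E * gateLayer gs)‖ ^ 10 ≤ (1 / 2 : ℝ) ^ is.length := by
  intro gs
  induction gs with
  | nil =>
    intro is E _ hnd hW hE
    have h1 := peel_one W b is hE hnd hW
    simp only [gateLayer, List.map_nil, List.prod_nil, one_mul, mul_one]
    have h2 : ((1 / 2 : ℝ) ^ is.length) ^ 10 ≤ (1 / 2 : ℝ) ^ is.length :=
      pow_le_of_le_one (by positivity) (pow_le_one₀ (by norm_num) (by norm_num)) (by norm_num)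
    exact (pow_le_pow_left₀ (norm_nonneg _) h1 _).trans h2
  | cons h r ih =>
    intro is E hd hnd hW hE
    rw [List.pairwise_cons] at hd
    set U := h.supp with hU
    set E1 : Q → M2 := fun q => if q ∈ U then E q else 1 with hE1
    set E2 : Q → M2 := fun q => if q ∈ U then 1 else E q with hE2
    have hE1p : ProjFam E1 := by
      intro q
      by_cases hq : q ∈ U
      · simpa [hE1, hq] using hE q
      · simp only [hE1, hq, if_false]; exact IsStarProjection.one _
    have hE2p : ProjFam E2 := by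
      intro q
      by_cases hq : q ∈ U
      · simp only [hE2, hq, if_true]; exact IsStarProjection.one _
      · simpa [hE2, hq] using hE q
    have hsplit : tp E = tp E1 * tp E2 := tp_split E U
    have hE1mem : tp E1 ∈ Alg U := tp_mem_Alg fun q hq => by simp [hE1, hq]
    have hE2mem : tp E2 ∈ Alg Uᶜ := tp_mem_Alg fun q hq => by
      have : q ∈ U := by simpa using hq
      simp [hE2, this]
    have htmem : gateOf h.pi ∈ Alg U := h.mat_mem
    have hTmem : gateLayer r ∈ Alg Uᶜ := by
      rw [gateLayer_eq]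
      refine lprod_mem _ _ fun l hl => Alg_mem_mono ?_ l.mat_mem
      exact Finset.subset_compl_iff_disjoint_right.mpr (hd.1 l hl).symm
    have hSS : ∀ a ∈ Alg U, ∀ c ∈ Alg Uᶜ, Commute a c := fun a ha c hc =>
      Alg_commute disjoint_compl_right ha hc
    have hC1 := hSS _ htmem _ hTmem
    have hC2 := hSS _ hE1mem _ hTmem
    have hC3 := hSS _ htmem _ hE2mem
    set t := gateOf h.pi with ht
    set T := gateLayer r with hT
    have hX : t * T * tp E * (t * T) = (t * tp E1 * t) * (T * tp E2 * T) := by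
      rw [hsplit]
      calc t * T * (tp E1 * tp E2) * (t * T)
          = t * (T * tp E1) * tp E2 * (t * T) := by simp only [mul_assoc]
        _ = t * (tp E1 * T) * tp E2 * (t * T) := by rw [hC2.symm.eq]
        _ = t * tp E1 * (T * tp E2) * (t * T) := by simp only [mul_assoc]
        _ = t * tp E1 * (T * tp E2 * t) * T := by simp only [mul_assoc]
        _ = t * tp E1 * (T * (tp E2 * t)) * T := by simp only [mul_assoc]
        _ = t * tp E1 * (T * (t * tp E2)) * T := by rw [hC3.symm.eq]
        _ = t * tp E1 * ((T * t) * tp E2) * T := by simp only [mul_assoc]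
        _ = t * tp E1 * ((t * T) * tp E2) * T := by rw [hC1.symm.eq]
        _ = t * tp E1 * t * (T * tp E2 * T) := by simp only [mul_assoc]
    have hCmem : t * tp E1 * t ∈ Alg U := mul_mem (mul_mem htmem hE1mem) htmem
    have hYmem : T * tp E2 * T ∈ Alg Uᶜ := mul_mem (mul_mem hTmem hE2mem) hTmem
    set p : I → Bool := fun i => decide (b i ∈ U) with hp
    have h1' : ∀ i ∈ is, p i = true → W i ∈ Alg U := by
      intro i hi hpi
      refine Alg_mem_mono ?_ (hW i hi).2.2
      have : b i ∈ U := by simpa [hp] using hpi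
      simpa using this
    have h2' : ∀ i ∈ is, p i = false → W i ∈ Alg Uᶜ := by
      intro i hi hpi
      refine Alg_mem_mono ?_ (hW i hi).2.2
      have : b i ∉ U := by simpa [hp] using hpi
      simpa using this
    have hgl : gateLayer (h :: r) = t * T := gateLayer_cons h r
    rw [hgl, hX, DD_split W (Alg U) (Alg Uᶜ) hSS p hCmem hYmem is h1' h2']
    have hnd1 : ((is.filter p).map b).Nodup := ((List.filter_sublist).map b).nodup hnd
    have hnd2 : ((is.filter fun i => !p i).map b).Nodup := ((List.filter_sublist).map b).nodup hnd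
    have hb1 := block_bound W b (is.filter p) h.pi_proj hE1p hnd1
      (fun i hi => hW i (List.mem_of_mem_filter hi))
    have hb2 := ih (is.filter fun i => !p i) E2 hd.2 hnd2
      (fun i hi => hW i (List.mem_of_mem_filter hi)) hE2p
    have hlen : is.length = (is.filter p).length + (is.filter fun i => !p i).length :=
      List.length_eq_length_filter_add p
    rw [hlen, pow_add]
    calc ‖DD W (is.filter p) (t * tp E1 * t) * DD W (is.filter fun i => !p i) (T * tp E2 * T)‖ ^ 10
        ≤ (‖DD W (is.filter p) (t * tp E1 * t)‖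
            * ‖DD W (is.filter fun i => !p i) (T * tp E2 * T)‖) ^ 10 :=
          pow_le_pow_left₀ (norm_nonneg _) (norm_mul_le _ _) _
      _ = ‖DD W (is.filter p) (t * tp E1 * t)‖ ^ 10
            * ‖DD W (is.filter fun i => !p i) (T * tp E2 * T)‖ ^ 10 := mul_pow _ _ _
      _ ≤ _ := by gcongr

end Vale.Agent.Lib.P368
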